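import Vale.Agent.P146.H946.EnB

/-!
Energy bounds with the weight at the same time, part 3: the step inequality for a fixed weight
`Y` of the deep position and for the weight `Q_1(t)`; bounds of the quantities.
-/

open MeasureTheory ProbabilityTheory

namespace Vale.Agent.P146.H946.En2

open Vale.Agent.P157.Lv Vale.Agent.P146.H425 Vale.Agent.P146.H325 Vale.Agent.P146.H332
  Vale.Agent.P146.H712 Vale.Agent.P146.H816 Vale.Agent.P146.R1 Vale.Agent.P146.R1C Matrix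
  Vale.Agent.P146.R1S Vale.Agent.P146.H693 Vale.Agent.P146.H655
open Vale.Agent.P146.H785 (Ax)

set_option linter.unusedSectionVars false

variable {n : ℕ} {k x : ℝ} {S : CS n k x} {w t t' : ℝ} {m σ : ℕ → ℝ} {N : ℕ}
  {M : Matrix (Fin n) (Fin n) ℝ} {Y : (Pair n → ℝ) → Matrix (Fin n) (Fin n) ℝ}

lemma psd_zero : Psd (0 : Matrix (Fin n) (Fin n) ℝ) :=
  ⟨transpose_zero, fun c => by simp⟩

/-- **The step inequality with a fixed weight.** -/
theorem EnTW_le {bY Nb : ℝ} (hm : Pm m N) (c : ℝ) (hY : ∀ i j, EG fun z => Y z i j)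
    (hp : ∀ z, Psd (Y z)) (hb : ∀ z i j, |Y z i j| ≤ bY) (hN : 0 ≤ Nb) (h1 : w ≤ t)
    (h2 : t < t') (h3 : t' ≤ 1) (hk : Sh S (t' - t)) :
    (t' - t) * EnTW S w m σ N c Y t ≤
      (4 * QNW S w m σ N c Y t' + 32 * Nb * NW S w m σ N c Y t') -
      (4 * QNW S w m σ N c Y t + 32 * Nb * NW S w m σ N c Y t) +
      64 * (n : ℝ) ^ 5 * bY * (pB S w m σ N c Nb t' + pB S w m σ N c Nb t) := by
  have h := step_W (S := S) (σ := σ) (Nb := Nb) hm c hY hY hp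
    (fun z => by rw [sub_self]; exact psd_zero) hb hN h1 h2 h3 hk
  rw [IncW_eq hm c hY h1 h2.le h3] at h
  linarith

/-- the mean of `<Y, C_t²>` -/
lemma E1_qF (hm : Pm m N) (M : Matrix (Fin n) (Fin n) ℝ) (z : Pair n → ℝ) :
    E1 S w m σ N t (qF S t M) z = ∑ i, ∑ j, M i j * Q1 S w m σ N t z i j :=
  E1_sum2 hm M (fun i j => eg_A2 S t i j) z

lemma QN_le {bM Nb : ℝ} (hM : Psd M) (hb : ∀ i j, |M i j| ≤ bM) (hN : 0 ≤ Nb) (t : ℝ)
    (u : Pair n → ℝ) :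
    QN S t M u ≤ Nb * qF S t M u + (n : ℝ) ^ 5 * bM * bd S Nb t u := by
  have a1 := frA_le_bd (S := S) hN t u
  have a2 := qF_nonneg (S := S) (t := t) hM u
  have a3 := (le_abs_self _).trans (abs_qF (S := S) hb t u)
  have a4 : 0 ≤ (n : ℝ) ^ 2 * bd S Nb t u := mul_nonneg (by positivity) (bd_nonneg _ _ _)
  calc QN S t M u ≤ qF S t M u * (Nb + (n : ℝ) ^ 2 * bd S Nb t u) :=
        mul_le_mul_of_nonneg_left a1 a2
    _ = Nb * qF S t M u + qF S t M u * ((n : ℝ) ^ 2 * bd S Nb t u) := by ring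
    _ ≤ Nb * qF S t M u + ((n : ℝ) ^ 3 * bM) * ((n : ℝ) ^ 2 * bd S Nb t u) :=
        add_le_add le_rfl (mul_le_mul_of_nonneg_right a3 a4)
    _ = _ := by ring

theorem QNW_le {bY Nb : ℝ} (hm : Pm m N) (c : ℝ) (hY : ∀ i j, EG fun z => Y z i j)
    (hp : ∀ z, Psd (Y z)) (hb : ∀ z i j, |Y z i j| ≤ bY) (hN : 0 ≤ Nb) :
    QNW S w m σ N c Y t ≤ Nb * NW S w m σ N c Y t +
      (n : ℝ) ^ 5 * bY * pB S w m σ N c Nb t := by
  have i1 := eg_QNW (S := S) (w := w) (t := t) (σ := σ) hm hY c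
  have i2 := (eg_NW (S := S) (w := w) (σ := σ) hm c t hY).const_mul Nb
  have i3 := (eg_pB (S := S) (w := w) (t := t) (σ := σ) hm c Nb).const_mul ((n : ℝ) ^ 5 * bY)
  have key : ∀ z, E1 S w m σ N t (QN S t (Y z)) z ≤
      Nb * (∑ i, ∑ j, Y z i j * Q1 S w m σ N t z i j) +
        (n : ℝ) ^ 5 * bY * E1 S w m σ N t (bd S Nb t) z := by
    intro z
    have a1 := E1_mono (S := S) (w := w) (t := t) (σ := σ) hm (eg_QN (S := S) t (Y z))
      (((eg_qF t (Y z)).const_mul Nb).add ((eg_bd S Nb t).const_mul ((n : ℝ) ^ 5 * bY)))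
      (fun u => QN_le (hp z) (hb z) hN t u) z
    rw [E1_add hm ((eg_qF t (Y z)).const_mul Nb) ((eg_bd S Nb t).const_mul _), E1_const_mul,
      E1_const_mul] at a1
    have a2 := E1_qF (S := S) (w := w) (t := t) (σ := σ) hm (Y z) z
    have a3 : E1 S w m σ N t (fun u => qF S t (Y z) u) z = E1 S w m σ N t (qF S t (Y z)) z := rfl
    rw [← a2]
    exact a1
  have e1 := integral_mono i1.integrable (i2.add i3).integrable fun g => key (c • g)
  rw [integral_add i2.integrable i3.integrable, integral_const_mul, integral_const_mul] at e1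
  exact e1

/-- the weight `Q_1(t)` -/
noncomputable def EnTQ (S : CS n k x) (w : ℝ) (m σ : ℕ → ℝ) (N : ℕ) (c t : ℝ) : ℝ :=
  ∫ g, E1 S w m σ N t (EnT S t (Q1 S w m σ N t (c • g))) (c • g) ∂(gI (Pair n))

/-- `E <Q_1(t), C_t²> |C_t|²` -/
noncomputable def QNQ (S : CS n k x) (w : ℝ) (m σ : ℕ → ℝ) (N : ℕ) (c t : ℝ) : ℝ :=
  ∫ g, E1 S w m σ N t (QN S t (Q1 S w m σ N t (c • g))) (c • g) ∂(gI (Pair n))

lemma EnTQ_nonneg (hm : Pm m N) (c : ℝ) : 0 ≤ EnTQ S w m σ N c t :=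
  EnTW_nonneg (Y := Q1 S w m σ N t) c fun z => Q1_psd hm z

lemma QNQ_nonneg (hm : Pm m N) (c : ℝ) : 0 ≤ QNQ S w m σ N c t :=
  QNW_nonneg (Y := Q1 S w m σ N t) c fun z => Q1_psd hm z

/-- **The step inequality with the weight `Q_1(t)`.** -/
theorem EnTQ_le {Nb : ℝ} (hm : Pm m N) (c : ℝ) (hN : 0 ≤ Nb) (h1 : w ≤ t) (h2 : t < t')
    (h3 : t' ≤ 1) (hk : Sh S (t' - t)) :
    (t' - t) * EnTQ S w m σ N c t ≤
      (4 * QNQ S w m σ N c t' + 16 * Nb * NQ S w m σ N c t') -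
      (4 * QNQ S w m σ N c t + 16 * Nb * NQ S w m σ N c t) +
      64 * (n : ℝ) ^ 6 * (pB S w m σ N c Nb t' + pB S w m σ N c Nb t) := by
  have h := step_W (S := S) (σ := σ) (Nb := Nb) (Y := Q1 S w m σ N t)
    (Y' := Q1 S w m σ N t') hm c (fun i j => eg_Q1 hm i j) (fun i j => eg_Q1 hm i j)
    (fun z => Q1_psd hm z) (fun z => Q1_inc hm h1 h2.le h3 z) (fun z i j => abs_Q1 hm z i j)
    hN h1 h2 h3 hk
  have h4 : IncW S w m σ N c (Q1 S w m σ N t) t t' ≤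
      (NQ S w m σ N c t' - NQ S w m σ N c t) / 2 :=
    IncQ_le (S := S) (σ := σ) hm c h1 h2.le h3
  have h5 := mul_le_mul_of_nonneg_left h4 (show 0 ≤ 32 * Nb by positivity)
  have e1 : EnTW S w m σ N c (Q1 S w m σ N t) t = EnTQ S w m σ N c t := rfl
  have e2 : QNW S w m σ N c (Q1 S w m σ N t') t' = QNQ S w m σ N c t' := rfl
  have e3 : QNW S w m σ N c (Q1 S w m σ N t) t = QNQ S w m σ N c t := rfl
  rw [e1, e2, e3] at h
  have e4 : 64 * (n : ℝ) ^ 5 * n = 64 * (n : ℝ) ^ 6 := by ring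
  rw [e4] at h
  linarith

theorem QNQ_le {Nb : ℝ} (hm : Pm m N) (c : ℝ) (hN : 0 ≤ Nb) :
    QNQ S w m σ N c t ≤ Nb * NQ S w m σ N c t + (n : ℝ) ^ 6 * pB S w m σ N c Nb t := by
  have h := QNW_le (S := S) (w := w) (t := t) (σ := σ) (Nb := Nb) (Y := Q1 S w m σ N t) hm c
    (fun i j => eg_Q1 hm i j) (fun z => Q1_psd hm z) (fun z i j => abs_Q1 hm z i j) hN
  have e1 : NW S w m σ N c (Q1 S w m σ N t) t = NQ S w m σ N c t := by
    unfold NW NQ
    refine integral_congr_ae (Filter.Eventually.of_forall fun g => ?_)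
    simp only
    unfold fr
    exact Finset.sum_congr rfl fun i _ => Finset.sum_congr rfl fun j _ => by ring
  rw [e1] at h
  have e2 : QNW S w m σ N c (Q1 S w m σ N t) t = QNQ S w m σ N c t := rfl
  rw [e2] at h
  have e4 : (n : ℝ) ^ 5 * n = (n : ℝ) ^ 6 := by ring
  rw [e4] at h
  exact h

end Vale.Agent.P146.H946.En2
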