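import Vale.Agent.P146.H946.SkO
import Vale.Agent.P146.H325.Fo
import Vale.Agent.P146.H332.CPos
import Vale.Agent.P146.H522.SkDic

/-!
Plan R1: the output of the block F for SK in the form `Fo`, the input of the blocks C, KAP, LAM.
-/

open MeasureTheory ProbabilityTheory

namespace Vale.Agent.P146.H946

open Vale.Agent.P157.Lv Vale.Agent.P146.H425 Vale.Agent.P146.H332 Vale.Agent.P146.H325
open Vale.Agent.P146.R1

set_option linter.unusedSectionVars false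

variable {n : ℕ}

/-! ### the dictionary -/

lemma ew_RR (k x t : ℝ) (G : (Pair n → ℝ) → ℝ) (z : Pair n → ℝ) :
    ew x t (lz k SkS) G z = RR k SkS x (fun _ => √(1 - t)) G z := (H522.RR_eq k SkS x t G z).symm

/-- the Hessian of the value function -/
lemma hh_hsk (k x t : ℝ) (e i : Pair n) (z : Pair n → ℝ) :
    hh x t (lz k SkS) (Dz k) (Hz k) e i z = H522.hsk k SkS x t e i z := by
  rw [← H522.hsk_eq]
  unfold hh
  rw [ew_RR, ew_RR, H522.dd_gen, H522.dd_gen]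

/-- the derivative of the matrix in terms of the Hessian of the value function -/
lemma hsk_DC (k x t : ℝ) (e i : Pair n) (z : Pair n → ℝ) :
    H522.hsk k SkS x t e i z = k * R1C.DC k x t i z e.1.1 e.1.2 := by
  have e1 : R1C.DC k x t i z e.1.1 e.1.2 =
      RR k SkS x (fun _ => √(1 - t)) (av' k SkS x (SkS e) i) z -
        RR k SkS x (fun _ => √(1 - t)) (H325.av k SkS (SkS e)) z *
          RR k SkS x (fun _ => √(1 - t)) (one' k SkS x i) z := rfl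
  have e2 : av' k SkS x (SkS e) i = fun u : Pair n → ℝ =>
      k * (H325.av k SkS (fun σ => SkS e σ * SkS i σ) u -
        (1 - x) * (H325.av k SkS (SkS e) u * H325.av k SkS (SkS i) u)) := rfl
  have e3 : one' k SkS x i = fun u : Pair n → ℝ => k * x * H325.av k SkS (SkS i) u := rfl
  rw [e1, e2, e3, H522.RR_const_mul, H522.RR_const_mul,
    H522.RR_sub k SkS x _ (eg_av k SkS _) (((eg_av k SkS _).mul (eg_av k SkS _)).const_mul _),
    H522.RR_const_mul]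
  unfold H522.hsk
  ring

lemma hh_DC (k x t : ℝ) (e i : Pair n) (z : Pair n → ℝ) :
    hh x t (lz k SkS) (Dz k) (Hz k) e i z = k * R1C.DC k x t i z e.1.1 e.1.2 := by
  rw [hh_hsk, hsk_DC]

lemma DC_diag (k x t : ℝ) (e : Pair n) (z : Pair n → ℝ) (i : Fin n) :
    R1C.DC k x t e z i i = 0 := by
  have h1 := R1C.pd_AA (k := k) (x := x) (s := t) e i i z (z e)
  simp only [R1C.AA_self, Function.update_eq_self] at h1
  exact h1.unique (hasDerivAt_const _ _)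

/-- the squared Hessian -/
theorem hq_DC (k x t : ℝ) (z : Pair n → ℝ) :
    hq x t (lz k SkS) (Dz k) (Hz k) z = k ^ 2 / 2 * R1C.rt (R1C.DC k x) t z := by
  unfold hq R1C.rt
  rw [Finset.sum_comm, Finset.mul_sum]
  refine Finset.sum_congr rfl fun i _ => ?_
  have h := sum_pairs (n := n) (fun p q => R1C.DC k x t i z p q ^ 2)
    (fun p q => by rw [R1C.DC_comm]) (fun p => by rw [DC_diag]; ring)
  unfold fr
  rw [h, Finset.mul_sum, Finset.mul_sum]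
  refine Finset.sum_congr rfl fun e _ => ?_
  rw [hh_DC]
  ring

/-! ### means of functions of one position -/

section one

variable {q : R1C.Par} {F : (Pair n → ℝ) → ℝ} {D : Pair n → (Pair n → ℝ) → ℝ} {B L : ℝ}
  {ψ : (Pair n → ℝ) → ℝ}

lemma En_0 (h : C11 F D B L) (hq : q.Ok) (hψ : EG ψ) :
    R1C.En q F (fun w => ψ (R1C.P0 q w)) =
      R1.Et q.x q.θ q.t0 q.t1 q.s1 F (fun z0 _ _ => ψ z0) :=
  (R1C.En_eq q F fun z0 _ _ _ => ψ z0).trans (Et4_123 h hq.x0 (E3.of0 hψ) hq.h12 hq.h2)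

lemma En_1 (h : C11 F D B L) (hq : q.Ok) (hψ : EG ψ) :
    R1C.En q F (fun w => ψ (R1C.P1 q w)) =
      R1.Et q.x q.θ q.t0 q.t1 q.s1 F (fun _ z1 _ => ψ z1) :=
  (R1C.En_eq q F fun _ z1 _ _ => ψ z1).trans (Et4_123 h hq.x0 (E3.of1 hψ) hq.h12 hq.h2)

lemma En_2 (h : C11 F D B L) (hq : q.Ok) (hψ : EG ψ) :
    R1C.En q F (fun w => ψ (R1C.P2 q w)) =
      R1.Et q.x q.θ q.t0 q.t1 q.s1 F (fun _ _ z2 => ψ z2) :=
  (R1C.En_eq q F fun _ _ z2 _ => ψ z2).trans (Et4_123 h hq.x0 (E3.of2 hψ) hq.h12 hq.h2)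

lemma En_3 (h : C11 F D B L) (hq : q.Ok) (hψ : EG ψ) :
    R1C.En q F (fun w => ψ (R1C.P3 q w)) =
      R1.Et q.x q.θ q.t0 q.t1 q.s2 F (fun _ _ z2 => ψ z2) :=
  (R1C.En_eq q F fun _ _ _ z3 => ψ z3).trans (Et4_124 h hq.x0 (E3.of2 hψ) hq.h1 hq.h12)

end one

/-! ### the comparison of the sizes -/

lemma kk_pos (hn : 0 < n) {β : ℝ} (hβ : 0 < β) : 0 < R1C.kk n β := by
  unfold R1C.kk
  have : (0 : ℝ) < n := Nat.cast_pos.2 hn
  positivity

lemma kk_sq (hn : 0 < n) (β : ℝ) : R1C.kk n β ^ 2 * n = β ^ 2 := by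
  have h : (0 : ℝ) < n := Nat.cast_pos.2 hn
  unfold R1C.kk
  rw [div_pow, Real.sq_sqrt h.le]
  field_simp

lemma kk_NN' (hn : 0 < n) {β : ℝ} (hβ : 0 < β) (ρ : ℝ) :
    R1C.kk n β ^ 2 / 2 * R1C.NN n β ρ = ρ := by
  have h : (0 : ℝ) < n := Nat.cast_pos.2 hn
  unfold R1C.kk R1C.NN
  rw [div_pow, Real.sq_sqrt h.le]
  field_simp

lemma eg_fr_AA (k x t : ℝ) : EG fun z : Pair n → ℝ => fr (AA k x t z) := by
  unfold fr
  exact EG.sum _ fun i _ => EG.sum _ fun j _ => (R1C.eg_AA' i j).pow 2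

lemma eg_sqz (k x t : ℝ) :
    EG (R1.sq x t (lz k (SkS (n := n))) (Dz k)) := by
  have h : R1.sq x t (lz k (SkS (n := n))) (Dz k) =
      fun z => k ^ 2 / 2 * fr (AA k x t z) + -(k ^ 2 / 2 * n) := by
    funext z
    rw [H522.sq_sk]
    ring
  rw [h]
  exact ((eg_fr_AA k x t).const_mul _).add (EG.const _)

lemma eg_ite {p : (Pair n → ℝ) → Prop} [DecidablePred p] (hp : MeasurableSet {z | p z}) :
    EG fun z : Pair n → ℝ => if p z then (1 : ℝ) else 0 := by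
  refine EG.of_bdd (C := 1) (Measurable.ite hp measurable_const measurable_const) fun w => ?_
  split_ifs <;> simp

section comp

variable {β ρ a A t x : ℝ} (hn : 0 < n) (hβ : 0 < β)
include hn hβ

/-- a large matrix has a large gradient -/
lemma up_imp (h : β ^ 2 / 2 + a * ρ ≤ A * ρ) (z : Pair n → ℝ) :
    (if A * R1C.NN n β ρ < fr (AA (R1C.kk n β) x t z) then (1 : ℝ) else 0) ≤
      if a * ρ ≤ R1.sq x t (lz (R1C.kk n β) SkS) (Dz (R1C.kk n β)) z then (1 : ℝ) else 0 := by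
  by_cases h1 : A * R1C.NN n β ρ < fr (AA (R1C.kk n β) x t z)
  · rw [if_pos h1, if_pos]
    have hk := kk_pos hn hβ
    have h2 : R1C.kk n β ^ 2 / 2 * (A * R1C.NN n β ρ) <
        R1C.kk n β ^ 2 / 2 * fr (AA (R1C.kk n β) x t z) :=
      mul_lt_mul_of_pos_left h1 (by positivity)
    have h3 := kk_NN' hn hβ ρ
    have h4 := kk_sq hn β
    rw [H522.sq_sk, mul_sub]
    rw [mul_left_comm, h3] at h2
    linarith
  · rw [if_neg h1]
    split_ifs <;> norm_num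

/-- a small matrix has a small gradient -/
lemma lo_imp (h : ρ / A ≤ a * ρ) (z : Pair n → ℝ) :
    (if fr (AA (R1C.kk n β) x t z) < R1C.NN n β ρ / A then (1 : ℝ) else 0) ≤
      if R1.sq x t (lz (R1C.kk n β) SkS) (Dz (R1C.kk n β)) z ≤ a * ρ then (1 : ℝ) else 0 := by
  by_cases h1 : fr (AA (R1C.kk n β) x t z) < R1C.NN n β ρ / A
  · rw [if_pos h1, if_pos]
    have hk := kk_pos hn hβ
    have h2 : R1C.kk n β ^ 2 / 2 * fr (AA (R1C.kk n β) x t z) ≤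
        R1C.kk n β ^ 2 / 2 * (R1C.NN n β ρ / A) :=
      mul_le_mul_of_nonneg_left h1.le (by positivity)
    have h3 := kk_NN' hn hβ ρ
    have h4 := kk_sq hn β
    rw [← mul_div_assoc, h3] at h2
    rw [H522.sq_sk, mul_sub]
    have h5 : 0 ≤ R1C.kk n β ^ 2 * n := by rw [h4]; positivity
    linarith
  · rw [if_neg h1]
    split_ifs <;> norm_num

end comp

lemma eg_rt {k x : ℝ} (hx : 0 ≤ x) (t : ℝ) :
    EG fun z : Pair n → ℝ => R1C.rt (R1C.DC k x) t z := by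
  unfold R1C.rt fr
  exact EG.sum _ fun e _ => EG.sum _ fun i _ => EG.sum _ fun j _ => (R1C.eg_DC hx e i j).pow 2

section means

variable {k x θ t0 t1 s : ℝ}

lemma Ht_rt : Ht x θ t0 t1 s (lz k (SkS (n := n))) (Dz k) (Hz k) =
    k ^ 2 / 2 * R1.Et x θ t0 t1 s (lz k (SkS (n := n))) (fun _ _ z2 => R1C.rt (n := n) (R1C.DC k x) s z2) := by
  rw [← R1.Et_const_mul]
  unfold Ht
  simp only [hq_DC]

lemma Qt_fr (hx : 0 < x) : Qt x θ t0 t1 s (lz k (SkS (n := n))) (Dz k) =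
    k ^ 2 / 2 * R1.Et x θ t0 t1 s (lz k (SkS (n := n))) (fun _ _ z2 => fr (AA k x s z2)) -
      k ^ 2 / 2 * n := by
  have h := c11_lz k (SkS (n := n))
  have e1 : Qt x θ t0 t1 s (lz k (SkS (n := n))) (Dz k) = R1.Et x θ t0 t1 s (lz k (SkS (n := n)))
      (fun _ _ z2 => k ^ 2 / 2 * fr (AA k x s z2) - k ^ 2 / 2 * n) := by
    unfold R1.Qt
    congr 1
    funext _ _ z2
    rw [H522.sq_sk]
    ring
  rw [e1, R1.Et_sub h hx (E3.of2 ((eg_fr_AA k x s).const_mul _)) (E3.const _), R1.Et_const_mul,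
    R1.Et_const h hx]

end means

/-- **The output of the block F in the form `Fo`** -/
theorem fo_of_fdata {β ε α al : ℝ} (hn : 2 ≤ n) (hβ : 0 < β) (hα : 0 < α) (hα1 : α ≤ 1 / 42)
    (hal : α ≤ al) (h40 : 40 * al + α ≤ ε) (hβn : β ^ 2 ≤ n)
    (hgap : β ^ 2 / 2 ≤ (n : ℝ) ^ al - (n : ℝ) ^ α)
    (hδ : (n : ℝ) ^ 200 * Real.exp (-(n : ℝ) ^ (ε / 2)) ≤ 1) {x θ T ρ s1 s2 : ℝ}
    (hd : FData n α ε (β ^ 2 / 2) (lz (R1C.kk n β) (SkS (n := n))) (Dz (R1C.kk n β))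
      (fun x θ T s => Ht x θ (1 - T) (1 - T / 2) s (lz (R1C.kk n β) (SkS (n := n)))
        (Dz (R1C.kk n β)) (Hz (R1C.kk n β))) x θ T ρ s1 s2) :
    R1C.Fo n β ((n : ℝ) ^ al) (Real.exp (-(n : ℝ) ^ (ε / 2))) T ρ
      ⟨x, θ, 1 - T, 1 - T / 2, s1, s2⟩ (lz (R1C.kk n β) SkS) (AA (R1C.kk n β) x)
      (R1C.DC (R1C.kk n β) x) := by
  have hn0 : 0 < n := by omega
  have hnr : (2 : ℝ) ≤ n := by exact_mod_cast hn
  have hn1 : (1 : ℝ) ≤ n := by linarith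
  have hnp : (0 : ℝ) < n := by linarith
  have hx : 0 < x := lt_of_lt_of_le (Real.rpow_pos_of_pos hnp _) hd.x_low
  have hT := hd.T_pos
  have hT1 := hd.T_le
  have hρ := hd.ρ_pos
  have hs1 := hd.s1_low
  have hs12 := hd.s12
  have hs2 := hd.s2_up
  have hk := kk_pos hn0 hβ
  have hkN := kk_NN' hn0 hβ ρ
  have h := c11_lz (R1C.kk n β) (SkS (n := n))
  have hx1 : x ≤ 1 :=
    hd.x_up.trans (Real.rpow_le_one_of_one_le_of_nonpos hn1 (by linarith))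
  have ok : R1C.Par.Ok ⟨x, θ, 1 - T, 1 - T / 2, s1, s2⟩ :=
    ⟨hx, hx1, hd.θ_pos.le, hd.θ_le.trans (by norm_num), by simpa using hT1,
      by simp only; linarith, by simp only; linarith, by simp only; linarith,
      by simp only; linarith⟩
  have hA1 : (1 : ℝ) ≤ (n : ℝ) ^ al := Real.one_le_rpow hn1 (by linarith)
  have hρ1 : 1 ≤ ρ := (Real.one_le_rpow hn1 (by linarith)).trans hd.ρ_low
  have hNN : 0 < R1C.NN n β ρ := by
    unfold R1C.NN
    positivity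
  have hαal : (n : ℝ) ^ α ≤ (n : ℝ) ^ al := Real.rpow_le_rpow_of_exponent_le hn1 hal
  -- the thresholds
  have hup : β ^ 2 / 2 + (n : ℝ) ^ α * ρ ≤ (n : ℝ) ^ al * ρ := by
    have h1 : β ^ 2 / 2 * 1 ≤ ((n : ℝ) ^ al - (n : ℝ) ^ α) * ρ :=
      mul_le_mul hgap hρ1 zero_le_one (le_trans (by positivity) hgap)
    linarith
  have hinv : 1 / (n : ℝ) ^ al ≤ (n : ℝ) ^ (-α) := by
    rw [Real.rpow_neg hnp.le, one_div]
    exact inv_anti₀ (Real.rpow_pos_of_pos hnp _) hαal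
  have hlo : ρ / (n : ℝ) ^ al ≤ (n : ℝ) ^ (-α) * ρ := by
    have := mul_le_mul_of_nonneg_right hinv hρ.le
    calc ρ / (n : ℝ) ^ al = 1 / (n : ℝ) ^ al * ρ := by ring
      _ ≤ _ := this
  have mfr : ∀ t, Measurable fun z : Pair n → ℝ => fr (AA (R1C.kk n β) x t z) :=
    fun t => (eg_fr_AA _ _ _).meas
  have msq : ∀ t, Measurable (R1.sq x t (lz (R1C.kk n β) (SkS (n := n))) (Dz (R1C.kk n β))) :=
    fun t => (eg_sqz _ _ _).meas
  have eu : ∀ t, EG fun z : Pair n → ℝ => if (n : ℝ) ^ al * R1C.NN n β ρ <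
      fr (AA (R1C.kk n β) x t z) then (1 : ℝ) else 0 :=
    fun t => eg_ite (measurableSet_lt measurable_const (mfr t))
  have el : ∀ t, EG fun z : Pair n → ℝ => if fr (AA (R1C.kk n β) x t z) <
      R1C.NN n β ρ / (n : ℝ) ^ al then (1 : ℝ) else 0 :=
    fun t => eg_ite (measurableSet_lt (mfr t) measurable_const)
  have eu' : ∀ t, EG fun z : Pair n → ℝ => if (n : ℝ) ^ α * ρ ≤
      R1.sq x t (lz (R1C.kk n β) SkS) (Dz (R1C.kk n β)) z then (1 : ℝ) else 0 :=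
    fun t => eg_ite (measurableSet_le measurable_const (msq t))
  have el' : ∀ t, EG fun z : Pair n → ℝ => if
      R1.sq x t (lz (R1C.kk n β) SkS) (Dz (R1C.kk n β)) z ≤ (n : ℝ) ^ (-α) * ρ
      then (1 : ℝ) else 0 :=
    fun t => eg_ite (measurableSet_le (msq t) measurable_const)
  have rate : ∀ s, Ht x θ (1 - T) (1 - T / 2) s (lz (R1C.kk n β) (SkS (n := n)))
      (Dz (R1C.kk n β)) (Hz (R1C.kk n β)) ≤ (n : ℝ) ^ α * ρ / T →
      R1.Et x θ (1 - T) (1 - T / 2) s (lz (R1C.kk n β) (SkS (n := n)))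
        (fun _ _ z2 => R1C.rt (R1C.DC (R1C.kk n β) x) s z2) ≤
          (n : ℝ) ^ al * R1C.NN n β ρ / T := by
    intro s h1
    rw [Ht_rt] at h1
    have h2 : R1C.kk n β ^ 2 / 2 * ((n : ℝ) ^ al * R1C.NN n β ρ / T) =
        (n : ℝ) ^ al * ρ / T := by
      conv_rhs => rw [← hkN]
      ring
    refine le_of_mul_le_mul_left (h1.trans ?_) (by positivity : 0 < R1C.kk n β ^ 2 / 2)
    rw [h2]
    gcongr
  refine ⟨hn, hβ, ok, hd.θ_le, hA1, ?_, hd.T_low, hT1, rfl, rfl, hs1, hs12, hs2, ?_, ?_, hβn,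
    (Real.exp_pos _).le, hδ, ?_, ?_, ?_, ?_, ?_, ?_, ?_, ?_, ?_⟩
  · have h1 : x * (n : ℝ) ^ ((1 : ℝ) / 7) ≤ (n : ℝ) ^ (-(1 / 6) + α : ℝ) * (n : ℝ) ^ ((1 : ℝ) / 7) :=
      mul_le_mul_of_nonneg_right hd.x_up (Real.rpow_nonneg hnp.le _)
    refine h1.trans ?_
    rw [← Real.rpow_add hnp]
    exact Real.rpow_le_one_of_one_le_of_nonpos hn1 (by linarith)
  · refine le_trans ?_ hd.y_low
    rw [← Real.rpow_natCast, ← Real.rpow_mul hnp.le]
    refine Real.rpow_le_rpow_of_exponent_le hn1 ?_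
    push_cast
    linarith
  · have := hd.ρ_le
    linarith
  · refine (En_0 h ok (eu (1 - T))).trans_le (le_trans ?_ (hd.up0 s1 hs1.le (by linarith)))
    exact R1.Et_mono h hx (E3.of0 (eu _)) (E3.of0 (eu' _)) fun z0 _ _ => up_imp hn0 hβ hup z0
  · refine (En_1 h ok (eu (1 - T / 2))).trans_le (le_trans ?_ (hd.up1 s1 hs1.le (by linarith)))
    exact R1.Et_mono h hx (E3.of1 (eu _)) (E3.of1 (eu' _)) fun _ z1 _ => up_imp hn0 hβ hup z1
  · refine (En_2 h ok (eu s1)).trans_le (le_trans ?_ (hd.up2 s1 hs1.le (by linarith)))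
    exact R1.Et_mono h hx (E3.of2 (eu _)) (E3.of2 (eu' _)) fun _ _ z2 => up_imp hn0 hβ hup z2
  · refine (En_3 h ok (eu s2)).trans_le (le_trans ?_ (hd.up2 s2 (by linarith) hs2.le))
    exact R1.Et_mono h hx (E3.of2 (eu _)) (E3.of2 (eu' _)) fun _ _ z2 => up_imp hn0 hβ hup z2
  · refine (En_2 h ok (el s1)).trans_le (le_trans ?_ (hd.low s1 hs1.le (by linarith)))
    exact R1.Et_mono h hx (E3.of2 (el _)) (E3.of2 (el' _)) fun _ _ z2 => lo_imp hn0 hβ hlo z2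
  · refine (En_3 h ok (el s2)).trans_le (le_trans ?_ (hd.low s2 (by linarith) hs2.le))
    exact R1.Et_mono h hx (E3.of2 (el _)) (E3.of2 (el' _)) fun _ _ z2 => lo_imp hn0 hβ hlo z2
  · exact (En_2 h ok (eg_rt hx.le s1)).trans_le (rate s1 hd.rate1)
  · exact (En_3 h ok (eg_rt hx.le s2)).trans_le (rate s2 hd.rate2)
  · intro hTA
    have h1 := hd.grow (hTA.trans hinv)
    rw [Qt_fr hx, Qt_fr hx] at h1
    have e2 := En_2 h ok (eg_fr_AA (R1C.kk n β) x s1)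
    have e3 := En_3 h ok (eg_fr_AA (R1C.kk n β) x s2)
    refine le_of_mul_le_mul_left ?_ (by positivity : 0 < R1C.kk n β ^ 2 / 2)
    calc R1C.kk n β ^ 2 / 2 * (R1C.NN n β ρ / (n : ℝ) ^ al) = ρ / (n : ℝ) ^ al := by
          conv_rhs => rw [← hkN]
          ring
      _ ≤ (n : ℝ) ^ (-α) * ρ := hlo
      _ ≤ _ := h1
      _ = R1C.kk n β ^ 2 / 2 * (R1C.En ⟨x, θ, 1 - T, 1 - T / 2, s1, s2⟩ (lz (R1C.kk n β) SkS)
            (fun w => fr (AA (R1C.kk n β) x s2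
              (R1C.P3 ⟨x, θ, 1 - T, 1 - T / 2, s1, s2⟩ w))) -
          R1C.En ⟨x, θ, 1 - T, 1 - T / 2, s1, s2⟩ (lz (R1C.kk n β) SkS)
            (fun w => fr (AA (R1C.kk n β) x s1
              (R1C.P2 ⟨x, θ, 1 - T, 1 - T / 2, s1, s2⟩ w)))) := by
          rw [mul_sub, e2, e3]
          ring

/-- `n^200 exp (-n^r) ≤ 1` for large `n` -/
lemma pow_exp_le {r : ℝ} (hr : 0 < r) : ∀ᶠ y : ℝ in Filter.atTop,
    y ^ 200 * Real.exp (-y ^ r) ≤ 1 := by
  have h1 := (isLittleO_log_rpow_atTop hr).def (show (0 : ℝ) < 1 / 200 by norm_num)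
  filter_upwards [h1, Filter.eventually_ge_atTop (1 : ℝ)] with y h2 h3
  have hy : 0 < y := by linarith
  have h4 : Real.log y ≤ 1 / 200 * y ^ r := by
    have h5 : 0 ≤ y ^ r := Real.rpow_nonneg hy.le r
    rw [Real.norm_eq_abs, Real.norm_eq_abs, abs_of_nonneg h5] at h2
    exact (le_abs_self _).trans h2
  have h6 : y ^ 200 = Real.exp (200 * Real.log y) := by
    rw [mul_comm, Real.exp_mul, Real.exp_log hy]
    norm_cast
  rw [h6, ← Real.exp_add, Real.exp_le_one_iff]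
  linarith

/-- `n^a + C ≤ n^b` for large `n` -/
lemma gap_ev {a b : ℝ} (ha : 0 < a) (hab : a < b) (C : ℝ) : ∀ᶠ y : ℝ in Filter.atTop,
    C ≤ y ^ b - y ^ a := by
  have h1 := (tendsto_rpow_atTop (sub_pos.2 hab)).eventually_ge_atTop (1 + |C|)
  filter_upwards [h1, Filter.eventually_ge_atTop (1 : ℝ)] with y h2 h3
  have hy : 0 < y := by linarith
  have h4 : 1 ≤ y ^ a := Real.one_le_rpow h3 ha.le
  have h5 : y ^ b = y ^ a * y ^ (b - a) := by
    rw [← Real.rpow_add hy]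
    congr 1
    ring
  rw [h5]
  have h6 : y ^ a * (1 + |C|) ≤ y ^ a * y ^ (b - a) :=
    mul_le_mul_of_nonneg_left h2 (by linarith)
  have h7 : |C| ≤ y ^ a * |C| := le_mul_of_one_le_left (abs_nonneg C) h4
  have h8 := le_abs_self C
  linarith

/-- **The output of the block F for SK**: if the variance is at least `n^{1/3+ε}`, there are a
window and a tilt with the properties `FData` and `Fo`. -/
theorem sk_fo {β ε α al : ℝ} (hβ : 0 < β) (hα : 0 < α) (hα1 : α ≤ 1 / 42) (hal : α < al)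
    (h40 : 40 * al + α ≤ ε) :
    ∃ n₀ : ℝ, 2 ≤ n₀ ∧ ∀ n : ℕ, n₀ ≤ (n : ℝ) →
      (n : ℝ) ^ (1 / 3 + ε : ℝ) ≤ Var[freeEnergy n β; disorder n] →
      ∃ x θ T ρ s1 s2 : ℝ,
        FData n α ε (β ^ 2 / 2) (lz (R1C.kk n β) (SkS (n := n))) (Dz (R1C.kk n β))
          (fun x θ T s => Ht x θ (1 - T) (1 - T / 2) s (lz (R1C.kk n β) (SkS (n := n)))
            (Dz (R1C.kk n β)) (Hz (R1C.kk n β))) x θ T ρ s1 s2 ∧
        R1C.Fo n β ((n : ℝ) ^ al) (Real.exp (-(n : ℝ) ^ (ε / 2))) T ρ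
          ⟨x, θ, 1 - T, 1 - T / 2, s1, s2⟩ (lz (R1C.kk n β) SkS) (AA (R1C.kk n β) x)
          (R1C.DC (R1C.kk n β) x) := by
  obtain ⟨n₀, h2, hout⟩ := sk_out hβ.ne' (ε := ε) hα (by linarith)
  have hε : 0 < ε / 2 := by linarith
  obtain ⟨n₁, h1⟩ := Filter.eventually_atTop.1 ((pow_exp_le hε).and
    ((gap_ev hα hal (β ^ 2 / 2)).and (Filter.eventually_ge_atTop (β ^ 2))))
  refine ⟨max n₀ n₁, h2.trans (le_max_left _ _), fun n hn hV => ?_⟩
  obtain ⟨g1, g2, g3⟩ := h1 n ((le_max_right _ _).trans hn)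
  have hn2 : 2 ≤ n := by
    have : (2 : ℝ) ≤ n := h2.trans ((le_max_left _ _).trans hn)
    exact_mod_cast this
  obtain ⟨x, θ, T, ρ, s1, s2, hd⟩ := hout n ((le_max_left _ _).trans hn) hV
  have hd' : FData n α ε (β ^ 2 / 2) (lz (R1C.kk n β) (SkS (n := n))) (Dz (R1C.kk n β))
          (fun x θ T s => Ht x θ (1 - T) (1 - T / 2) s (lz (R1C.kk n β) (SkS (n := n)))
            (Dz (R1C.kk n β)) (Hz (R1C.kk n β))) x θ T ρ s1 s2 := hd
  exact ⟨x, θ, T, ρ, s1, s2, hd', fo_of_fdata hn2 hβ hα hα1 hal.le h40 g3 g2 g1 hd'⟩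

end Vale.Agent.P146.H946
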