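import Vale.Agent.P146.H325.Var34
import Vale.Agent.P146.H425.FCore
import Vale.Agent.P146.H713.Hess
import Vale.Agent.P146.H785.Hes

/-!
The SK instance of plan R1: `F = log Z`, its gradient and Hessian, the variance, and the bound of
`∫ E_x |D_t|² dt` which follows from the two-point inequality.
-/

open MeasureTheory ProbabilityTheory

namespace Vale.Agent.P146.H946

open Vale.Agent.P157.Lv Vale.Agent.P146.H425 Vale.Agent.P146.H332 Vale.Agent.P146.H325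
open Vale.Agent.P146.R1

set_option linter.unusedSectionVars false

variable {n : ℕ}

/-- the gradient of `log Z` -/
noncomputable abbrev Dz (k : ℝ) : Pair n → (Pair n → ℝ) → ℝ := fun e u => k * H325.av k SkS (SkS e) u

/-- the Hessian of `log Z` -/
noncomputable abbrev Hz (k : ℝ) : Pair n → Pair n → (Pair n → ℝ) → ℝ := fun e i u =>
  k * (k * (H325.av k SkS (fun σ => SkS e σ * SkS i σ) u - H325.av k SkS (SkS e) u * H325.av k SkS (SkS i) u))

/-- the second derivatives of the gradient of `log Z` in the directions of the coordinates -/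
noncomputable abbrev Tz (k : ℝ) : Pair n → Pair n → (Pair n → ℝ) → ℝ := fun e i u =>
  k * av2 k SkS (SkS e) i u

lemma abs_SkS (e : Pair n) (σ : Fin n → ℤˣ) : |SkS e σ| = 1 := abs_pr _ _ σ

lemma abs_av_SkS (k : ℝ) (e : Pair n) (u : Pair n → ℝ) : |H325.av k SkS (SkS e) u| ≤ 1 :=
  H325.abs_av_le k SkS (fun σ => (abs_SkS e σ).le) u

lemma c2_const_mul {ι : Type} [Fintype ι] [DecidableEq ι] {G : (ι → ℝ) → ℝ}
    {G1 G2 : ι → (ι → ℝ) → ℝ} (h : H325.C2 G G1 G2) (c : ℝ) :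
    H325.C2 (fun u => c * G u) (fun e u => c * G1 e u) (fun e u => c * G2 e u) := by
  refine ⟨fun u => ?_, fun e => (h.pd e).const_mul c, h.eg.const_mul c,
    fun e => (h.eg1 e).const_mul c, fun e => (h.eg2 e).const_mul c,
    fun e => (h.c1 e).const_mul c, fun e => (h.c2 e).const_mul c⟩
  refine ((h.fd u).const_mul c).congr_fderiv ?_
  rw [Finset.smul_sum]
  exact Finset.sum_congr rfl fun e _ => by rw [smul_smul]

lemma sk_fd (k : ℝ) (u : Pair n → ℝ) : HasFDerivAt (lz k SkS)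
    (∑ e, Dz k e u • (ContinuousLinearMap.proj e : (Pair n → ℝ) →L[ℝ] ℝ)) u := by
  have h := Vale.Agent.P146.H785.C11.hasFDerivAt (c11_lz k (SkS (n := n))) u
  unfold H785.lf at h
  exact h

/-- each derivative of `log Z` with its derivatives -/
lemma sk_cD (k : ℝ) (e : Pair n) : H325.C2 (Dz (n := n) k e) (Hz k e) (Tz k e) :=
  c2_const_mul (c2_av k SkS (SkS e)) k

lemma sk_cF (k : ℝ) : H325.C2 (lz k (SkS (n := n))) (Dz k) (fun e => Hz k e e) := by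
  refine ⟨sk_fd k, fun e => ?_, ((c11_lz k SkS).lip.lip (c11_lz k SkS).B0).eg,
    fun e => (sk_cD k e).eg, fun e => (sk_cD k e).eg1 e, fun e => (sk_cD k e).cont,
    fun e => (sk_cD k e).c1 e⟩
  exact pd_of_fd (sk_cD k e).fd e

lemma sk_sy (k : ℝ) (e i : Pair n) (y : Pair n → ℝ) : Hz k e i y = Hz k i e y := by
  have : (fun σ : Fin n → ℤˣ => SkS e σ * SkS i σ) = fun σ => SkS i σ * SkS e σ := by
    funext σ; ring
  simp only [Hz, this]
  ring

lemma sk_bH (k : ℝ) (e i : Pair n) (y : Pair n → ℝ) : |Hz k e i y| ≤ 2 * k ^ 2 := by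
  have h1 : |H325.av k SkS (fun σ : Fin n → ℤˣ => SkS e σ * SkS i σ) y| ≤ 1 := by
    refine H325.abs_av_le k SkS (fun σ => ?_) y
    rw [abs_mul, abs_SkS, abs_SkS, one_mul]
  have h2 : |H325.av k SkS (SkS e) y * H325.av k SkS (SkS i) y| ≤ 1 := by
    rw [abs_mul]
    exact mul_le_one₀ (abs_av_SkS k e y) (abs_nonneg _) (abs_av_SkS k i y)
  have h3 : |H325.av k SkS (fun σ : Fin n → ℤˣ => SkS e σ * SkS i σ) y -
      H325.av k SkS (SkS e) y * H325.av k SkS (SkS i) y| ≤ 2 := by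
    refine (abs_sub _ _).trans (by linarith)
  have e1 : Hz k e i y = k ^ 2 * (H325.av k SkS (fun σ : Fin n → ℤˣ => SkS e σ * SkS i σ) y -
      H325.av k SkS (SkS e) y * H325.av k SkS (SkS i) y) := by
    simp only [Hz]; ring
  rw [e1, abs_mul, abs_of_nonneg (sq_nonneg k), mul_comm 2]
  exact mul_le_mul_of_nonneg_left h3 (sq_nonneg k)

/-- **The SK instance of 713's class** -/
theorem sk_sm (k : ℝ) : Sm (lz k (SkS (n := n))) (Dz k) (Kb k (SkS (n := n)))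
    (3 * Kb k (SkS (n := n)) ^ 2) (Hz k) (Tz k) (2 * k ^ 2) :=
  ⟨c11_lz k SkS, sk_cF k, sk_cD k, sk_sy k, sk_bH k⟩

/-- **The SK instance of 785's class** -/
theorem sk_c2 (k : ℝ) : H785.C2 (lz k (SkS (n := n))) (Dz k) (Hz k) (Kb k (SkS (n := n)))
    (3 * Kb k (SkS (n := n)) ^ 2) (2 * k ^ 2) := by
  refine ⟨c11_lz k SkS, fun e z => (sk_cD k e).fd z, fun e f => ((sk_cD k e).c1 f).measurable,
    sk_bH k, sk_sy k, fun z v => ?_⟩
  exact vH_nonneg (sk_sm k) (cv_lz k SkS) v z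

/-- the number of pairs -/
lemma card_Pair (n : ℕ) : 2 * (Fintype.card (Pair n) : ℝ) = n * n - n := by
  have h := sum_pairs (n := n) (fun p q => if p = q then (0 : ℝ) else 1)
    (fun p q => by simp only [eq_comm]) (fun p => by simp)
  have e1 : ∑ e : Pair n, (if e.1.1 = e.1.2 then (0 : ℝ) else 1) = Fintype.card (Pair n) := by
    have : ∀ e : Pair n, (if e.1.1 = e.1.2 then (0 : ℝ) else 1) = 1 := fun e => by
      rw [if_neg e.2.ne]
    simp [this]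
  rw [e1] at h
  rw [← h]
  have e2 : ∀ p : Fin n, ∑ q, (if p = q then (0 : ℝ) else 1) = n - 1 := by
    intro p
    have : ∀ q : Fin n, (if p = q then (0 : ℝ) else 1) = 1 - if p = q then (1 : ℝ) else 0 := by
      intro q; split_ifs <;> norm_num
    simp [this]
  simp only [e2]
  simp only [Finset.sum_const, Finset.card_univ, Fintype.card_fin, nsmul_eq_mul]
  ring

/-- the squared gradient of `log Z` is at most `β² n / 2` -/
theorem sk_grad (hn : 0 < n) (β : ℝ) (z : Pair n → ℝ) :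
    ∑ e, Dz (β / √n) e z ^ 2 ≤ β ^ 2 / 2 * n := by
  have hn' : (0 : ℝ) < n := Nat.cast_pos.2 hn
  have h1 : ∀ e ∈ (Finset.univ : Finset (Pair n)), Dz (β / √n) e z ^ 2 ≤ β ^ 2 / n := by
    intro e _
    simp only [Dz]
    rw [mul_pow, div_pow, Real.sq_sqrt hn'.le]
    have h2 : H325.av (β / √n) SkS (SkS e) z ^ 2 ≤ 1 := by
      rw [← sq_abs]
      exact pow_le_one₀ (abs_nonneg _) (abs_av_SkS _ e z)
    have : 0 ≤ β ^ 2 / (n : ℝ) := by positivity
    nlinarith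
  refine (Finset.sum_le_sum h1).trans ?_
  rw [Finset.sum_const, Finset.card_univ, nsmul_eq_mul]
  have h2 := card_Pair n
  have h3 : (Fintype.card (Pair n) : ℝ) ≤ n * n / 2 := by linarith
  have : 0 ≤ β ^ 2 / (n : ℝ) := by positivity
  refine (mul_le_mul_of_nonneg_right h3 this).trans (le_of_eq ?_)
  field_simp

/-- **The variance of the free energy** -/
theorem sk_var (n : ℕ) (β : ℝ) : Var[freeEnergy n β; disorder n] =
    ∫ z, (lz (β / √n) SkS z) ^ 2 ∂(gI (Pair n)) -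
      (∫ z, lz (β / √n) SkS z ∂(gI (Pair n))) ^ 2 := by
  have hd : disorder n = gI (Pair n) := rfl
  have hf : freeEnergy n β = lz (β / √n) (SkS (n := n)) := by
    funext g
    exact H332.freeEnergy_eq β g
  have eg := ((c11_lz (β / √n) (SkS (n := n))).lip.lip (c11_lz (β / √n) SkS).B0).eg
  have hm : MemLp (lz (β / √n) (SkS (n := n))) 2 (gI (Pair n)) :=
    (memLp_two_iff_integrable_sq eg.meas.aestronglyMeasurable).2 (eg.pow 2).integrable
  rw [hd, hf, variance_eq_sub hm]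
  rfl

/-- the variance in the centred form -/
theorem sk_var' (n : ℕ) (β : ℝ) : Var[freeEnergy n β; disorder n] =
    ∫ z, (lz (β / √n) SkS z - ∫ z', lz (β / √n) SkS z' ∂(gI (Pair n))) ^ 2 ∂(gI (Pair n)) := by
  have hd : disorder n = gI (Pair n) := rfl
  have hf : freeEnergy n β = lz (β / √n) (SkS (n := n)) := by
    funext g
    exact H332.freeEnergy_eq β g
  rw [hd, hf, variance_eq_integral
    ((c11_lz (β / √n) SkS).lip.lip (c11_lz (β / √n) SkS).B0).eg.meas.aemeasurable]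

/-- `E_x |D_t|²` in terms of the overlap `Rg` -/
theorem sk_Phi (hn : 0 < n) (β : ℝ) {x : ℝ} (hx : 0 < x) (l : Lvl (Pair n)) {t : ℝ}
    (ht : t ∈ Set.Icc (0 : ℝ) 1) :
    Phi x (lz (β / √n) (SkS (n := n))) (Dz (β / √n)) t =
      β ^ 2 * n / 2 * (Rg (β / √n) x l t - 1 / n) := by
  set k := β / √n with hk
  have hn' : (0 : ℝ) < n := Nat.cast_pos.2 hn
  have hk2 : k ^ 2 = β ^ 2 / n := by rw [hk, div_pow, Real.sq_sqrt hn'.le]
  have h0 := Phi_eq (k := k) (S := SkS (n := n)) l hx ht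
  refine h0.trans ?_
  have eN : EG (Nl k SkS x Finset.univ l (fun _ => 1) t) := eg_N Finset.univ l ht
  have e1 : ∀ w, Nl k SkS x Finset.univ l (fun _ => 1) t w *
      ∑ e : Pair n, (k * rl k SkS x Finset.univ l (H325.av k SkS (SkS e)) t w) ^ 2 =
      k ^ 2 / 2 * (Nl k SkS x Finset.univ l (fun _ => 1) t w * Cg k x l t w) -
        k ^ 2 / 2 * n * Nl k SkS x Finset.univ l (fun _ => 1) t w := by
    intro w
    have h := sum_edges k x Finset.univ l t w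
    have e2 : ∑ e : Pair n, (k * rl k SkS x Finset.univ l (H325.av k SkS (SkS e)) t w) ^ 2 =
        k ^ 2 / 2 * (Cg k x l t w - n) := by
      unfold Cg
      rw [← h]
      simp only [mul_pow, ← Finset.mul_sum]
      ring
    rw [e2]
    ring
  simp only [e1]
  rw [integral_sub ((eN.mul (eg_Cg l hx.le ht)).const_mul _).integrable
    (eN.const_mul _).integrable, integral_const_mul, integral_const_mul,
    int_Nl k SkS x l t ht]
  have hZ := Z0p (n := n) k x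
  unfold Rg H332.Et
  have hZd : ∫ z, Zx k (SkS (n := n)) x z ∂(gI (Pair n)) = Z0 n k x := rfl
  rw [hZd, hk2]
  field_simp

lemma sk_Phi_le (hn : 0 < n) (β : ℝ) {x : ℝ} (hx : 0 < x) (l : Lvl (Pair n)) {t : ℝ}
    (ht : t ∈ Set.Icc (0 : ℝ) 1) :
    Phi x (lz (β / √n) (SkS (n := n))) (Dz (β / √n)) t ≤ β ^ 2 * n / 2 * Rg (β / √n) x l t := by
  rw [sk_Phi hn β hx l ht]
  have hn' : (0 : ℝ) < n := Nat.cast_pos.2 hn
  refine mul_le_mul_of_nonneg_left ?_ (by positivity)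
  have : 0 ≤ 1 / (n : ℝ) := by positivity
  linarith

/-- the hypotheses of 722's `fin_real` with `N = x⁻⁴ ≤ n` -/
lemma sk_hyp {β : ℝ} (hβ : β ≠ 0) (hn : 0 < n) {x : ℝ} (hx : 0 < x) (hx1 : x ≤ 1)
    (hxn : 1 ≤ x ^ 4 * n) (l : Lvl (Pair n)) :
    H722.Hyp (1000 * (1 + β ^ 2 + 1 / β ^ 2)) (x ^ 4)⁻¹ x (Rg (β / √n) x l) (Rg1 (β / √n) x l)
      (Mg (β / √n) x l) := by
  refine ⟨fun t ht => ⟨Rg_nonneg l t, Rg_le_one l hx.le ht, Rg_sq_le l hx.le ht,
      Mg_le_one l hx.le ht⟩, Rg_mono l hx.le, Mg_mono l hx.le, Rg_cont l hx.le,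
      fun t ht => Rg_deriv l hx.le ht, ?_⟩
  intro t1 t2 th a b c d e f
  have h := H325.key hβ hn rfl hx hx1 l a b c.le d e f
  refine h.trans ?_
  have hn' : (0 : ℝ) < n := Nat.cast_pos.2 hn
  have hN : (x ^ 4)⁻¹ ≤ (n : ℝ) := by
    rw [inv_le_iff_one_le_mul₀ (by positivity)]
    linarith
  have hN0 : 0 < (x ^ 4)⁻¹ := by positivity
  have hS : 0 ≤ Rg1 (β / √n) x l t1 + Rg1 (β / √n) x l t2 :=
    add_nonneg (Rg1_nonneg l t1) (Rg1_nonneg l t2)
  refine mul_le_mul_of_nonneg_left ?_ (by positivity)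
  have h1 : ((n : ℝ) ^ 3)⁻¹ ≤ (((x ^ 4)⁻¹) ^ 3)⁻¹ :=
    inv_anti₀ (by positivity) (pow_le_pow_left₀ hN0.le hN 3)
  have h2 : (Rg1 (β / √n) x l t1 + Rg1 (β / √n) x l t2) / (th * n) ≤
      (Rg1 (β / √n) x l t1 + Rg1 (β / √n) x l t2) / (th * (x ^ 4)⁻¹) :=
    div_le_div_of_nonneg_left hS (by positivity) (mul_le_mul_of_nonneg_left hN e.le)
  have h3 : (Rg1 (β / √n) x l t1 + Rg1 (β / √n) x l t2) / (x ^ 2 * n) ≤
      (Rg1 (β / √n) x l t1 + Rg1 (β / √n) x l t2) / (x ^ 2 * (x ^ 4)⁻¹) :=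
    div_le_div_of_nonneg_left hS (by positivity) (mul_le_mul_of_nonneg_left hN (by positivity))
  linarith

/-- **The integral of the overlap** at every tilt `n^{-1/4} ≤ x ≤ 1`. -/
theorem sk_Rg_int {β : ℝ} (hβ : β ≠ 0) {d : ℝ} (hd : 0 < d) : ∃ C : ℝ, 0 ≤ C ∧
    ∀ n : ℕ, 1 ≤ n → ∀ x : ℝ, 0 < x → x ≤ 1 → 1 ≤ x ^ 4 * n → ∀ l : Lvl (Pair n),
      ∫ t in (0 : ℝ)..1, Rg (β / √n) x l t ≤ C * (x * (n : ℝ) ^ d) := by
  have hb2 : 0 < β ^ 2 := by positivity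
  have hC : 1 ≤ 1000 * (1 + β ^ 2 + 1 / β ^ 2) := by
    have : 0 ≤ 1 / β ^ 2 := by positivity
    linarith
  obtain ⟨C, hC0, h⟩ := H722.fin_real (1000 * (1 + β ^ 2 + 1 / β ^ 2)) d hC hd
  refine ⟨C, hC0, fun n hn x hx hx1 hxn l => ?_⟩
  have hn0 : 0 < n := hn
  have hn' : (0 : ℝ) < n := Nat.cast_pos.2 hn0
  have hx4 : x ^ 4 ≤ 1 := pow_le_one₀ hx.le hx1
  have hN1 : 1 ≤ (x ^ 4)⁻¹ := (one_le_inv₀ (by positivity)).2 hx4
  have hN : (x ^ 4)⁻¹ ≤ (n : ℝ) := by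
    rw [inv_le_iff_one_le_mul₀ (by positivity)]
    linarith
  have hxe : x = ((x ^ 4)⁻¹) ^ (-1 / 4 : ℝ) := by
    rw [← Real.rpow_natCast, ← Real.rpow_neg hx.le, ← Real.rpow_mul hx.le]
    norm_num
  have h1 := h (x ^ 4)⁻¹ x _ _ _ hN1 hxe (sk_hyp hβ hn0 hx hx1 hxn l)
  refine h1.trans ?_
  rw [Real.rpow_add (by positivity), ← hxe]
  refine mul_le_mul_of_nonneg_left ?_ hC0
  refine mul_le_mul_of_nonneg_left ?_ hx.le
  exact Real.rpow_le_rpow (by positivity) hN hd.le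

/-- **`∫ E_x |D_t|² dt`** for SK, at every tilt `n^{-1/4} ≤ x ≤ 1`. -/
theorem sk_GG {β : ℝ} (hβ : β ≠ 0) {d : ℝ} (hd : 0 < d) : ∃ C : ℝ, 0 ≤ C ∧
    ∀ n : ℕ, 1 ≤ n → ∀ x : ℝ, 0 < x → x ≤ 1 → 1 ≤ x ^ 4 * n →
      GG x (lz (β / √n) SkS) (Dz (n := n) (β / √n)) ≤ C * (x * (n : ℝ) ^ (1 + d)) := by
  obtain ⟨C, hC0, h⟩ := sk_Rg_int hβ hd
  refine ⟨β ^ 2 / 2 * C, by positivity, fun n hn x hx hx1 hxn => ?_⟩
  have hn0 : 0 < n := hn
  have hn' : (0 : ℝ) < n := Nat.cast_pos.2 hn0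
  have h1 := h n hn x hx hx1 hxn (H325.L1 n 0)
  have hc := c11_lz (β / √n) (SkS (n := n))
  have h2 : GG x (lz (β / √n) SkS) (Dz (n := n) (β / √n)) ≤
      β ^ 2 * n / 2 * ∫ t in (0 : ℝ)..1, Rg (β / √n) x (H325.L1 n 0) t := by
    unfold GG
    rw [← intervalIntegral.integral_const_mul]
    refine intervalIntegral.integral_mono_on zero_le_one (Phi_int hc hx) ?_
      fun t ht => sk_Phi_le hn0 β hx _ ht
    exact ((Rg_cont _ hx.le).intervalIntegrable_of_Icc zero_le_one).const_mul _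
  refine h2.trans ((mul_le_mul_of_nonneg_left h1 (by positivity)).trans (le_of_eq ?_))
  rw [Real.rpow_add hn', Real.rpow_one]
  ring

/-- the value of `E_x |D_t|²` at the time `1 - T` -/
theorem sk_Phi_bd {β : ℝ} (hβ : β ≠ 0) {d : ℝ} (hd : 0 < d) : ∃ C : ℝ, 0 ≤ C ∧
    ∀ n : ℕ, 1 ≤ n → ∀ x : ℝ, 0 < x → x ≤ 1 → 1 ≤ x ^ 4 * n → ∀ T : ℝ, 0 < T → T ≤ 1 →
      Phi x (lz (β / √n) SkS) (Dz (n := n) (β / √n)) (1 - T) ≤
        C * (x * (n : ℝ) ^ (1 + d)) / T := by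
  obtain ⟨C, hC0, h⟩ := sk_GG hβ hd
  refine ⟨C, hC0, fun n hn x hx hx1 hxn T hT hT1 => ?_⟩
  rw [le_div_iff₀ hT]
  exact (Phi_mul_le (c11_lz (β / √n) (SkS (n := n))) hx hT.le hT1).trans (h n hn x hx hx1 hxn)

end Vale.Agent.P146.H946
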