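import Vale.Agent.P146.H946.SkI

/-!
The corner `T ≥ n^{-c₀}` of plan R1 for SK: consequences of the two-point inequality in powers
of `n`.
-/

open MeasureTheory ProbabilityTheory

namespace Vale.Agent.P146.H946

open Vale.Agent.P157.Lv Vale.Agent.P146.H425 Vale.Agent.P146.H332 Vale.Agent.P146.H325
open Vale.Agent.P146.R1

set_option linter.unusedSectionVars false

/-- a constant is absorbed by a power -/
lemma const_le_rpow {C d : ℝ} (hd : 0 < d) : ∃ n₀ : ℝ, 1 ≤ n₀ ∧ ∀ n : ℝ, n₀ ≤ n → C ≤ n ^ d := by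
  have h := (tendsto_rpow_atTop hd).eventually_ge_atTop C
  obtain ⟨n₁, h1⟩ := Filter.eventually_atTop.1 h
  exact ⟨max 1 n₁, le_max_left _ _, fun n hn => h1 n ((le_max_right _ _).trans hn)⟩

lemma x_facts {n x a : ℝ} (hn : 1 ≤ n) (ha : a ≤ 1 / 6) (h1 : n ^ (-(1 / 6) : ℝ) ≤ x)
    (h2 : x ≤ n ^ (-(1 / 6) + a)) : 0 < x ∧ x ≤ 1 ∧ 1 ≤ x ^ 4 * n := by
  have hn0 : 0 < n := by linarith
  have hx : 0 < x := (Real.rpow_pos_of_pos hn0 _).trans_le h1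
  refine ⟨hx, h2.trans (Real.rpow_le_one_of_one_le_of_nonpos hn (by linarith)), ?_⟩
  have h3 : (n ^ (-(1 / 6) : ℝ)) ^ 4 ≤ x ^ 4 :=
    pow_le_pow_left₀ (Real.rpow_pos_of_pos hn0 _).le h1 4
  have h4 : (n ^ (-(1 / 6) : ℝ)) ^ 4 * n = n ^ (1 / 3 : ℝ) := by
    rw [← Real.rpow_natCast, ← Real.rpow_mul hn0.le]
    nth_rewrite 2 [← Real.rpow_one n]
    rw [← Real.rpow_add hn0]
    norm_num
  have h5 : 1 ≤ n ^ (1 / 3 : ℝ) := Real.one_le_rpow hn (by norm_num)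
  have h6 := mul_le_mul_of_nonneg_right h3 hn0.le
  linarith

/-- **`∫ E_{2x} |D_t|² dt ≤ n^{5/6 + a + d}`** for `n^{-1/6} ≤ x ≤ n^{-1/6+a}`. -/
theorem sk_GG2 {β : ℝ} (hβ : β ≠ 0) {a d : ℝ} (ha : a < 1 / 6) (hd : 0 < d) :
    ∃ n₀ : ℝ, 1 ≤ n₀ ∧ ∀ n : ℕ, n₀ ≤ (n : ℝ) → ∀ x : ℝ, (n : ℝ) ^ (-(1 / 6) : ℝ) ≤ x →
      x ≤ (n : ℝ) ^ (-(1 / 6) + a) →
      GG x (lz (β / √n) SkS) (Dz (n := n) (β / √n)) ≤ (n : ℝ) ^ (5 / 6 + a + d) ∧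
      GG (2 * x) (lz (β / √n) SkS) (Dz (n := n) (β / √n)) ≤ (n : ℝ) ^ (5 / 6 + a + d) := by
  obtain ⟨C, hC, h⟩ := sk_GG hβ (half_pos hd)
  obtain ⟨n₁, h11, h1⟩ := const_le_rpow (C := 2 * C) (half_pos hd)
  obtain ⟨n₂, h21, h2⟩ := const_le_rpow (C := 2) (sub_pos.2 ha)
  refine ⟨max n₁ n₂, h11.trans (le_max_left _ _), fun n hn x hx1 hx2 => ?_⟩
  have hn1 : (1 : ℝ) ≤ n := (h11.trans (le_max_left _ _)).trans hn
  have hn1' : 1 ≤ n := by exact_mod_cast hn1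
  have hn0 : (0 : ℝ) < n := by linarith
  obtain ⟨f1, f2, f3⟩ := x_facts hn1 ha.le hx1 hx2
  have g1 := h1 n ((le_max_left _ _).trans hn)
  have g2 := h2 n ((le_max_right _ _).trans hn)
  have h2x : 2 * x ≤ 1 := by
    calc 2 * x ≤ (n : ℝ) ^ (1 / 6 - a) * (n : ℝ) ^ (-(1 / 6) + a) :=
          mul_le_mul g2 hx2 f1.le (by positivity)
      _ = 1 := by
          rw [← Real.rpow_add hn0]
          norm_num
  have key : ∀ y : ℝ, 0 < y → y ≤ 2 * x → y ≤ 1 → 1 ≤ y ^ 4 * n →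
      GG y (lz (β / √n) SkS) (Dz (n := n) (β / √n)) ≤ (n : ℝ) ^ (5 / 6 + a + d) := by
    intro y hy hyx hy1 hyn
    refine (h n hn1' y hy hy1 hyn).trans ?_
    have e : (n : ℝ) ^ (5 / 6 + a + d) =
        (n : ℝ) ^ (d / 2) * ((n : ℝ) ^ (-(1 / 6) + a) * (n : ℝ) ^ (1 + d / 2)) := by
      rw [← Real.rpow_add hn0, ← Real.rpow_add hn0]
      congr 1
      ring
    rw [e]
    have h3 : y * (n : ℝ) ^ (1 + d / 2) ≤
        2 * ((n : ℝ) ^ (-(1 / 6) + a) * (n : ℝ) ^ (1 + d / 2)) := by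
      rw [← mul_assoc]
      exact mul_le_mul_of_nonneg_right (by linarith) (by positivity)
    have h4 := mul_le_mul_of_nonneg_left h3 hC
    refine h4.trans ?_
    rw [← mul_assoc, mul_comm C 2]
    exact mul_le_mul_of_nonneg_right g1 (by positivity)
  refine ⟨key x f1 (by linarith) f2 f3, key (2 * x) (by linarith) le_rfl h2x ?_⟩
  have : x ^ 4 * n ≤ (2 * x) ^ 4 * n :=
    mul_le_mul_of_nonneg_right (pow_le_pow_left₀ f1.le (by linarith) 4) hn0.le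
  linarith

/-- **The corner `T ≥ n^{-c₀}`**: `r² = 2 E_x |D_{1-T}|² / (β² n) ≤ n^{-b}`. -/
theorem sk_corner {β : ℝ} (hβ : β ≠ 0) {a c₀ b : ℝ} (ha : a < 1 / 6)
    (habc : a + c₀ + b < 1 / 6) :
    ∃ n₀ : ℝ, 1 ≤ n₀ ∧ ∀ n : ℕ, n₀ ≤ (n : ℝ) → ∀ x : ℝ, (n : ℝ) ^ (-(1 / 6) : ℝ) ≤ x →
      x ≤ (n : ℝ) ^ (-(1 / 6) + a) → ∀ T : ℝ, 0 < T → T ≤ 1 → (n : ℝ) ^ (-c₀) ≤ T →
      2 * Phi x (lz (β / √n) SkS) (Dz (n := n) (β / √n)) (1 - T) / (β ^ 2 * n) ≤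
        (n : ℝ) ^ (-b) := by
  obtain ⟨d, hd⟩ : ∃ d, d = (1 / 6 - (a + c₀ + b)) / 2 := ⟨_, rfl⟩
  have hd0 : 0 < d := by rw [hd]; linarith
  obtain ⟨n₁, h11, h1⟩ := sk_GG2 hβ ha hd0
  obtain ⟨n₂, h21, h2⟩ := const_le_rpow (C := 2 / β ^ 2) hd0
  refine ⟨max n₁ n₂, h11.trans (le_max_left _ _), fun n hn x hx1 hx2 T hT hT1 hTc => ?_⟩
  have hn1 : (1 : ℝ) ≤ n := (h11.trans (le_max_left _ _)).trans hn
  have hn0 : (0 : ℝ) < n := by linarith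
  obtain ⟨f1, f2, f3⟩ := x_facts hn1 ha.le hx1 hx2
  have g1 := (h1 n ((le_max_left _ _).trans hn) x hx1 hx2).1
  have g2 := h2 n ((le_max_right _ _).trans hn)
  have g3 := (Phi_mul_le (c11_lz (β / √n) (SkS (n := n))) f1 hT.le hT1).trans g1
  have hP : Phi x (lz (β / √n) SkS) (Dz (n := n) (β / √n)) (1 - T) ≤
      (n : ℝ) ^ (5 / 6 + a + d + c₀) := by
    have g4 : Phi x (lz (β / √n) SkS) (Dz (n := n) (β / √n)) (1 - T) ≤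
        (n : ℝ) ^ (5 / 6 + a + d) / T := by
      rw [le_div_iff₀ hT]; exact g3
    refine g4.trans ?_
    rw [div_le_iff₀ hT, Real.rpow_add hn0 (5 / 6 + a + d) c₀]
    have g5 : (n : ℝ) ^ c₀ * (n : ℝ) ^ (-c₀) = 1 := by
      rw [← Real.rpow_add hn0, add_neg_cancel, Real.rpow_zero]
    have g6 : (n : ℝ) ^ c₀ * (n : ℝ) ^ (-c₀) ≤ (n : ℝ) ^ c₀ * T :=
      mul_le_mul_of_nonneg_left hTc (by positivity)
    rw [mul_assoc]
    refine le_mul_of_one_le_right (by positivity) ?_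
    linarith
  have hb2 : 0 < β ^ 2 := by positivity
  rw [div_le_iff₀ (by positivity)]
  have e : (n : ℝ) ^ (-b) * (β ^ 2 * n) =
      β ^ 2 * ((n : ℝ) ^ d * (n : ℝ) ^ (5 / 6 + a + d + c₀)) := by
    rw [← Real.rpow_add hn0]
    have e2 : d + (5 / 6 + a + d + c₀) = -b + 1 := by rw [hd]; ring
    rw [e2, Real.rpow_add hn0, Real.rpow_one]
    ring
  rw [e]
  have g7 : 2 / β ^ 2 * (n : ℝ) ^ (5 / 6 + a + d + c₀) ≤
      (n : ℝ) ^ d * (n : ℝ) ^ (5 / 6 + a + d + c₀) :=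
    mul_le_mul_of_nonneg_right g2 (by positivity)
  have g8 := mul_le_mul_of_nonneg_left g7 hb2.le
  have e3 : β ^ 2 * (2 / β ^ 2 * (n : ℝ) ^ (5 / 6 + a + d + c₀)) =
      2 * (n : ℝ) ^ (5 / 6 + a + d + c₀) := by
    field_simp
  rw [e3] at g8
  linarith

end Vale.Agent.P146.H946
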