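import Vale.Agent.P146.H325.Eqs

/-!
(X6): the tower property of the two-level average and its consequence for
`fr (A1 * A2)`.
-/

open MeasureTheory ProbabilityTheory

namespace Vale.Agent.P146.H946

open Vale.Agent.P157.Lv Vale.Agent.P146.H425 Vale.Agent.P146.H332 Vale.Agent.P146.H325 Matrix

set_option linter.unusedSectionVars false

variable {n : ℕ} {k x t1 t2 : ℝ}

/-- (T3) for a general observable, full representation -/
lemma start3_obs (h0 : 0 ≤ t1) (h1 : t1 ≤ t2) (h2 : t2 ≤ 1) {F : (Pair n → ℝ) → ℝ} (hF : EG F)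
    {φ : (Pair n ⊕ Pair n → ℝ) → ℝ} (hφ : EG φ)
    (hind : ∀ e, ∀ w t, φ (Function.update w (Sum.inr e) t) = φ w) :
    ∫ w, φ w * (ND k x t2 (v2 t1 t2 w) * RR k SkS x (cf t2) F (v2 t1 t2 w))
        ∂(gI (Pair n ⊕ Pair n)) =
      ∫ w, φ w * (ND k x t1 (v1 t1 w) * RR k SkS x (cf t1) F (v1 t1 w))
        ∂(gI (Pair n ⊕ Pair n)) := by
  have h := conv_T3 (A0 := (∅ : Finset (Pair n))) (a := (L2 n t1 t2).a) (b := (L2 n t1 t2).b)
    (c := (L2 n t1 t2).c) (c1 := (L1 n t1).c) (F := fun u => Zx k SkS x u * F u) (φ := φ)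
    (ebd hF) hφ hind (fun e _ => by
      show √(1 - t1) ^ 2 = √(t2 - t1) ^ 2 + √(1 - t2) ^ 2
      rw [Real.sq_sqrt (by linarith), Real.sq_sqrt (by linarith), Real.sq_sqrt (by linarith)]
      ring) (s := t1) ⟨h0, h1.trans h2⟩
  have e1 : ∀ w, P ∅ (L2 n t1 t2).a (L2 n t1 t2).b (L2 n t1 t2).c
      (fun u => Zx k SkS x u * F u) t1 w =
        ND k x t2 (v2 t1 t2 w) * RR k SkS x (cf t2) F (v2 t1 t2 w) := by
    intro w
    rw [P_empty _ _ _ _ t1 0]
    exact P_L2 w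
  have e2 : ∀ w, P ∅ (L2 n t1 t2).a 0 (L1 n t1).c
      (fun u => Zx k SkS x u * F u) t1 w =
        ND k x t1 (v1 t1 w) * RR k SkS x (cf t1) F (v1 t1 w) := by
    intro w
    have e3 := u_L1 (n := n) ∅ t1 w
    have e4 := nz_L1 (n := n) ∅ t1
    rw [P_eq, e4]
    show PP (cf t1) _ (u ∅ (L1 n t1).a (L1 n t1).b t1 w) = _
    rw [e3]
    unfold RR ND
    rw [mul_div_cancel₀ _ (DD_pos k SkS x _ _).ne']
  simp only [e1, e2] at h
  exact h

/-- (X6a), general observable -/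
theorem tower_obs (h0 : 0 ≤ t1) (h1 : t1 ≤ t2) (h2 : t2 ≤ 1) {F : (Pair n → ℝ) → ℝ}
    (hF : EG F) (hR : EG fun v => RR k (SkS (n := n)) x (cf t1) F v)
    {φ : (Pair n ⊕ Pair n → ℝ) → ℝ} (hφ : EG φ)
    (hind : ∀ e, ∀ w t, φ (Function.update w (Sum.inr e) t) = φ w) :
    II k x t1 t2 (fun w => φ w * RR k SkS x (cf t2) F (v2 t1 t2 w)) =
      II k x t1 t2 (fun w => φ w * RR k SkS x (cf t1) F (v1 t1 w)) := by
  have h3 := start3_obs (k := k) (x := x) h0 h1 h2 hF hφ hind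
  have h4 := start3_full (k := k) (x := x) h0 h1 h2
    (φ := fun w => φ w * RR k SkS x (cf t1) F (v1 t1 w)) (hφ.mul (eg_v1 hR t1)) (by
      intro e w t
      rw [hind, v1_inr])
  unfold II
  calc ∫ w, ND k x t2 (v2 t1 t2 w) * (φ w * RR k SkS x (cf t2) F (v2 t1 t2 w))
        ∂(gI (Pair n ⊕ Pair n))
      = ∫ w, φ w * (ND k x t2 (v2 t1 t2 w) * RR k SkS x (cf t2) F (v2 t1 t2 w))
        ∂(gI (Pair n ⊕ Pair n)) := by
        congr 1
        funext w
        ring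
    _ = ∫ w, φ w * (ND k x t1 (v1 t1 w) * RR k SkS x (cf t1) F (v1 t1 w))
        ∂(gI (Pair n ⊕ Pair n)) := h3
    _ = ∫ w, φ w * RR k SkS x (cf t1) F (v1 t1 w) * ND k x t1 (v1 t1 w)
        ∂(gI (Pair n ⊕ Pair n)) := by
        congr 1
        funext w
        ring
    _ = ∫ w, φ w * RR k SkS x (cf t1) F (v1 t1 w) * ND k x t2 (v2 t1 t2 w)
        ∂(gI (Pair n ⊕ Pair n)) := h4.symm
    _ = _ := by
        congr 1
        funext w
        ring

/-- **(X6a)** the tower property of the two-level average -/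
theorem tower (h0 : 0 ≤ t1) (h1 : t1 ≤ t2) (h2 : t2 ≤ 1)
    {φ : (Pair n ⊕ Pair n → ℝ) → ℝ} (hφ : EG φ)
    (hind : ∀ e, ∀ w t, φ (Function.update w (Sum.inr e) t) = φ w) (p q : Fin n) :
    II k x t1 t2 (fun w => φ w * AA k x t2 (v2 t1 t2 w) p q) =
      II k x t1 t2 (fun w => φ w * AA k x t1 (v1 t1 w) p q) :=
  tower_obs h0 h1 h2 (eg_av k SkS (pr p q)) (eg_AA t1 p q) hφ hind

/-- (X6a) for functions of the lower position -/
theorem tower_v1 (h0 : 0 ≤ t1) (h1 : t1 ≤ t2) (h2 : t2 ≤ 1)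
    {G : (Pair n → ℝ) → ℝ} (hG : EG G) (p q : Fin n) :
    II k x t1 t2 (fun w => G (v1 t1 w) * AA k x t2 (v2 t1 t2 w) p q) =
      II k x t1 t2 (fun w => G (v1 t1 w) * AA k x t1 (v1 t1 w) p q) :=
  tower h0 h1 h2 (eg_v1 hG t1) (fun e w t => by simp only [v1_inr]) p q

/-- **(X6c)** the matrices are symmetric -/
lemma AA_symm (t : ℝ) (v : Pair n → ℝ) : (AA k x t v)ᵀ = AA k x t v := by
  ext p q
  rw [Matrix.transpose_apply]
  have e : pr q p = pr (n := n) p q := by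
    funext σ
    unfold pr
    ring
  unfold AA
  rw [e]

lemma BB_symm (b : Fin n) (t : ℝ) (v : Pair n → ℝ) : (BB k x b t v)ᵀ = BB k x b t v := by
  ext p q
  rw [Matrix.transpose_apply]
  have e : pr q p = pr (n := n) p q := by
    funext σ
    unfold pr
    ring
  unfold BB
  rw [e]

section alg

variable {q : Type} [Fintype q] [DecidableEq q]

/-- `fr (A * (A + D))` expanded -/
lemma fr_mul_ge (A B : Matrix q q ℝ) :
    fr (A * A) + (∑ r, ∑ s, 2 * (Aᵀ * (A * A)) r s * (B r s - A r s)) ≤ fr (A * B) := by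
  have e1 : A * B = A * A + A * (B - A) := by
    rw [Matrix.mul_sub]
    abel
  have e2 : fr (A * B) = fr (A * A) + 2 * ip (A * A) (A * (B - A)) + fr (A * (B - A)) := by
    rw [e1]
    unfold fr ip
    simp only [Matrix.add_apply, Finset.mul_sum, ← Finset.sum_add_distrib]
    exact Finset.sum_congr rfl fun i _ => Finset.sum_congr rfl fun j _ => by ring
  have e3 : ip (A * A) (A * (B - A)) =
      ∑ r, ∑ s, (Aᵀ * (A * A)) r s * (B r s - A r s) := by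
    rw [ip_eq_trace]
    have : ((A * A)ᵀ * (A * (B - A))) = (Aᵀ * (A * A))ᵀ * (B - A) := by
      simp only [Matrix.transpose_mul, Matrix.transpose_transpose, Matrix.mul_assoc]
    rw [this, ← ip_eq_trace]
    unfold ip
    simp only [Matrix.sub_apply]
  have e4 : (∑ r, ∑ s, 2 * (Aᵀ * (A * A)) r s * (B r s - A r s)) =
      2 * ∑ r, ∑ s, (Aᵀ * (A * A)) r s * (B r s - A r s) := by
    simp only [Finset.mul_sum]
    exact Finset.sum_congr rfl fun i _ => Finset.sum_congr rfl fun j _ => by ring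
  have e5 := Vale.Agent.P146.H332.fr_nonneg (A * (B - A))
  rw [e2, e4, e3]
  linarith

end alg

/-- **(X6b)** -/
theorem T_ge (h0 : 0 ≤ t1) (h1 : t1 ≤ t2) (h2 : t2 ≤ 1) :
    II k x t1 t2 (fun w : Pair n ⊕ Pair n → ℝ => fr (AA k x t1 (v1 t1 w) * AA k x t1 (v1 t1 w))) ≤
      II k x t1 t2 (fun w : Pair n ⊕ Pair n → ℝ =>
        fr (AA k x t1 (v1 t1 w) * AA k x t2 (v2 t1 t2 w))) := by
  have eM : ∀ r s, EG fun v : Pair n → ℝ =>
      2 * ((AA k x t1 v)ᵀ * (AA k x t1 v * AA k x t1 v)) r s := fun r s =>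
    EG.const_mul 2 (eg_mulM (A := fun v => (AA k x t1 v)ᵀ) (fun p q => eg_AA t1 q p)
      (eg_mulM (eg_AA t1) (eg_AA t1)) r s)
  have e0 : ∀ r s, EG fun w : Pair n ⊕ Pair n → ℝ =>
      2 * ((AA k x t1 (v1 t1 w))ᵀ * (AA k x t1 (v1 t1 w) * AA k x t1 (v1 t1 w))) r s *
        (AA k x t2 (v2 t1 t2 w) r s - AA k x t1 (v1 t1 w) r s) := fun r s =>
    (eg_v1 (eM r s) t1).mul ((eg_A2 r s).sub (eg_A1 r s))
  have eS : EG fun w : Pair n ⊕ Pair n → ℝ => ∑ r, ∑ s,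
      2 * ((AA k x t1 (v1 t1 w))ᵀ * (AA k x t1 (v1 t1 w) * AA k x t1 (v1 t1 w))) r s *
        (AA k x t2 (v2 t1 t2 w) r s - AA k x t1 (v1 t1 w) r s) :=
    EG.sum _ fun r _ => EG.sum _ fun s _ => e0 r s
  have eF : EG fun w : Pair n ⊕ Pair n → ℝ =>
      fr (AA k x t1 (v1 t1 w) * AA k x t1 (v1 t1 w)) := eg_frM (eg_mulM eg_A1 eg_A1)
  have eG : EG fun w : Pair n ⊕ Pair n → ℝ =>
      fr (AA k x t1 (v1 t1 w) * AA k x t2 (v2 t1 t2 w)) := eg_frM (eg_mulM eg_A1 eg_A2)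
  have hle : ∀ w : Pair n ⊕ Pair n → ℝ,
      fr (AA k x t1 (v1 t1 w) * AA k x t1 (v1 t1 w)) + (∑ r, ∑ s,
      2 * ((AA k x t1 (v1 t1 w))ᵀ * (AA k x t1 (v1 t1 w) * AA k x t1 (v1 t1 w))) r s *
        (AA k x t2 (v2 t1 t2 w) r s - AA k x t1 (v1 t1 w) r s)) ≤
      fr (AA k x t1 (v1 t1 w) * AA k x t2 (v2 t1 t2 w)) := fun w => fr_mul_ge _ _
  have h3 := II_mono (k := k) (x := x) (t1 := t1) (t2 := t2) (eF.add eS) eG hle
  rw [II_add eF eS] at h3
  have h4 : II k x t1 t2 (fun w : Pair n ⊕ Pair n → ℝ => ∑ r, ∑ s,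
      2 * ((AA k x t1 (v1 t1 w))ᵀ * (AA k x t1 (v1 t1 w) * AA k x t1 (v1 t1 w))) r s *
        (AA k x t2 (v2 t1 t2 w) r s - AA k x t1 (v1 t1 w) r s)) = 0 := by
    rw [II_sum _ fun r _ => EG.sum _ fun s _ => e0 r s]
    refine Finset.sum_eq_zero fun r _ => ?_
    rw [II_sum _ fun s _ => e0 r s]
    refine Finset.sum_eq_zero fun s _ => ?_
    simp only [mul_sub]
    rw [II_sub ((eg_v1 (eM r s) t1).mul (eg_A2 r s)) ((eg_v1 (eM r s) t1).mul (eg_A1 r s)),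
      tower_v1 h0 h1 h2 (eM r s) r s, sub_self]
  rw [h4, add_zero] at h3
  exact h3

/-- the law of the lower level is not changed: functions of the lower position -/
theorem II_v1 (h0 : 0 ≤ t1) (h1 : t1 ≤ t2) (h2 : t2 ≤ 1)
    {φ : (Pair n ⊕ Pair n → ℝ) → ℝ} (hφ : EG φ)
    (hind : ∀ e, ∀ w t, φ (Function.update w (Sum.inr e) t) = φ w) :
    II k x t1 t2 φ = ∫ w, ND k x t1 (v1 t1 w) * φ w ∂(gI (Pair n ⊕ Pair n)) := by
  have h := start3_full (k := k) (x := x) h0 h1 h2 hφ hind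
  unfold II
  calc _ = ∫ w, φ w * ND k x t2 (v2 t1 t2 w) ∂(gI (Pair n ⊕ Pair n)) := by
        congr 1
        funext w
        ring
    _ = _ := by
        rw [h]
        congr 1
        funext w
        ring

end Vale.Agent.P146.H946
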