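import Vale.Agent.P146.H425.Gauss

/-!
A Poincaré inequality for functions which are odd in a set `A` of coordinates, under a Gaussian
measure tilted by the exponential of a function which is even in `A` and has a small gradient.
-/

open MeasureTheory ProbabilityTheory

namespace Vale.Agent.P146.H946

open Vale.Agent.P157.Lv Vale.Agent.P146.H425

set_option linter.unusedSectionVars false

variable {ι : Type} [Fintype ι] [DecidableEq ι]

/-- flip the coordinates of `A` -/
def flA (A : Finset ι) (z : ι → ℝ) : ι → ℝ := fun e => if e ∈ A then -z e else z e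

/-- the levels: the coordinates of `A` are above, the others below -/
def lvA (A : Finset ι) (e : ι) : ℕ := if e ∈ A then 1 else 0

lemma gI_neg : (gI ι).map (fun z => -z) = gI ι := by
  have e : (fun z : ι → ℝ => -z) = fun z i => (fun x : ℝ => -x) (z i) := by
    funext z i; rfl
  have hm : (gaussianReal 0 1).map (fun x : ℝ => -x) = gaussianReal 0 1 := by
    rw [gaussianReal_map_neg]; simp
  have : ∀ _ : ι, SigmaFinite ((gaussianReal 0 1).map (fun x : ℝ => -x)) := by
    intro _; rw [hm]; infer_instance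
  rw [e, Measure.pi_map_pi (μ := fun _ : ι => gaussianReal 0 1) (f := fun _ x => -x)
    (fun i => by fun_prop)]
  simp only [hm]

lemma integral_neg_gI {F : (ι → ℝ) → ℝ} (hF : Measurable F) :
    ∫ z, F (-z) ∂(gI ι) = ∫ z, F z ∂(gI ι) := by
  conv_rhs => rw [← gI_neg]
  rw [integral_map (by fun_prop) hF.aestronglyMeasurable]

lemma mix_neg (A : Finset ι) (z w : ι → ℝ) :
    mix (lvA A) 0 z (-w) = flA A (mix (lvA A) 0 z w) := by
  funext e
  unfold mix lvA flA
  by_cases h : e ∈ A <;> simp [h]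

/-- The mean over `A` of a function which is odd in `A`. -/
lemma J_odd (A : Finset ι) {F : (ι → ℝ) → ℝ} (hF : EG F) (ho : ∀ z, F (flA A z) = -F z)
    (z : ι → ℝ) : J (lvA A) 0 F z = 0 := by
  have h2 := integral_neg_gI (ι := ι) (F := fun w => F (mix (lvA A) 0 z w))
    (hF.meas.comp (measurable_mix_right _ _ z))
  simp only [mix_neg, ho, integral_neg] at h2
  unfold J
  linarith

lemma mix_upd_mem {A : Finset ι} {e : ι} (he : e ∈ A) (z w : ι → ℝ) (t : ℝ) :
    mix (lvA A) 0 z (Function.update w e t) = Function.update (mix (lvA A) 0 z w) e t := by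
  funext j
  unfold mix lvA
  by_cases hj : j = e
  · subst hj
    simp [he]
  · rw [Function.update_of_ne hj, Function.update_of_ne hj]

lemma mix_upd_not {A : Finset ι} {e : ι} (he : e ∉ A) (z w : ι → ℝ) (t : ℝ) :
    mix (lvA A) 0 z (Function.update w e t) = mix (lvA A) 0 z w := by
  funext j
  unfold mix lvA
  by_cases hj : j = e
  · subst hj
    simp [he]
  · rw [Function.update_of_ne hj]

lemma eg_mix_right {A : Finset ι} {F : (ι → ℝ) → ℝ} (hF : EG F) (z : ι → ℝ) :
    EG fun w => F (mix (lvA A) 0 z w) := by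
  obtain ⟨C, a, hC, ha, hb⟩ := hF.bdd
  refine ⟨hF.meas.comp (measurable_mix_right _ _ z), C * Real.exp (a * ‖z‖), a, by positivity, ha,
    fun w => ?_⟩
  refine (hb _).trans ?_
  rw [mul_assoc, ← Real.exp_add, ← mul_add]
  gcongr
  exact norm_mix_le z w

/-- **Partial Poincaré inequality**: a function which is odd in `A`. -/
theorem partial_poincare (A : Finset ι) {F : (ι → ℝ) → ℝ} {F' : ι → (ι → ℝ) → ℝ} (hF : EG F)
    (hd : ∀ e ∈ A, PD e F (F' e)) (hF' : ∀ e ∈ A, EG (F' e)) (ho : ∀ z, F (flA A z) = -F z) :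
    ∫ z, F z ^ 2 ∂(gI ι) ≤ ∑ e ∈ A, ∫ z, F' e z ^ 2 ∂(gI ι) := by
  have h0 : ∀ z, ∫ w, F (mix (lvA A) 0 z w) ∂(gI ι) = 0 := fun z => J_odd A hF ho z
  have h1 : ∀ z, ∫ w, F (mix (lvA A) 0 z w) ^ 2 ∂(gI ι) ≤
      ∑ e ∈ A, ∫ w, F' e (mix (lvA A) 0 z w) ^ 2 ∂(gI ι) := by
    intro z
    have h2 := cc_var_le_one (ι := ι) (F := fun w => F (mix (lvA A) 0 z w))
      (F' := fun e w => if e ∈ A then F' e (mix (lvA A) 0 z w) else 0) (eg_mix_right hF z)
      (fun e => by
        by_cases he : e ∈ A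
        · intro y t
          simp only [he, if_true]
          have h3 := hd e he (mix (lvA A) 0 z y) t
          simp only [mix_upd_mem he]
          exact h3
        · simp only [he, if_false]
          exact PD.of_indep fun y t => by rw [mix_upd_not he])
      (fun e => by
        by_cases he : e ∈ A
        · simp only [he, if_true]
          exact eg_mix_right (hF' e he) z
        · simp only [he, if_false]
          exact EG.const 0)
    rw [h0 z] at h2
    simp only [sub_zero] at h2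
    refine h2.trans (le_of_eq ?_)
    rw [← Finset.sum_subset (Finset.subset_univ A)]
    · refine Finset.sum_congr rfl fun e he => ?_
      simp only [he, if_true]
    · intro e _ he
      simp [he]
  have h4 := integral_mix (hF.pow 2) (lvA A) 0
  rw [← h4]
  have h5 : ∀ e ∈ A, ∫ z, F' e z ^ 2 ∂(gI ι) =
      ∫ z, ∫ w, F' e (mix (lvA A) 0 z w) ^ 2 ∂(gI ι) ∂(gI ι) := fun e he =>
    (integral_mix ((hF' e he).pow 2) (lvA A) 0).symm
  rw [Finset.sum_congr rfl h5, ← integral_finsetSum]
  · refine integral_mono (((hF.pow 2).J (lvA A) 0).integrable) ?_ h1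
    exact (EG.sum A fun e he => ((hF' e he).pow 2).J (lvA A) 0).integrable
  · intro e he
    exact (((hF' e he).pow 2).J (lvA A) 0).integrable

/-- **Tilted Poincaré inequality for odd functions.** -/
theorem odd_poincare (A : Finset ι) {f V : (ι → ℝ) → ℝ} {f' V' : ι → (ι → ℝ) → ℝ} {L d : ℝ}
    (hf : EG f) (hfd : ∀ e ∈ A, PD e f (f' e)) (hf' : ∀ e ∈ A, EG (f' e))
    (hV : ∀ e ∈ A, PD e V (V' e)) (hV' : ∀ e ∈ A, EG (V' e))
    (hex : EG fun z => Real.exp (V z / 2))
    (hfo : ∀ z, f (flA A z) = -f z) (hVe : ∀ z, V (flA A z) = V z)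
    (hL : ∀ z, ∑ e ∈ A, V' e z ^ 2 ≤ L ^ 2) (hdp : 0 < d) :
    ∫ z, Real.exp (V z) * f z ^ 2 ∂(gI ι) ≤
      (1 + d) * ∫ z, Real.exp (V z) * ∑ e ∈ A, f' e z ^ 2 ∂(gI ι) +
        (1 + 1 / d) * (L ^ 2 / 4) * ∫ z, Real.exp (V z) * f z ^ 2 ∂(gI ι) := by
  have hee : ∀ z, Real.exp (V z) = Real.exp (V z / 2) ^ 2 := fun z => by
    rw [← Real.exp_nat_mul]
    congr 1
    push_cast
    ring
  have hexp : EG fun z => Real.exp (V z) := by
    have := hex.pow 2
    simpa only [← hee] using this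
  have h1 := partial_poincare A (F := fun z => f z * Real.exp (V z / 2))
    (F' := fun e z => f' e z * Real.exp (V z / 2) + f z * (Real.exp (V z / 2) * (1 / 2 * V' e z)))
    (hf.mul hex)
    (fun e he => by
      have h2 : PD e (fun z => Real.exp (V z / 2)) (fun z => Real.exp (V z / 2) * (1 / 2 * V' e z)) := by
        intro y t
        have h3 := ((hV e he y t).const_mul (1 / 2 : ℝ)).exp
        convert h3 using 1
        · funext s
          ring_nf
        · ring_nf
      exact (hfd e he).mul h2)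
    (fun e he => ((hf' e he).mul hex).add (hf.mul (hex.mul ((hV' e he).const_mul _))))
    (fun z => by rw [hfo, hVe]; ring)
  have h4 : ∀ z, (f z * Real.exp (V z / 2)) ^ 2 = Real.exp (V z) * f z ^ 2 := fun z => by
    rw [hee]; ring
  simp only [h4] at h1
  refine h1.trans ?_
  rw [← integral_finsetSum, ← integral_const_mul, ← integral_const_mul, ← integral_add]
  · refine integral_mono ?_ ?_ fun z => ?_
    · exact (EG.sum A fun e he => (((hf' e he).mul hex).add
        (hf.mul (hex.mul ((hV' e he).const_mul _)))).pow 2).integrable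
    · exact (((hexp.mul (EG.sum A fun e he => (hf' e he).pow 2)).const_mul _).add
        ((hexp.mul (hf.pow 2)).const_mul _)).integrable
    · show ∑ e ∈ A, _ ≤ _
      have h5 : ∀ e ∈ A, (f' e z * Real.exp (V z / 2) +
          f z * (Real.exp (V z / 2) * (1 / 2 * V' e z))) ^ 2 ≤
          (1 + d) * (Real.exp (V z) * f' e z ^ 2) +
            (1 + 1 / d) * (Real.exp (V z) * f z ^ 2 / 4 * V' e z ^ 2) := by
        intro e _
        rw [hee]
        have h6 : 0 ≤ (Real.sqrt d * f' e z - 1 / Real.sqrt d * (f z * V' e z / 2)) ^ 2 :=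
          sq_nonneg _
        have h7 : Real.sqrt d ^ 2 = d := Real.sq_sqrt hdp.le
        have h8 : Real.sqrt d ≠ 0 := (Real.sqrt_pos.2 hdp).ne'
        have h9 : (Real.sqrt d * f' e z - 1 / Real.sqrt d * (f z * V' e z / 2)) ^ 2 =
            d * f' e z ^ 2 - 2 * (f' e z * (f z * V' e z / 2)) +
              1 / d * (f z * V' e z / 2) ^ 2 := by
          have h10 : (1 / Real.sqrt d) ^ 2 = 1 / d := by rw [div_pow, h7, one_pow]
          have h11 : Real.sqrt d * (1 / Real.sqrt d) = 1 := by field_simp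
          calc _ = Real.sqrt d ^ 2 * f' e z ^ 2 - 2 * (Real.sqrt d * (1 / Real.sqrt d)) *
                (f' e z * (f z * V' e z / 2)) + (1 / Real.sqrt d) ^ 2 * (f z * V' e z / 2) ^ 2 := by
                ring
            _ = _ := by rw [h7, h10, h11]; ring
        rw [h9] at h6
        have h12 := mul_nonneg (sq_nonneg (Real.exp (V z / 2))) h6
        nlinarith [h12]
      refine (Finset.sum_le_sum h5).trans ?_
      rw [Finset.sum_add_distrib, ← Finset.mul_sum, ← Finset.mul_sum, ← Finset.mul_sum,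
        ← Finset.mul_sum]
      have h13 : Real.exp (V z) * f z ^ 2 / 4 * ∑ e ∈ A, V' e z ^ 2 ≤
          Real.exp (V z) * f z ^ 2 / 4 * L ^ 2 :=
        mul_le_mul_of_nonneg_left (hL z) (by positivity)
      have h14 : (0 : ℝ) ≤ 1 + 1 / d := by positivity
      have h15 := mul_le_mul_of_nonneg_left h13 h14
      linarith
  · exact ((hexp.mul (EG.sum A fun e he => (hf' e he).pow 2)).const_mul _).integrable
  · exact ((hexp.mul (hf.pow 2)).const_mul _).integrable
  · intro e he
    exact ((((hf' e he).mul hex).add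
        (hf.mul (hex.mul ((hV' e he).const_mul _)))).pow 2).integrable

/-- The closed form: if `L ≤ 1 / 2` then the constant is `1 + 4 L`. -/
theorem odd_poincare' (A : Finset ι) {f V : (ι → ℝ) → ℝ} {f' V' : ι → (ι → ℝ) → ℝ} {L : ℝ}
    (hf : EG f) (hfd : ∀ e ∈ A, PD e f (f' e)) (hf' : ∀ e ∈ A, EG (f' e))
    (hV : ∀ e ∈ A, PD e V (V' e)) (hV' : ∀ e ∈ A, EG (V' e))
    (hex : EG fun z => Real.exp (V z / 2))
    (hfo : ∀ z, f (flA A z) = -f z) (hVe : ∀ z, V (flA A z) = V z)
    (hL : ∀ z, ∑ e ∈ A, V' e z ^ 2 ≤ L ^ 2) (hL0 : 0 < L) (hL1 : L ≤ 1 / 2) :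
    ∫ z, Real.exp (V z) * f z ^ 2 ∂(gI ι) ≤
      (1 + 4 * L) * ∫ z, Real.exp (V z) * ∑ e ∈ A, f' e z ^ 2 ∂(gI ι) := by
  have h1 := odd_poincare A hf hfd hf' hV hV' hex hfo hVe hL hL0
  have hI : 0 ≤ ∫ z, Real.exp (V z) * f z ^ 2 ∂(gI ι) :=
    integral_nonneg fun z => by positivity
  have hK : 0 ≤ ∫ z, Real.exp (V z) * ∑ e ∈ A, f' e z ^ 2 ∂(gI ι) :=
    integral_nonneg fun z => mul_nonneg (Real.exp_pos _).le
      (Finset.sum_nonneg fun e _ => sq_nonneg _)
  set I := ∫ z, Real.exp (V z) * f z ^ 2 ∂(gI ι) with hIdef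
  set K := ∫ z, Real.exp (V z) * ∑ e ∈ A, f' e z ^ 2 ∂(gI ι) with hKdef
  have h2 : (1 + 1 / L) * (L ^ 2 / 4) = (L ^ 2 + L) / 4 := by
    field_simp
  rw [h2] at h1
  -- I (1 - (L^2+L)/4) ≤ (1+L) K
  have h3 : I * (1 - (L ^ 2 + L) / 4) ≤ (1 + L) * K := by linarith
  have h4 : (1 + L) ≤ (1 + 4 * L) * (1 - (L ^ 2 + L) / 4) := by nlinarith
  have h5 : 0 < 1 - (L ^ 2 + L) / 4 := by nlinarith
  have h6 : I * (1 - (L ^ 2 + L) / 4) ≤ (1 + 4 * L) * (1 - (L ^ 2 + L) / 4) * K :=
    h3.trans (mul_le_mul_of_nonneg_right h4 hK)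
  nlinarith

end Vale.Agent.P146.H946
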