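import Vale.Agent.P146.H946.SkR
import Vale.Agent.P146.H425.FFin

/-!
The output of block F of plan R1 for SK.
-/

open MeasureTheory ProbabilityTheory

namespace Vale.Agent.P146.H946

open Vale.Agent.P157.Lv Vale.Agent.P146.H425 Vale.Agent.P146.H332 Vale.Agent.P146.H325
open Vale.Agent.P146.R1

set_option linter.unusedSectionVars false

variable {n : ℕ}

lemma av_pr_comm (k : ℝ) (y : Pair n → ℝ) (i j : Fin n) :
    H325.av k SkS (pr i j) y = H325.av k SkS (pr j i) y := by rw [pr_comm]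

lemma av_pr_self (k : ℝ) (y : Pair n → ℝ) (i : Fin n) : H325.av k SkS (pr i i) y = 1 := by
  rw [pr_self]
  exact av_one k SkS y

/-- the matrix of the two-point functions is positive semidefinite -/
lemma av_pr_psd (k : ℝ) (y : Pair n → ℝ) (v : Fin n → ℝ) :
    0 ≤ ∑ i, ∑ j, v i * H325.av k SkS (pr i j) y * v j := by
  have h1 : 0 ≤ H325.av k SkS (fun σ : Fin n → ℤˣ => (∑ i, v i * H325.sp σ i) ^ 2) y :=
    av_nonneg k SkS (fun σ => sq_nonneg _) y
  have e1 : (fun σ : Fin n → ℤˣ => (∑ i, v i * H325.sp σ i) ^ 2) =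
      fun σ => ∑ i, ∑ j, (v i * v j) * pr i j σ := by
    funext σ
    rw [_root_.sq, Finset.sum_mul_sum]
    refine Finset.sum_congr rfl fun i _ => Finset.sum_congr rfl fun j _ => ?_
    unfold pr
    ring
  rw [e1, av_sum] at h1
  refine h1.trans (le_of_eq ?_)
  refine Finset.sum_congr rfl fun i _ => ?_
  rw [av_sum]
  refine Finset.sum_congr rfl fun j _ => ?_
  rw [av_mul]
  ring

/-- the inner product of the gradients of `log Z` at two points -/
lemma sk_inner (k : ℝ) (y y' : Pair n → ℝ) : 2 * ∑ e, Dz k e y * Dz k e y' =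
    k ^ 2 * ((∑ i, ∑ j, H325.av k SkS (pr i j) y * H325.av k SkS (pr i j) y') - n) := by
  have h := sum_pairs (n := n) (fun p q => if p = q then (0 : ℝ) else
    H325.av k SkS (pr p q) y * H325.av k SkS (pr p q) y')
    (fun p q => by simp only [eq_comm (a := p), av_pr_comm k _ p q]) (fun p => by simp)
  have e1 : ∀ e : Pair n, (if e.1.1 = e.1.2 then (0 : ℝ) else
      H325.av k SkS (pr e.1.1 e.1.2) y * H325.av k SkS (pr e.1.1 e.1.2) y') =
      H325.av k SkS (SkS e) y * H325.av k SkS (SkS e) y' := fun e => by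
    rw [if_neg e.2.ne]
    rfl
  simp only [e1] at h
  have e2 : ∀ p q : Fin n, (if p = q then (0 : ℝ) else
      H325.av k SkS (pr p q) y * H325.av k SkS (pr p q) y') =
      H325.av k SkS (pr p q) y * H325.av k SkS (pr p q) y' - if p = q then (1 : ℝ) else 0 := by
    intro p q
    by_cases hpq : p = q
    · subst hpq
      simp [av_pr_self]
    · simp [hpq]
  simp only [e2, Finset.sum_sub_distrib] at h
  have e3 : ∑ p : Fin n, ∑ q : Fin n, (if p = q then (1 : ℝ) else 0) = n := by simp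
  rw [e3] at h
  rw [h, Finset.mul_sum, Finset.mul_sum, Finset.mul_sum]
  refine Finset.sum_congr rfl fun e _ => ?_
  simp only [Dz]
  ring

/-- (hK) the inner product of the gradients at two points is at least `-β²/2` -/
theorem sk_hK (hn : 0 < n) (β : ℝ) (y y' : Pair n → ℝ) :
    -(β ^ 2 / 2) ≤ ∑ e, Dz (β / √n) e y * Dz (β / √n) e y' := by
  have hn' : (0 : ℝ) < n := Nat.cast_pos.2 hn
  have h1 := psd_mul_nonneg (A := fun i j => H325.av (β / √n) SkS (pr i j) y)
    (B := fun i j => H325.av (β / √n) SkS (pr i j) y')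
    (fun i j => av_pr_comm _ _ i j) (av_pr_psd _ y) (fun i j => av_pr_comm _ _ i j)
    (av_pr_psd _ y')
  have h2 := sk_inner (β / √n) y y'
  have hk2 : (β / √n) ^ 2 = β ^ 2 / n := by rw [div_pow, Real.sq_sqrt hn'.le]
  rw [hk2] at h2
  have h3 : -(β ^ 2) ≤ β ^ 2 / n * ((∑ i, ∑ j, H325.av (β / √n) SkS (pr i j) y *
      H325.av (β / √n) SkS (pr i j) y') - n) := by
    have h4 : β ^ 2 / n * (0 - n) ≤ β ^ 2 / n * ((∑ i, ∑ j, H325.av (β / √n) SkS (pr i j) y *
      H325.av (β / √n) SkS (pr i j) y') - n) :=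
      mul_le_mul_of_nonneg_left (by linarith) (by positivity)
    have h5 : β ^ 2 / (n : ℝ) * (0 - n) = -β ^ 2 := by field_simp; ring
    rw [h5] at h4
    exact h4
  linarith

/-- **The output of block F for SK**: if the variance is at least `n^{1/3+ε}` -/
theorem sk_out {β : ℝ} (hβ : β ≠ 0) {ε α : ℝ} (hα : 0 < α) (hαε : 4 * α ≤ ε) :
    ∃ n₀ : ℝ, 2 ≤ n₀ ∧ ∀ n : ℕ, n₀ ≤ (n : ℝ) →
      (n : ℝ) ^ (1 / 3 + ε : ℝ) ≤ Var[freeEnergy n β; disorder n] →
      ∃ x θ T ρ s1 s2 : ℝ, FData n α ε (β ^ 2 / 2) (lz (β / √n) (SkS (n := n))) (Dz (β / √n))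
        (fun x θ T s => Ht x θ (1 - T) (1 - T / 2) s (lz (β / √n) (SkS (n := n)))
          (Dz (β / √n)) (Hz (β / √n))) x θ T ρ s1 s2 := by
  have hb2 : 0 < β ^ 2 / 2 := by positivity
  obtain ⟨n₀, h2, hf⟩ := f_fin hα hαε hb2 hb2.le
  refine ⟨n₀, h2, fun n hn hV => ?_⟩
  have hn0 : 0 < n := by
    have : (0 : ℝ) < n := by linarith
    exact_mod_cast this
  rw [sk_var'] at hV
  exact hf n hn (Pair n) _ _ _ _ _ _ _ (sk_sm (β / √n)) (cv_lz _ _) (sk_grad hn0 β)
    (sk_hK hn0 β) hV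

end Vale.Agent.P146.H946
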