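import Vale.Agent.P146.H655.Pig

/-!
Energy bounds with the weight at the same time, one short layer, part 1: for tilted means
`β_k = Ax ψ_k`, `ν_l = Ax φ_l` over a short layer of length `s²`,
`s² / 4 * (∑ β_k²) * ∑_l ∑_e (D_e ν_l)² ≤ Ax((∑ ψ_k²)(∑ φ_l²)) - (∑ β_k²)(∑ ν_l²)
  + 4 Ax((∑ (ψ_k - β_k)²)(∑ φ_l² + ∑ ν_l²))`.
-/

open MeasureTheory ProbabilityTheory

namespace Vale.Agent.P146.H946.En2

open Vale.Agent.P157.Lv Vale.Agent.P146.H425 Vale.Agent.P146.H325 Vale.Agent.P146.H332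
  Vale.Agent.P146.H712 Vale.Agent.P146.H816 Vale.Agent.P146.R1 Vale.Agent.P146.R1C Matrix
  Vale.Agent.P146.R1S Vale.Agent.P146.H693 Vale.Agent.P146.H655
open Vale.Agent.P146.H785 (Ax)

set_option linter.unusedSectionVars false

section alg

variable {K K' : Type*} [Fintype K] [Fintype K']

/-- the pointwise inequality of products -/
theorem pt_le (b β : K → ℝ) (n ν : K' → ℝ) :
    (∑ k, β k ^ 2) * (∑ l, ν l ^ 2) + (2 * (∑ l, ν l ^ 2) * (∑ k, β k * (b k - β k)) +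
      (2 * (∑ k, β k ^ 2) * (∑ l, ν l * (n l - ν l)) +
        (1 / 2 * (∑ k, β k ^ 2) * (∑ l, (n l - ν l) ^ 2) +
      -4 * ((∑ k, (b k - β k) ^ 2) * ((∑ l, n l ^ 2) + ∑ l, ν l ^ 2))))) ≤
      (∑ k, b k ^ 2) * ∑ l, n l ^ 2 := by
  have e1 : ∑ k, b k ^ 2 = ∑ k, β k ^ 2 + 2 * ∑ k, β k * (b k - β k) +
      ∑ k, (b k - β k) ^ 2 := by
    rw [Finset.mul_sum, ← Finset.sum_add_distrib, ← Finset.sum_add_distrib]
    exact Finset.sum_congr rfl fun k _ => by ring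
  have e2 : ∑ l, n l ^ 2 = ∑ l, ν l ^ 2 + 2 * ∑ l, ν l * (n l - ν l) +
      ∑ l, (n l - ν l) ^ 2 := by
    rw [Finset.mul_sum, ← Finset.sum_add_distrib, ← Finset.sum_add_distrib]
    exact Finset.sum_congr rfl fun k _ => by ring
  have e3 : ∑ l, n l ^ 2 - ∑ l, ν l ^ 2 = ∑ l, (n l + ν l) * (n l - ν l) := by
    rw [← Finset.sum_sub_distrib]
    exact Finset.sum_congr rfl fun k _ => by ring
  have e4 : ∑ l, (n l + ν l) ^ 2 ≤ 2 * (∑ l, n l ^ 2 + ∑ l, ν l ^ 2) := by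
    rw [← Finset.sum_add_distrib, Finset.mul_sum]
    exact Finset.sum_le_sum fun l _ => by nlinarith [sq_nonneg (n l - ν l)]
  have c1 : (∑ k, β k * (b k - β k)) ^ 2 ≤ (∑ k, β k ^ 2) * ∑ k, (b k - β k) ^ 2 :=
    Finset.sum_mul_sq_le_sq_mul_sq _ _ _
  have c2 : (∑ l, (n l + ν l) * (n l - ν l)) ^ 2 ≤
      (∑ l, (n l + ν l) ^ 2) * ∑ l, (n l - ν l) ^ 2 :=
    Finset.sum_mul_sq_le_sq_mul_sq _ _ _
  have p1 : 0 ≤ ∑ k, β k ^ 2 := Finset.sum_nonneg fun _ _ => sq_nonneg _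
  have p2 : 0 ≤ ∑ k, (b k - β k) ^ 2 := Finset.sum_nonneg fun _ _ => sq_nonneg _
  have p3 : 0 ≤ ∑ l, n l ^ 2 := Finset.sum_nonneg fun _ _ => sq_nonneg _
  have p4 : 0 ≤ ∑ l, ν l ^ 2 := Finset.sum_nonneg fun _ _ => sq_nonneg _
  have p5 : 0 ≤ ∑ l, (n l - ν l) ^ 2 := Finset.sum_nonneg fun _ _ => sq_nonneg _
  rw [← e3] at c2
  set β2 := ∑ k, β k ^ 2
  set δ2 := ∑ k, (b k - β k) ^ 2
  set bδ := ∑ k, β k * (b k - β k)
  set n2 := ∑ l, n l ^ 2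
  set ν2 := ∑ l, ν l ^ 2
  set Δ2 := ∑ l, (n l - ν l) ^ 2
  set νΔ := ∑ l, ν l * (n l - ν l)
  have c3 : (n2 - ν2) ^ 2 ≤ (2 * (n2 + ν2)) * Δ2 := c2.trans (mul_le_mul_of_nonneg_right e4 p5)
  have c4 : (2 * bδ * (n2 - ν2)) ^ 2 ≤ (β2 * Δ2 / 2 + 4 * δ2 * (n2 + ν2)) ^ 2 := by
    have h1 : bδ ^ 2 * (n2 - ν2) ^ 2 ≤ (β2 * δ2) * ((2 * (n2 + ν2)) * Δ2) :=
      mul_le_mul c1 c3 (sq_nonneg _) (mul_nonneg p1 p2)
    have h2 : (2 * bδ * (n2 - ν2)) ^ 2 = 4 * (bδ ^ 2 * (n2 - ν2) ^ 2) := by ring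
    have h3 : 0 ≤ (β2 * Δ2 / 2 - 4 * δ2 * (n2 + ν2)) ^ 2 := sq_nonneg _
    rw [h2]
    nlinarith [h1, h3]
  have c5 := abs_le_of_sq_le_sq c4 (by positivity)
  have c6 := neg_abs_le (2 * bδ * (n2 - ν2))
  have c7 : 0 ≤ δ2 * n2 := mul_nonneg p2 p3
  rw [e1]
  have e5 : β2 * n2 = β2 * ν2 + 2 * β2 * νΔ + β2 * Δ2 := by rw [e2]; ring
  nlinarith [c5, c6, c7, e5]

end alg

section lay

variable {κ : Type} [Fintype κ] [DecidableEq κ] {U : (κ → ℝ) → ℝ} {D : κ → (κ → ℝ) → ℝ}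
  {B L x s : ℝ} {K K' : Type*} [Fintype K] [Fintype K'] {ψ : K → (κ → ℝ) → ℝ}
  {φ : K' → (κ → ℝ) → ℝ} {φ' : K' → κ → (κ → ℝ) → ℝ}

lemma Ax_lin0 (h : C11 U D B L) (x s : ℝ) {ψ : K → (κ → ℝ) → ℝ} (hψ : ∀ k, EG (ψ k))
    (u : κ → ℝ) : Ax x s U (fun v => ∑ k, Ax x s U (ψ k) u * (ψ k v - Ax x s U (ψ k) u)) u = 0 := by
  rw [H785.Ax_sum h.lip h.B0 Finset.univ (φ := fun k v => Ax x s U (ψ k) u *
    (ψ k v - Ax x s U (ψ k) u)) fun k _ => ((hψ k).sub (EG.const _)).const_mul _]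
  refine Finset.sum_eq_zero fun k _ => ?_
  rw [H785.Ax_const_mul]
  have e : (fun v => ψ k v - Ax x s U (ψ k) u) = fun v => ψ k v + -Ax x s U (ψ k) u := by
    funext v; ring
  rw [e, H785.Ax_add h.lip h.B0 (hψ k) (EG.const _), H785.Ax_const h.lip h.B0]
  ring

/-- **The energy inequality over a short layer, with the weight at the same time.** -/
theorem lay_en (h : C11 U D B L) (x : ℝ) (hψ : ∀ k, EG (ψ k)) (hφ : ∀ l, EG (φ l))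
    (hφ' : ∀ l e, EG (φ' l e))
    (hd : ∀ l y, HasFDerivAt (φ l) (H785.lf fun e => φ' l e y) y) (hs : 0 < s)
    (hk : x ^ 2 * s ^ 2 * (Fintype.card κ * B ^ 2) ≤ 1 / 2) (u : κ → ℝ) :
    s ^ 2 / 4 * ((∑ k, Ax x s U (ψ k) u ^ 2) *
      ∑ l, ∑ e, GA x s U D (φ l) (φ' l) u e ^ 2) ≤
      Ax x s U (fun v => (∑ k, ψ k v ^ 2) * ∑ l, φ l v ^ 2) u -
        (∑ k, Ax x s U (ψ k) u ^ 2) * (∑ l, Ax x s U (φ l) u ^ 2) +
      4 * Ax x s U (fun v => (∑ k, (ψ k v - Ax x s U (ψ k) u) ^ 2) *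
        ((∑ l, φ l v ^ 2) + ∑ l, Ax x s U (φ l) u ^ 2)) u := by
  have el : EG fun v => ∑ k, Ax x s U (ψ k) u * (ψ k v - Ax x s U (ψ k) u) :=
    EG.sum _ fun k _ => ((hψ k).sub (EG.const _)).const_mul _
  have el' : EG fun v => ∑ l, Ax x s U (φ l) u * (φ l v - Ax x s U (φ l) u) :=
    EG.sum _ fun k _ => ((hφ k).sub (EG.const _)).const_mul _
  have ed : EG fun v => ∑ l, (φ l v - Ax x s U (φ l) u) ^ 2 :=
    EG.sum _ fun k _ => ((hφ k).sub (EG.const _)).pow 2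
  have eg : EG fun v => (∑ k, (ψ k v - Ax x s U (ψ k) u) ^ 2) *
        ((∑ l, φ l v ^ 2) + ∑ l, Ax x s U (φ l) u ^ 2) :=
    (EG.sum _ fun k _ => ((hψ k).sub (EG.const _)).pow 2).mul
      ((EG.sum _ fun l _ => (hφ l).pow 2).add (EG.const _))
  have ep : EG fun v => (∑ k, ψ k v ^ 2) * ∑ l, φ l v ^ 2 :=
    (EG.sum _ fun k _ => (hψ k).pow 2).mul (EG.sum _ fun l _ => (hφ l).pow 2)
  have h1 := H785.Ax_mono h.lip h.B0 ((EG.const _).add ((el.const_mul _).add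
    ((el'.const_mul _).add ((ed.const_mul _).add (eg.const_mul (-4)))))) ep
    (fun v => pt_le (fun k => ψ k v) (fun k => Ax x s U (ψ k) u) (fun l => φ l v)
      fun l => Ax x s U (φ l) u) x s u
  rw [H785.Ax_add h.lip h.B0 (EG.const _) ((el.const_mul _).add
    ((el'.const_mul _).add ((ed.const_mul _).add (eg.const_mul (-4))))),
    H785.Ax_add h.lip h.B0 (el.const_mul _) ((el'.const_mul _).add ((ed.const_mul _).add
      (eg.const_mul (-4)))), H785.Ax_add h.lip h.B0 (el'.const_mul _) ((ed.const_mul _).add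
      (eg.const_mul (-4))), H785.Ax_add h.lip h.B0 (ed.const_mul _) (eg.const_mul (-4)),
    H785.Ax_const_mul (-4), H785.Ax_const_mul (1 / 2 * ∑ k, Ax x s U (ψ k) u ^ 2),
    H785.Ax_const_mul (2 * ∑ k, Ax x s U (ψ k) u ^ 2),
    H785.Ax_const_mul (2 * ∑ l, Ax x s U (φ l) u ^ 2),
    H785.Ax_const h.lip h.B0, Ax_lin0 h x s hψ, Ax_lin0 h x s hφ] at h1
  have h2 : s ^ 2 * ∑ l, ∑ e, GA x s U D (φ l) (φ' l) u e ^ 2 ≤
      2 * Ax x s U (fun v => ∑ l, (φ l v - Ax x s U (φ l) u) ^ 2) u := by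
    rw [H785.Ax_sum h.lip h.B0 Finset.univ (φ := fun l v => (φ l v - Ax x s U (φ l) u) ^ 2)
      fun l _ => ((hφ l).sub (EG.const _)).pow 2, Finset.mul_sum, Finset.mul_sum]
    exact Finset.sum_le_sum fun l _ => grad_le h x (hφ l) (hφ' l) (hd l) hs hk u
  have p1 : 0 ≤ ∑ k, Ax x s U (ψ k) u ^ 2 := Finset.sum_nonneg fun _ _ => sq_nonneg _
  have h3 := mul_le_mul_of_nonneg_left h2 p1
  nlinarith [h1, h3]

end lay

end Vale.Agent.P146.H946.En2
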