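import Vale.Agent.P146.H946.EnA

/-!
Energy bounds with the weight at the same time, part 2: the matrix `C_t` of a position system;
one short step, integrated over the layered law.
-/

open MeasureTheory ProbabilityTheory

namespace Vale.Agent.P146.H946.En2

open Vale.Agent.P157.Lv Vale.Agent.P146.H425 Vale.Agent.P146.H325 Vale.Agent.P146.H332
  Vale.Agent.P146.H712 Vale.Agent.P146.H816 Vale.Agent.P146.R1 Vale.Agent.P146.R1C Matrix
  Vale.Agent.P146.R1S Vale.Agent.P146.H693 Vale.Agent.P146.H655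
open Vale.Agent.P146.H785 (Ax)

set_option linter.unusedSectionVars false

variable {n : ℕ} {k x : ℝ} {S : CS n k x} {w t t' : ℝ} {m σ : ℕ → ℝ} {N : ℕ}
  {M M' : Matrix (Fin n) (Fin n) ℝ}

/-- `<M, C_t²>` -/
def qF (S : CS n k x) (t : ℝ) (M : Matrix (Fin n) (Fin n) ℝ) (u : Pair n → ℝ) : ℝ :=
  ∑ i, ∑ j, M i j * A2 S t i j u

/-- `<M, C_t²> ∑_e |D_e C_t|²` -/
def EnT (S : CS n k x) (t : ℝ) (M : Matrix (Fin n) (Fin n) ℝ) (u : Pair n → ℝ) : ℝ :=
  qF S t M u * ∑ e : Pair n, fr (S.DA t e u)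

/-- `<M, C_t²> |C_t|²` -/
def QN (S : CS n k x) (t : ℝ) (M : Matrix (Fin n) (Fin n) ℝ) (u : Pair n → ℝ) : ℝ :=
  qF S t M u * fr (S.A t u)

/-- the indicator of the bad positions -/
noncomputable def bd (S : CS n k x) (Nb t : ℝ) (u : Pair n → ℝ) : ℝ :=
  if fr (S.A t u) ≤ Nb then 0 else 1

/-- `<M, (C_t' - C_t)²>` -/
def dq (S : CS n k x) (t t' : ℝ) (M : Matrix (Fin n) (Fin n) ℝ) (u v : Pair n → ℝ) : ℝ :=
  ∑ i, ∑ j, M i j * dA2 S t t' u i j v

lemma Aw_lin (h2 : t ≤ t') (h3 : t' ≤ 1) (c : Fin n → ℝ) (l : Fin n) (u : Pair n → ℝ) :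
    Aw S t t' (fun v => ∑ i, c i * S.A t' v i l) u = ∑ i, c i * S.A t u i l := by
  have a1 : Aw S t t' (fun v => ∑ i, c i * S.A t' v i l) u =
      ∑ i, Aw S t t' (fun v => c i * S.A t' v i l) u :=
    Aw_sum S t t' Finset.univ (fun i _ => (S.eg_A t' i l).const_mul _) u
  refine a1.trans (Finset.sum_congr rfl fun i _ => ?_)
  rw [Aw_const_mul, ← A_tw S h2 h3]

lemma GA_A (h2 : t ≤ t') (h3 : t' ≤ 1) (i j : Fin n) (u : Pair n → ℝ) (e : Pair n) :
    GA x (√(t' - t)) (uu x t' S.F) (dd x t' S.F S.D) (fun v => S.A t' v i j)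
      (fun e v => S.DA t' e v i j) u e = S.DA t e u i j := by
  have hc := c11_uu S.c11 S.x0 t'
  have b1 := H785.fd_Ax hc (S.eg_A t' i j) (fun e => S.eg_DA t' e i j) (S.fd_A t' i j) x
    (√(t' - t)) u
  have b3 : HasFDerivAt (Ax x (√(t' - t)) (uu x t' S.F) (fun v => S.A t' v i j))
      (H785.lf fun e => S.DA t e u i j) u := by
    have e1 : Ax x (√(t' - t)) (uu x t' S.F) (fun v => S.A t' v i j) = fun v => S.A t v i j :=
      funext fun v => (A_tw S h2 h3 v i j).symm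
    rw [e1]
    exact S.fd_A t i j u
  exact lf_inj (b1.unique b3) e

/-- the quadratic form as a sum of squares over pairs -/
lemma form_pr {V : Matrix (Fin n) (Fin n) ℝ} {lam : Fin n → ℝ} (hl : ∀ a, 0 ≤ lam a)
    (hV : ∀ i j, M i j = ∑ a, lam a * V i a * V j a) (d : Fin n → Fin n → ℝ)
    (hd : ∀ i j, d i j = d j i) :
    ∑ i, ∑ j, M i j * ∑ l, d i l * d l j =
      ∑ p : Fin n × Fin n, (√(lam p.1) * ∑ i, V i p.1 * d i p.2) ^ 2 := by
  rw [form_eq hV d hd, Fintype.sum_prod_type]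
  refine Finset.sum_congr rfl fun a _ => Finset.sum_congr rfl fun l _ => ?_
  rw [mul_pow, Real.sq_sqrt (hl a)]

lemma fr_pr (X : Matrix (Fin n) (Fin n) ℝ) : fr X = ∑ p : Fin n × Fin n, X p.1 p.2 ^ 2 := by
  unfold fr
  rw [Fintype.sum_prod_type]

/-- **One short step at a position.** -/
theorem pos_le (hM : Psd M) (h2 : t < t') (h3 : t' ≤ 1) (hk : Sh S (t' - t))
    (u : Pair n → ℝ) :
    (t' - t) / 4 * EnT S t M u ≤ Aw S t t' (QN S t' M) u - QN S t M u +
      4 * Aw S t t' (fun v => dq S t t' M u v * (fr (S.A t' v) + fr (S.A t u))) u := by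
  obtain ⟨V, lam, hl, hV⟩ := H499.psd_decomp hM
  have hc := c11_uu S.c11 S.x0 t'
  set s := √(t' - t) with hs
  have hs2 : s ^ 2 = t' - t := Real.sq_sqrt (by linarith)
  have hs0 : 0 < s := Real.sqrt_pos.2 (by linarith)
  have eψ : ∀ p : Fin n × Fin n, EG fun v => √(lam p.1) * ∑ i, V i p.1 * S.A t' v i p.2 :=
    fun p => (eg_lin t' (fun i => V i p.1) p.2).const_mul _
  have key := lay_en hc x (K := Fin n × Fin n) (K' := Fin n × Fin n)
    (ψ := fun p v => √(lam p.1) * ∑ i, V i p.1 * S.A t' v i p.2)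
    (φ := fun p v => S.A t' v p.1 p.2) (φ' := fun p e v => S.DA t' e v p.1 p.2) eψ
    (fun p => S.eg_A t' p.1 p.2) (fun p e => S.eg_DA t' e p.1 p.2)
    (fun p => S.fd_A t' p.1 p.2) hs0 (by rw [hs2]; exact hk) u
  have a1 : ∀ p : Fin n × Fin n, Ax x s (uu x t' S.F)
      (fun v => √(lam p.1) * ∑ i, V i p.1 * S.A t' v i p.2) u =
      √(lam p.1) * ∑ i, V i p.1 * S.A t u i p.2 := by
    intro p
    rw [H785.Ax_const_mul]
    congr 1
    exact Aw_lin h2.le h3 (fun i => V i p.1) p.2 u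
  have a2 : ∀ p : Fin n × Fin n, Ax x s (uu x t' S.F) (fun v => S.A t' v p.1 p.2) u =
      S.A t u p.1 p.2 := fun p => (A_tw S h2.le h3 u p.1 p.2).symm
  have a3 : ∀ (p : Fin n × Fin n) (e : Pair n), GA x s (uu x t' S.F) (dd x t' S.F S.D)
      (fun v => S.A t' v p.1 p.2) (fun e v => S.DA t' e v p.1 p.2) u e =
      S.DA t e u p.1 p.2 := fun p e => GA_A h2.le h3 p.1 p.2 u e
  simp only [a1, a2, a3] at key
  rw [hs2] at key
  have b1 : ∑ p : Fin n × Fin n, (√(lam p.1) * ∑ i, V i p.1 * S.A t u i p.2) ^ 2 = qF S t M u :=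
    (form_pr hl hV (fun i j => S.A t u i j) (S.A_comm t u)).symm
  have b2 : ∀ v, ∑ p : Fin n × Fin n, (√(lam p.1) * ∑ i, V i p.1 * S.A t' v i p.2) ^ 2 =
      qF S t' M v := fun v => (form_pr hl hV (fun i j => S.A t' v i j) (S.A_comm t' v)).symm
  have b3 : ∀ v, ∑ p : Fin n × Fin n, (√(lam p.1) * ∑ i, V i p.1 * S.A t' v i p.2 -
      √(lam p.1) * ∑ i, V i p.1 * S.A t u i p.2) ^ 2 = dq S t t' M u v := by
    intro v
    have h := form_pr hl hV (fun i j => dA S t t' u v i j) (dA_comm t t' u v)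
    refine Eq.trans ?_ h.symm
    refine Finset.sum_congr rfl fun p _ => ?_
    rw [← mul_sub, ← Finset.sum_sub_distrib]
    congr 2
    exact Finset.sum_congr rfl fun i _ => by unfold dA; ring
  have b4 : ∑ p : Fin n × Fin n, ∑ e : Pair n, S.DA t e u p.1 p.2 ^ 2 =
      ∑ e : Pair n, fr (S.DA t e u) := by
    rw [Finset.sum_comm]
    exact Finset.sum_congr rfl fun e _ => (fr_pr _).symm
  simp only [b1, b2, b3, b4, ← fr_pr] at key
  exact key

/-! ### bounds -/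

lemma eg_qF (t : ℝ) (M : Matrix (Fin n) (Fin n) ℝ) : EG (qF S t M) :=
  EG.sum _ fun i _ => EG.sum _ fun j _ => (eg_A2 S t i j).const_mul _

lemma eg_frA (t : ℝ) : EG fun u => fr (S.A t u) :=
  EG.sum _ fun i _ => EG.sum _ fun j _ => (S.eg_A t i j).pow 2

lemma eg_QN (t : ℝ) (M : Matrix (Fin n) (Fin n) ℝ) : EG (QN S t M) :=
  (eg_qF t M).mul (eg_frA t)

lemma eg_sDA (t : ℝ) : EG fun u => ∑ e : Pair n, fr (S.DA t e u) :=
  EG.sum _ fun e _ => EG.sum _ fun i _ => EG.sum _ fun j _ => (S.eg_DA t e i j).pow 2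

lemma eg_EnT (t : ℝ) (M : Matrix (Fin n) (Fin n) ℝ) : EG (EnT S t M) :=
  (eg_qF t M).mul (eg_sDA t)

lemma eg_bd (S : CS n k x) (Nb t : ℝ) : EG (bd S Nb t) := by
  refine EG.of_bdd (C := 1) ?_ fun u => ?_
  · exact Measurable.ite (measurableSet_le (eg_frA t).meas measurable_const) measurable_const
      measurable_const
  · unfold bd
    split_ifs <;> simp

lemma bd_nonneg (Nb t : ℝ) (u : Pair n → ℝ) : 0 ≤ bd S Nb t u := by
  unfold bd
  split_ifs <;> simp

lemma eg_dq (t t' : ℝ) (M : Matrix (Fin n) (Fin n) ℝ) (u : Pair n → ℝ) :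
    EG (dq S t t' M u) :=
  EG.sum _ fun i _ => EG.sum _ fun j _ => (eg_dA2' S t t' u i j).const_mul _

lemma qF_nonneg (hM : Psd M) (u : Pair n → ℝ) : 0 ≤ qF S t M u :=
  psd_sum hM (fun i j => S.A t u i j) (S.A_comm t u)

lemma dq_nonneg (hM : Psd M) (u v : Pair n → ℝ) : 0 ≤ dq S t t' M u v :=
  psd_sum hM (fun i j => dA S t t' u v i j) (dA_comm t t' u v)

lemma frA_nonneg (t : ℝ) (u : Pair n → ℝ) : 0 ≤ fr (S.A t u) :=
  Finset.sum_nonneg fun _ _ => Finset.sum_nonneg fun _ _ => sq_nonneg _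

lemma frA_le (t : ℝ) (u : Pair n → ℝ) : fr (S.A t u) ≤ (n : ℝ) ^ 2 := by
  unfold fr
  have h1 : ∀ i ∈ (Finset.univ : Finset (Fin n)), ∑ j, S.A t u i j ^ 2 ≤ (n : ℝ) := by
    intro i _
    have h2 : ∀ j ∈ (Finset.univ : Finset (Fin n)), S.A t u i j ^ 2 ≤ 1 := by
      intro j _
      rw [sq_le_one_iff_abs_le_one]
      exact S.abs_A t u i j
    have h3 := Finset.sum_le_sum h2
    simpa using h3
  have h4 := Finset.sum_le_sum h1
  rw [Finset.sum_const, Finset.card_univ, Fintype.card_fin, nsmul_eq_mul] at h4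
  exact h4.trans (le_of_eq (by ring))

lemma frA_le_bd {Nb : ℝ} (hN : 0 ≤ Nb) (t : ℝ) (u : Pair n → ℝ) :
    fr (S.A t u) ≤ Nb + (n : ℝ) ^ 2 * bd S Nb t u := by
  unfold bd
  split_ifs with h
  · simpa using h
  · have := frA_le (S := S) t u
    linarith

lemma abs_qF {bM : ℝ} (hb : ∀ i j, |M i j| ≤ bM) (t : ℝ) (u : Pair n → ℝ) :
    |qF S t M u| ≤ (n : ℝ) ^ 3 * bM := by
  unfold qF
  have hb0 : ∀ i : Fin n, 0 ≤ bM := fun i => (abs_nonneg _).trans (hb i i)
  have h1 : ∀ i ∈ (Finset.univ : Finset (Fin n)), |∑ j, M i j * A2 S t i j u| ≤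
      (n : ℝ) * (bM * n) := by
    intro i _
    refine (Finset.abs_sum_le_sum_abs _ _).trans ?_
    have h2 : ∀ j ∈ (Finset.univ : Finset (Fin n)), |M i j * A2 S t i j u| ≤ bM * n := by
      intro j _
      rw [abs_mul]
      exact mul_le_mul (hb i j) (abs_A2 t i j u) (abs_nonneg _) (hb0 i)
    have h3 := Finset.sum_le_sum h2
    simpa using h3
  refine (Finset.abs_sum_le_sum_abs _ _).trans ((Finset.sum_le_sum h1).trans (le_of_eq ?_))
  rw [Finset.sum_const, Finset.card_univ, Fintype.card_fin, nsmul_eq_mul]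
  ring

lemma abs_dA2 (t t' : ℝ) (u v : Pair n → ℝ) (i j : Fin n) : |dA2 S t t' u i j v| ≤ 4 * n := by
  unfold H655.dA2
  refine (Finset.abs_sum_le_sum_abs _ _).trans ?_
  have h : ∀ i l, |dA S t t' u v i l| ≤ 2 := by
    intro i l
    unfold dA
    refine (abs_sub _ _).trans ?_
    linarith [S.abs_A t' v i l, S.abs_A t u i l]
  have h2 : ∀ l ∈ (Finset.univ : Finset (Fin n)), |dA S t t' u v i l * dA S t t' u v l j| ≤ 4 := by
    intro l _
    rw [abs_mul]
    have := mul_le_mul (h i l) (h l j) (abs_nonneg _) (by norm_num)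
    linarith
  refine (Finset.sum_le_sum h2).trans (le_of_eq ?_)
  rw [Finset.sum_const, Finset.card_univ, Fintype.card_fin, nsmul_eq_mul]
  ring

lemma dq_le {bM : ℝ} (hb : ∀ i j, |M i j| ≤ bM) (t t' : ℝ) (u v : Pair n → ℝ) :
    dq S t t' M u v ≤ 4 * (n : ℝ) ^ 3 * bM := by
  unfold dq
  have hb0 : ∀ i : Fin n, 0 ≤ bM := fun i => (abs_nonneg _).trans (hb i i)
  have h1 : ∀ i ∈ (Finset.univ : Finset (Fin n)), ∑ j, M i j * dA2 S t t' u i j v ≤
      (n : ℝ) * (bM * (4 * n)) := by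
    intro i _
    have h2 : ∀ j ∈ (Finset.univ : Finset (Fin n)), M i j * dA2 S t t' u i j v ≤
        bM * (4 * n) := by
      intro j _
      refine (le_abs_self _).trans ?_
      rw [abs_mul]
      exact mul_le_mul (hb i j) (abs_dA2 t t' u v i j) (abs_nonneg _) (hb0 i)
    have h3 := Finset.sum_le_sum h2
    simpa using h3
  refine (Finset.sum_le_sum h1).trans (le_of_eq ?_)
  rw [Finset.sum_const, Finset.card_univ, Fintype.card_fin, nsmul_eq_mul]
  ring

/-- the error of the step -/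
theorem last_le {bM Nb : ℝ} (hM : Psd M) (hb : ∀ i j, |M i j| ≤ bM)
    (hN : 0 ≤ Nb) (t t' : ℝ) (u : Pair n → ℝ) :
    Aw S t t' (fun v => dq S t t' M u v * (fr (S.A t' v) + fr (S.A t u))) u ≤
      2 * Nb * Inc S t t' M u + 4 * (n : ℝ) ^ 5 * bM * (Aw S t t' (bd S Nb t') u +
        bd S Nb t u) := by
  have e1 : EG fun v => dq S t t' M u v * (fr (S.A t' v) + fr (S.A t u)) :=
    (eg_dq t t' M u).mul ((eg_frA t').add (EG.const _))
  have e2 := (eg_dq (S := S) t t' M u).const_mul (2 * Nb)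
  have e3 := ((eg_bd S Nb t').add (EG.const (bd S Nb t u))).const_mul (4 * (n : ℝ) ^ 5 * bM)
  have h1 : ∀ v, dq S t t' M u v * (fr (S.A t' v) + fr (S.A t u)) ≤
      2 * Nb * dq S t t' M u v + 4 * (n : ℝ) ^ 5 * bM * (bd S Nb t' v + bd S Nb t u) := by
    intro v
    have a1 := frA_le_bd (S := S) hN t' v
    have a2 := frA_le_bd (S := S) hN t u
    have a3 := dq_nonneg (S := S) (t := t) (t' := t') hM u v
    have a4 := dq_le (S := S) hb t t' u v
    have a5 : 0 ≤ (n : ℝ) ^ 2 * (bd S Nb t' v + bd S Nb t u) :=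
      mul_nonneg (by positivity) (add_nonneg (bd_nonneg _ _ _) (bd_nonneg _ _ _))
    calc dq S t t' M u v * (fr (S.A t' v) + fr (S.A t u)) ≤ dq S t t' M u v *
          (2 * Nb + (n : ℝ) ^ 2 * (bd S Nb t' v + bd S Nb t u)) :=
          mul_le_mul_of_nonneg_left (by linarith) a3
      _ = 2 * Nb * dq S t t' M u v + dq S t t' M u v *
          ((n : ℝ) ^ 2 * (bd S Nb t' v + bd S Nb t u)) := by ring
      _ ≤ 2 * Nb * dq S t t' M u v + (4 * (n : ℝ) ^ 3 * bM) *
          ((n : ℝ) ^ 2 * (bd S Nb t' v + bd S Nb t u)) :=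
          add_le_add le_rfl (mul_le_mul_of_nonneg_right a4 a5)
      _ = _ := by ring
  have hc := c11_uu S.c11 S.x0 t'
  have h2 : Aw S t t' (fun v => dq S t t' M u v * (fr (S.A t' v) + fr (S.A t u))) u ≤
      Aw S t t' (fun v => 2 * Nb * dq S t t' M u v +
        4 * (n : ℝ) ^ 5 * bM * (bd S Nb t' v + bd S Nb t u)) u :=
    H785.Ax_mono hc.lip hc.B0 e1 (e2.add e3) h1 _ _ u
  rw [Aw_add S t t' e2 e3, Aw_const_mul, Aw_const_mul, Aw_add S t t' (eg_bd S Nb t')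
    (EG.const _), Aw_const] at h2
  exact h2

/-- **One short step at a position, with the bad set.** -/
theorem pos2_le {bM Nb : ℝ} (hM : Psd M) (hb : ∀ i j, |M i j| ≤ bM)
    (hN : 0 ≤ Nb) (h2 : t < t') (h3 : t' ≤ 1) (hk : Sh S (t' - t)) (u : Pair n → ℝ) :
    (t' - t) * EnT S t M u ≤ 4 * (Aw S t t' (QN S t' M) u - QN S t M u) +
      (32 * Nb * Inc S t t' M u + 64 * (n : ℝ) ^ 5 * bM * (Aw S t t' (bd S Nb t') u +
        bd S Nb t u)) := by
  have h4 := pos_le hM h2 h3 hk u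
  have h5 := last_le (S := S) hM hb hN t t' u
  linarith

/-! ### the layered law -/

/-- `E <Y, C_t²> ∑_e |D_e C_t|²` -/
noncomputable def EnTW (S : CS n k x) (w : ℝ) (m σ : ℕ → ℝ) (N : ℕ) (c : ℝ)
    (Y : (Pair n → ℝ) → Matrix (Fin n) (Fin n) ℝ) (t : ℝ) : ℝ :=
  ∫ g, E1 S w m σ N t (EnT S t (Y (c • g))) (c • g) ∂(gI (Pair n))

/-- `E <Y, C_t²> |C_t|²` -/
noncomputable def QNW (S : CS n k x) (w : ℝ) (m σ : ℕ → ℝ) (N : ℕ) (c : ℝ)
    (Y : (Pair n → ℝ) → Matrix (Fin n) (Fin n) ℝ) (t : ℝ) : ℝ :=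
  ∫ g, E1 S w m σ N t (QN S t (Y (c • g))) (c • g) ∂(gI (Pair n))

/-- the probability of `|C_t|² > Nb` -/
noncomputable def pB (S : CS n k x) (w : ℝ) (m σ : ℕ → ℝ) (N : ℕ) (c Nb t : ℝ) : ℝ :=
  ∫ g, E1 S w m σ N t (bd S Nb t) (c • g) ∂(gI (Pair n))

variable {Y Y' : (Pair n → ℝ) → Matrix (Fin n) (Fin n) ℝ}

lemma E1_form (hm : Pm m N) {φ : (Pair n → ℝ) → ℝ} (hφ : EG φ)
    (M : Matrix (Fin n) (Fin n) ℝ) (z : Pair n → ℝ) :
    E1 S w m σ N t (fun u => qF S t M u * φ u) z =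
      ∑ i, ∑ j, M i j * E1 S w m σ N t (fun u => A2 S t i j u * φ u) z := by
  have h : (fun u => qF S t M u * φ u) = fun u => ∑ i, ∑ j, M i j * (A2 S t i j u * φ u) := by
    funext u
    unfold qF
    rw [Finset.sum_mul]
    refine Finset.sum_congr rfl fun i _ => ?_
    rw [Finset.sum_mul]
    exact Finset.sum_congr rfl fun j _ => by ring
  rw [h]
  exact E1_sum2 hm M (fun i j => (eg_A2 S t i j).mul hφ) z

lemma eg_form (hm : Pm m N) (hY : ∀ i j, EG fun z => Y z i j) {φ : (Pair n → ℝ) → ℝ}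
    (hφ : EG φ) (c : ℝ) :
    EG fun g : Pair n → ℝ => E1 S w m σ N t (fun u => qF S t (Y (c • g)) u * φ u) (c • g) := by
  refine eg_sc (G := fun z => E1 S w m σ N t (fun u => qF S t (Y z) u * φ u) z) ?_ c
  have h : (fun z => E1 S w m σ N t (fun u => qF S t (Y z) u * φ u) z) = fun z =>
      ∑ i, ∑ j, Y z i j * E1 S w m σ N t (fun u => A2 S t i j u * φ u) z :=
    funext fun z => E1_form hm hφ _ z
  rw [h]
  exact EG.sum _ fun i _ => EG.sum _ fun j _ => (hY i j).mul (eg_E1 hm ((eg_A2 S t i j).mul hφ))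

lemma eg_EnTW (hm : Pm m N) (hY : ∀ i j, EG fun z => Y z i j) (c : ℝ) :
    EG fun g : Pair n → ℝ => E1 S w m σ N t (EnT S t (Y (c • g))) (c • g) :=
  eg_form hm hY (eg_sDA t) c

lemma eg_QNW (hm : Pm m N) (hY : ∀ i j, EG fun z => Y z i j) (c : ℝ) :
    EG fun g : Pair n → ℝ => E1 S w m σ N t (QN S t (Y (c • g))) (c • g) :=
  eg_form hm hY (eg_frA t) c

lemma eg_pB (hm : Pm m N) (c Nb : ℝ) :
    EG fun g : Pair n → ℝ => E1 S w m σ N t (bd S Nb t) (c • g) :=
  eg_sc (G := E1 S w m σ N t (bd S Nb t)) (eg_E1 hm (eg_bd S Nb t)) c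

lemma pB_nonneg (c Nb : ℝ) : 0 ≤ pB S w m σ N c Nb t :=
  integral_nonneg fun g => E1_nonneg (fun u => bd_nonneg Nb t u) (c • g)

lemma EnTW_nonneg (c : ℝ) (hp : ∀ z, Psd (Y z)) : 0 ≤ EnTW S w m σ N c Y t :=
  integral_nonneg fun g => E1_nonneg (fun u => mul_nonneg (qF_nonneg (hp (c • g)) u)
    (Finset.sum_nonneg fun _ _ => Finset.sum_nonneg fun _ _ => Finset.sum_nonneg fun _ _ =>
      sq_nonneg _)) (c • g)

lemma QNW_nonneg (c : ℝ) (hp : ∀ z, Psd (Y z)) : 0 ≤ QNW S w m σ N c Y t :=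
  integral_nonneg fun g => E1_nonneg (fun u => mul_nonneg (qF_nonneg (hp (c • g)) u)
    (frA_nonneg t u)) (c • g)

/-- **One short step, integrated.** The weight may increase with the time. -/
theorem step_W {bY Nb : ℝ} (hm : Pm m N) (c : ℝ) (hY : ∀ i j, EG fun z => Y z i j)
    (hY' : ∀ i j, EG fun z => Y' z i j) (hp : ∀ z, Psd (Y z)) (hpp : ∀ z, Psd (Y' z - Y z))
    (hb : ∀ z i j, |Y z i j| ≤ bY) (hN : 0 ≤ Nb) (h1 : w ≤ t) (h2 : t < t')
    (h3 : t' ≤ 1) (hk : Sh S (t' - t)) :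
    (t' - t) * EnTW S w m σ N c Y t ≤ 4 * (QNW S w m σ N c Y' t' - QNW S w m σ N c Y t) +
      (32 * Nb * IncW S w m σ N c Y t t' + 64 * (n : ℝ) ^ 5 * bY *
        (pB S w m σ N c Nb t' + pB S w m σ N c Nb t)) := by
  have i1 := eg_EnTW (S := S) (w := w) (t := t) (σ := σ) hm hY c
  have i2 := eg_QNW (S := S) (w := w) (t := t') (σ := σ) hm hY' c
  have i3 := eg_QNW (S := S) (w := w) (t := t) (σ := σ) hm hY c
  have i4 := eg_IncW (S := S) (σ := σ) hm c hY h1 h2.le h3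
  have i5 := eg_pB (S := S) (w := w) (t := t') (σ := σ) hm c Nb
  have i6 := eg_pB (S := S) (w := w) (t := t) (σ := σ) hm c Nb
  have key : ∀ z, (t' - t) * E1 S w m σ N t (EnT S t (Y z)) z ≤
      4 * (E1 S w m σ N t' (QN S t' (Y' z)) z - E1 S w m σ N t (QN S t (Y z)) z) +
      (32 * Nb * E1 S w m σ N t (Inc S t t' (Y z)) z + 64 * (n : ℝ) ^ 5 * bY *
        (E1 S w m σ N t' (bd S Nb t') z + E1 S w m σ N t (bd S Nb t) z)) := by
    intro z
    have eq' := eg_Aw S t t' (eg_QN (S := S) t' (Y z))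
    have eb' := eg_Aw S t t' (eg_bd S Nb t')
    have ei := eg_Inc (S := S) h2.le h3 (Y z)
    have a1 := E1_mono (S := S) (w := w) (t := t) (σ := σ) hm
      ((eg_EnT (S := S) t (Y z)).const_mul (t' - t))
      (((eq'.sub (eg_QN t (Y z))).const_mul 4).add ((ei.const_mul (32 * Nb)).add
        ((eb'.add (eg_bd S Nb t)).const_mul (64 * (n : ℝ) ^ 5 * bY))))
      (fun u => pos2_le (hp z) (hb z) hN h2 h3 hk u) z
    rw [E1_const_mul, E1_add hm ((eq'.sub (eg_QN t (Y z))).const_mul 4) ((ei.const_mul (32 * Nb)).add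
        ((eb'.add (eg_bd S Nb t)).const_mul (64 * (n : ℝ) ^ 5 * bY))), E1_const_mul,
      E1_sub hm eq' (eg_QN t (Y z)), E1_add hm (ei.const_mul _)
        ((eb'.add (eg_bd S Nb t)).const_mul _), E1_const_mul, E1_const_mul,
      E1_add hm eb' (eg_bd S Nb t)] at a1
    have b1 : E1 S w m σ N t (fun u => Aw S t t' (QN S t' (Y z)) u) z =
        E1 S w m σ N t' (QN S t' (Y z)) z := (E1_tower h1 h2.le h3 (eg_QN t' (Y z)) z).symm
    have b2 : E1 S w m σ N t (fun u => Aw S t t' (bd S Nb t') u) z =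
        E1 S w m σ N t' (bd S Nb t') z := (E1_tower h1 h2.le h3 (eg_bd S Nb t') z).symm
    rw [b1, b2] at a1
    have a2 : E1 S w m σ N t' (QN S t' (Y z)) z ≤ E1 S w m σ N t' (QN S t' (Y' z)) z := by
      refine E1_mono hm (eg_QN t' _) (eg_QN t' _) (fun u => ?_) z
      have c1 := qF_nonneg (S := S) (t := t') (hpp z) u
      have c2 : qF S t' (Y' z - Y z) u = qF S t' (Y' z) u - qF S t' (Y z) u := by
        unfold qF
        rw [← Finset.sum_sub_distrib]
        refine Finset.sum_congr rfl fun i _ => ?_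
        rw [← Finset.sum_sub_distrib]
        exact Finset.sum_congr rfl fun j _ => by
          rw [Matrix.sub_apply]
          ring
      rw [c2] at c1
      exact mul_le_mul_of_nonneg_right (by linarith) (frA_nonneg t' u)
    linarith
  have j1 := (i2.sub i3).const_mul 4
  have j2 := i4.const_mul (32 * Nb)
  have j3 := (i5.add i6).const_mul (64 * (n : ℝ) ^ 5 * bY)
  have e1 := integral_mono (i1.const_mul (t' - t)).integrable (j1.add (j2.add j3)).integrable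
    fun g => key (c • g)
  rw [integral_add j1.integrable (j2.add j3).integrable, integral_add j2.integrable j3.integrable,
    integral_const_mul, integral_const_mul, integral_const_mul, integral_const_mul,
    integral_sub i2.integrable i3.integrable, integral_add i5.integrable i6.integrable] at e1
  exact e1

end Vale.Agent.P146.H946.En2
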