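import Vale.Agent.P146.H946.EnO
import Vale.Agent.P146.H645.SkCS

/-!
The replica matrices `G_b(t) = E_t[m_b m_b']`, `m_b = (<s_i s_b>)_i`, of the SK model as
martingales: `H_b = C - (1 - x) G_b - x C_b C_b'`, `0 ≤ G_b ≤ C`, the size of
`∑_b <Y, G_b²>`, the gradient of `H_b` and its energy.
-/

open MeasureTheory ProbabilityTheory

namespace Vale.Agent.P146.H946.En2

open Vale.Agent.P157.Lv Vale.Agent.P146.H425 Vale.Agent.P146.H325 Vale.Agent.P146.H332
  Vale.Agent.P146.H712 Vale.Agent.P146.H816 Vale.Agent.P146.R1 Vale.Agent.P146.R1C Matrix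
  Vale.Agent.P146.R1S Vale.Agent.P146.H693 Vale.Agent.P146.H655
open Vale.Agent.P146.H785 (Ax)

set_option linter.unusedSectionVars false

/-! ### algebra of psd matrices -/

section alg

variable {n : ℕ}

lemma psd_cs {G : Matrix (Fin n) (Fin n) ℝ} (hG : Psd G) (u v : Fin n → ℝ) :
    (∑ i, ∑ j, u i * v j * G i j) ^ 2 ≤
      (∑ i, ∑ j, u i * u j * G i j) * ∑ i, ∑ j, v i * v j * G i j := by
  obtain ⟨V, lam, hl, hV⟩ := H499.psd_decomp hG
  have e : ∀ u v : Fin n → ℝ, ∑ i, ∑ j, u i * v j * G i j =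
      ∑ a, (√(lam a) * ∑ i, V i a * u i) * (√(lam a) * ∑ i, V i a * v i) := by
    intro u v
    have e1 : ∀ a, (√(lam a) * ∑ i, V i a * u i) * (√(lam a) * ∑ i, V i a * v i) =
        ∑ i, ∑ j, u i * v j * (lam a * V i a * V j a) := by
      intro a
      calc _ = (√(lam a) * √(lam a)) * ((∑ i, V i a * u i) * ∑ i, V i a * v i) := by ring
        _ = lam a * ((∑ i, V i a * u i) * ∑ i, V i a * v i) := by
            rw [Real.mul_self_sqrt (hl a)]
        _ = _ := by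
            rw [Finset.sum_mul_sum, Finset.mul_sum]
            refine Finset.sum_congr rfl fun i _ => ?_
            rw [Finset.mul_sum]
            exact Finset.sum_congr rfl fun j _ => by ring
    rw [Finset.sum_congr rfl fun a _ => e1 a]
    simp only [hV, Finset.mul_sum]
    conv_rhs => rw [Finset.sum_comm]
    refine Finset.sum_congr rfl fun i _ => ?_
    conv_rhs => rw [Finset.sum_comm]
  rw [e u v, e u u, e v v]
  have h := Finset.sum_mul_sq_le_sq_mul_sq Finset.univ (fun a => √(lam a) * ∑ i, V i a * u i)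
    fun a => √(lam a) * ∑ i, V i a * v i
  refine h.trans (le_of_eq ?_)
  congr 1 <;> exact Finset.sum_congr rfl fun a _ => by ring

lemma form_le_fr (G : Matrix (Fin n) (Fin n) ℝ) (u : Fin n → ℝ) :
    ∑ i, ∑ j, u i * u j * G i j ≤ (∑ i, u i ^ 2) * √(fr G) := by
  have h1 : (∑ p : Fin n × Fin n, (u p.1 * u p.2) * G p.1 p.2) ^ 2 ≤
      (∑ p : Fin n × Fin n, (u p.1 * u p.2) ^ 2) * ∑ p : Fin n × Fin n, G p.1 p.2 ^ 2 :=
    Finset.sum_mul_sq_le_sq_mul_sq _ _ _
  have e1 : ∑ p : Fin n × Fin n, (u p.1 * u p.2) ^ 2 = (∑ i, u i ^ 2) ^ 2 := by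
    rw [Fintype.sum_prod_type, _root_.sq, Finset.sum_mul_sum]
    exact Finset.sum_congr rfl fun i _ => Finset.sum_congr rfl fun j _ => by ring
  have e2 : ∑ p : Fin n × Fin n, G p.1 p.2 ^ 2 = fr G := (fr_pr G).symm
  rw [e1, e2, Fintype.sum_prod_type] at h1
  have p1 : 0 ≤ ∑ i, u i ^ 2 := Finset.sum_nonneg fun _ _ => sq_nonneg _
  have h2 : (∑ i, u i ^ 2) ^ 2 * fr G = ((∑ i, u i ^ 2) * √(fr G)) ^ 2 := by
    rw [mul_pow, Real.sq_sqrt (H332.fr_nonneg G)]
  rw [h2] at h1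
  exact (abs_le_of_sq_le_sq' h1 (mul_nonneg p1 (Real.sqrt_nonneg _))).2

/-- `|G v|² ≤ |G|_F v'Gv` -/
lemma psd_sq_le {G : Matrix (Fin n) (Fin n) ℝ} (hG : Psd G) (v : Fin n → ℝ) :
    ∑ i, (∑ j, G i j * v j) ^ 2 ≤ √(fr G) * ∑ i, ∑ j, v i * v j * G i j := by
  set u : Fin n → ℝ := fun i => ∑ j, G i j * v j with hu
  set a := ∑ i, u i ^ 2 with ha
  have ha0 : 0 ≤ a := Finset.sum_nonneg fun _ _ => sq_nonneg _
  have h1 := psd_cs hG u v
  have e1 : ∑ i, ∑ j, u i * v j * G i j = a := by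
    rw [ha]
    refine Finset.sum_congr rfl fun i _ => ?_
    rw [_root_.sq]
    nth_rewrite 3 [hu]
    simp only
    rw [Finset.mul_sum]
    exact Finset.sum_congr rfl fun j _ => by ring
  rw [e1] at h1
  have h2 := form_le_fr G u
  rw [← ha] at h2
  have h3 : 0 ≤ ∑ i, ∑ j, v i * v j * G i j := hG.2 v
  have h4 : a ^ 2 ≤ (a * √(fr G)) * ∑ i, ∑ j, v i * v j * G i j :=
    h1.trans (mul_le_mul_of_nonneg_right h2 h3)
  rcases ha0.eq_or_lt with h | h
  · rw [← h]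
    exact mul_nonneg (Real.sqrt_nonneg _) h3
  · have h5 : a * a ≤ a * (√(fr G) * ∑ i, ∑ j, v i * v j * G i j) := by
      calc a * a = a ^ 2 := by ring
        _ ≤ _ := h4
        _ = _ := by ring
    exact le_of_mul_le_mul_left h5 h

/-- `<Y, G²> ≤ |C|_F <Y, C>` for `0 ≤ G ≤ C` -/
theorem sq_form_le {Y G C : Matrix (Fin n) (Fin n) ℝ} (hY : Psd Y) (hG : Psd G)
    (hGC : Psd (C - G)) :
    ∑ i, ∑ j, Y i j * ∑ l, G i l * G j l ≤ √(fr C) * ∑ i, ∑ j, Y i j * C i j := by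
  obtain ⟨V, lam, hl, hV⟩ := H499.psd_decomp hY
  have hGT : ∀ i j, G i j = G j i := fun i j => by
    have := congrFun (congrFun hG.1 j) i
    rwa [transpose_apply] at this
  have hfr : fr G ≤ fr C := by
    have := hG.fr_le_add hGC
    rwa [add_sub_cancel] at this
  have e1 : ∑ i, ∑ j, Y i j * ∑ l, G i l * G j l =
      ∑ a, lam a * ∑ l, (∑ i, G l i * V i a) ^ 2 := by
    rw [form_fam (J := Fin n) hV fun l i => G i l]
    refine Finset.sum_congr rfl fun a _ => ?_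
    rw [Finset.mul_sum]
    refine Finset.sum_congr rfl fun l _ => ?_
    congr 2
    exact Finset.sum_congr rfl fun i _ => by rw [hGT i l]; ring
  have e2 : ∑ i, ∑ j, Y i j * C i j = ∑ a, lam a * ∑ i, ∑ j, V i a * V j a * C i j := by
    simp only [hV, Finset.sum_mul, Finset.mul_sum]
    rw [Finset.sum_comm' (t' := Finset.univ) (s' := fun _ => Finset.univ) (by simp)]
    conv_rhs => rw [Finset.sum_comm]
    conv_rhs => enter [2, i]; rw [Finset.sum_comm]
    rw [Finset.sum_comm]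
    exact Finset.sum_congr rfl fun i _ => Finset.sum_congr rfl fun j _ =>
      Finset.sum_congr rfl fun a _ => by ring
  rw [e1, e2, Finset.mul_sum]
  refine Finset.sum_le_sum fun a _ => ?_
  have h1 := psd_sq_le hG fun i => V i a
  have h2 : ∑ i, ∑ j, V i a * V j a * G i j ≤ ∑ i, ∑ j, V i a * V j a * C i j := by
    have h3 := hGC.2 fun i => V i a
    have e3 : ∑ i, ∑ j, V i a * V j a * (C - G) i j = ∑ i, ∑ j, V i a * V j a * C i j -
        ∑ i, ∑ j, V i a * V j a * G i j := by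
      rw [← Finset.sum_sub_distrib]
      refine Finset.sum_congr rfl fun i _ => ?_
      rw [← Finset.sum_sub_distrib]
      exact Finset.sum_congr rfl fun j _ => by
        rw [Matrix.sub_apply]
        ring
    rw [e3] at h3
    linarith
  have h4 : ∑ i, (∑ j, G i j * V j a) ^ 2 ≤ √(fr C) * ∑ i, ∑ j, V i a * V j a * C i j := by
    refine h1.trans ?_
    exact mul_le_mul (Real.sqrt_le_sqrt hfr) h2 (hG.2 _) (Real.sqrt_nonneg _)
  calc lam a * ∑ l, (∑ i, G l i * V i a) ^ 2 ≤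
        lam a * (√(fr C) * ∑ i, ∑ j, V i a * V j a * C i j) :=
        mul_le_mul_of_nonneg_left h4 (hl a)
    _ = _ := by ring

end alg

/-! ### systems with replica matrices -/

variable {n : ℕ} {k x : ℝ} {S : CS n k x} {w t t' : ℝ} {m σ : ℕ → ℝ} {N : ℕ}
  {M : Matrix (Fin n) (Fin n) ℝ} {Φ : Fin n × Fin n → Fin n → (Pair n → ℝ) → ℝ}
  {Φ' : Fin n × Fin n → Fin n → Pair n → (Pair n → ℝ) → ℝ}

/-- `G_b(t)` -/
noncomputable def Gb (S : CS n k x) (Φ : Fin n × Fin n → Fin n → (Pair n → ℝ) → ℝ) (t : ℝ)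
    (b : Fin n) (u : Pair n → ℝ) : Matrix (Fin n) (Fin n) ℝ := fun i l => Mt S t (Φ (l, b) i) u

/-- A position system whose row gradients come from replica matrices. -/
structure HS (S : CS n k x) (Φ : Fin n × Fin n → Fin n → (Pair n → ℝ) → ℝ)
    (Φ' : Fin n × Fin n → Fin n → Pair n → (Pair n → ℝ) → ℝ) : Prop where
  fam : Fam Φ Φ'
  H_eq : ∀ (s : ℝ) (b : Fin n) (z : Pair n → ℝ) (i j : Fin n), S.H s b z i j =
    S.A s z i j - (1 - x) * Gb S Φ s b z i j - x * (S.A s z i b * S.A s z j b)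
  G_psd : ∀ (s : ℝ) (b : Fin n) (z : Pair n → ℝ), Psd (Gb S Φ s b z)
  G_le : ∀ (s : ℝ) (b : Fin n) (z : Pair n → ℝ), Psd (S.A s z - Gb S Φ s b z)

/-- `∑_b <Y, G_b²> ≤ n |C|_F <Y, C>` -/
theorem HS.qM_le (h : HS S Φ Φ') (hM : Psd M) (t : ℝ) (u : Pair n → ℝ) :
    qM S Φ t M u ≤ n * (√(fr (S.A t u)) * ∑ i, ∑ j, M i j * S.A t u i j) := by
  have e1 : qM S Φ t M u = ∑ b, ∑ i, ∑ j, M i j * ∑ l, Gb S Φ t b u i l * Gb S Φ t b u j l := by
    unfold qM Gb
    simp only [Fintype.sum_prod_type, Finset.mul_sum]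
    have e : ∀ i j, ∑ l, ∑ b, M i j * (Mt S t (Φ (l, b) i) u * Mt S t (Φ (l, b) j) u) =
        ∑ b, ∑ l, M i j * (Mt S t (Φ (l, b) i) u * Mt S t (Φ (l, b) j) u) := fun i j =>
      Finset.sum_comm
    simp only [e]
    rw [Finset.sum_comm' (t' := Finset.univ) (s' := fun _ => Finset.univ) (by simp)]
    conv_rhs => rw [Finset.sum_comm]
    conv_rhs => enter [2, i]; rw [Finset.sum_comm]
    rw [Finset.sum_comm]
  rw [e1]
  have h1 : ∀ b ∈ (Finset.univ : Finset (Fin n)),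
      ∑ i, ∑ j, M i j * ∑ l, Gb S Φ t b u i l * Gb S Φ t b u j l ≤
      √(fr (S.A t u)) * ∑ i, ∑ j, M i j * S.A t u i j := fun b _ =>
    sq_form_le hM (h.G_psd t b u) (h.G_le t b u)
  refine (Finset.sum_le_sum h1).trans (le_of_eq ?_)
  rw [Finset.sum_const, Finset.card_univ, Fintype.card_fin, nsmul_eq_mul]

/-- `∑_b |G_b|² ≤ n |C|²` -/
theorem HS.nM_le (h : HS S Φ Φ') (t : ℝ) (u : Pair n → ℝ) :
    nM S Φ t u ≤ n * fr (S.A t u) := by
  have e1 : nM S Φ t u = ∑ b, fr (Gb S Φ t b u) := by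
    unfold nM Gb fr
    rw [Fintype.sum_prod_type, Finset.sum_comm]
    exact Finset.sum_congr rfl fun b _ => Finset.sum_comm
  rw [e1]
  have h1 : ∀ b ∈ (Finset.univ : Finset (Fin n)), fr (Gb S Φ t b u) ≤ fr (S.A t u) := by
    intro b _
    have := (h.G_psd t b u).fr_le_add (h.G_le t b u)
    rwa [add_sub_cancel] at this
  refine (Finset.sum_le_sum h1).trans (le_of_eq ?_)
  rw [Finset.sum_const, Finset.card_univ, Fintype.card_fin, nsmul_eq_mul]

end Vale.Agent.P146.H946.En2
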