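import Vale.Agent.P146.H946.EnG

/-!
The SK model has replica matrices: `HS (skCS ..) gΦ gΦ'`.
-/

open MeasureTheory ProbabilityTheory

namespace Vale.Agent.P146.H946.En2

open Vale.Agent.P157.Lv Vale.Agent.P146.H425 Vale.Agent.P146.H325 Vale.Agent.P146.H332
  Vale.Agent.P146.H712 Vale.Agent.P146.H816 Vale.Agent.P146.R1 Vale.Agent.P146.R1C Matrix
  Vale.Agent.P146.R1S Vale.Agent.P146.H693 Vale.Agent.P146.H655
open Vale.Agent.P146.H785 (Ax)

set_option linter.unusedSectionVars false

variable {n : ℕ} {k x : ℝ} (hk : 0 < k) (hx : 0 < x) (hx1 : x ≤ 1)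

/-- the derivative of a Gibbs average -/
noncomputable def dav (k : ℝ) (h : (Fin n → ℤˣ) → ℝ) (e : Pair n) (u : Pair n → ℝ) : ℝ :=
  k * (H325.av k SkS (fun σ => h σ * SkS e σ) u - H325.av k SkS h u * H325.av k SkS (SkS e) u)

/-- the functions of the replica matrices -/
noncomputable def gΦ (k : ℝ) (p : Fin n × Fin n) (i : Fin n) (u : Pair n → ℝ) : ℝ :=
  H325.av k SkS (pr i p.2) u * H325.av k SkS (pr p.1 p.2) u

/-- their derivatives -/
noncomputable def gΦ' (k : ℝ) (p : Fin n × Fin n) (i : Fin n) (e : Pair n) (u : Pair n → ℝ) :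
    ℝ :=
  dav k (pr i p.2) e u * H325.av k SkS (pr p.1 p.2) u + H325.av k SkS (pr i p.2) u * dav k (pr p.1 p.2) e u

lemma eg_dav (h : (Fin n → ℤˣ) → ℝ) (e : Pair n) : EG (dav k h e) := (c2_av k SkS h).eg1 e

lemma fd_av' (h : (Fin n → ℤˣ) → ℝ) (u : Pair n → ℝ) :
    HasFDerivAt (H325.av k SkS h) (H785.lf fun e => dav k h e u) u := fd_av k SkS h u

theorem fam_g (k : ℝ) : Fam (gΦ (n := n) k) (gΦ' k) where
  eg := fun p i => (eg_av k SkS _).mul (eg_av k SkS _)
  eg' := fun p i e => ((eg_dav _ e).mul (eg_av k SkS _)).add ((eg_av k SkS _).mul (eg_dav _ e))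
  fd := fun p i u => by
    have h := (fd_av' (k := k) (pr i p.2) u).mul (fd_av' (k := k) (pr p.1 p.2) u)
    refine h.congr_fderiv ?_
    ext w
    simp only [_root_.add_apply, _root_.smul_apply, H785.lf_apply, smul_eq_mul, Finset.mul_sum,
      ← Finset.sum_add_distrib]
    refine Finset.sum_congr rfl fun e _ => ?_
    unfold gΦ'
    ring

/-- conditional expectations are the martingales of the system -/
theorem Mt_RR (s : ℝ) (F : (Pair n → ℝ) → ℝ) (z : Pair n → ℝ) :
    Mt (skCS n hk hx hx1) s F z = RR k SkS x (cf s) F z := by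
  have e1 : uu x 1 (skCS n hk hx hx1).F = lz k SkS := by
    funext y
    unfold uu
    rw [sub_self, Real.sqrt_zero, W_zero hx]
    rfl
  unfold Mt Aw
  rw [e1]
  unfold Ax RR DD PP
  simp only [mul_one]
  rfl

lemma Mt_add' {S : CS n k x} (s : ℝ) {f g : (Pair n → ℝ) → ℝ} (hf : EG f) (hg : EG g)
    (z : Pair n → ℝ) : Mt S s (fun u => f u + g u) z = Mt S s f z + Mt S s g z :=
  Aw_add S s 1 hf hg z

lemma Mt_form {S : CS n k x} (s : ℝ) {f : Fin n → Fin n → (Pair n → ℝ) → ℝ}
    (hf : ∀ i j, EG (f i j)) (c : Fin n → ℝ) (z : Pair n → ℝ) :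
    ∑ i, ∑ j, c i * c j * Mt S s (f i j) z =
      Mt S s (fun u => ∑ i, ∑ j, c i * c j * f i j u) z :=
  (Aw_sum2 S s 1 (fun i j => c i * c j) hf z).symm

lemma A_Mt (s : ℝ) (z : Pair n → ℝ) (i j : Fin n) :
    (skCS n hk hx hx1).A s z i j = Mt (skCS n hk hx hx1) s (H325.av k SkS (pr i j)) z := by
  rw [Mt_RR]
  rfl

lemma av_form (c : Fin n → ℝ) (b : Fin n) (u : Pair n → ℝ) :
    ∑ i, c i * H325.av k SkS (pr i b) u = H325.av k SkS (fun σ => (∑ i, c i * H325.sp σ i) * H325.sp σ b) u := by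
  have e : (fun σ : Fin n → ℤˣ => (∑ i, c i * H325.sp σ i) * H325.sp σ b) =
      fun σ => ∑ i, c i * pr i b σ := by
    funext σ
    rw [Finset.sum_mul]
    exact Finset.sum_congr rfl fun i _ => by unfold pr; ring
  rw [e, av_sum]
  exact Finset.sum_congr rfl fun i _ => (av_mul k SkS _ _ _).symm

lemma av_form2 (c : Fin n → ℝ) (u : Pair n → ℝ) :
    ∑ i, ∑ j, c i * c j * H325.av k SkS (pr i j) u =
      H325.av k SkS (fun σ : Fin n → ℤˣ => (∑ i, c i * H325.sp σ i) ^ 2) u := by
  have e : (fun σ : Fin n → ℤˣ => (∑ i, c i * H325.sp σ i) ^ 2) =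
      fun σ => ∑ i, ∑ j, (c i * c j) * pr i j σ := by
    funext σ
    rw [_root_.sq, Finset.sum_mul_sum]
    exact Finset.sum_congr rfl fun i _ => Finset.sum_congr rfl fun j _ => by unfold pr; ring
  rw [e, av_sum]
  refine Finset.sum_congr rfl fun i _ => ?_
  rw [av_sum]
  exact Finset.sum_congr rfl fun j _ => (av_mul k SkS _ _ _).symm

/-- **The SK model has replica matrices.** -/
theorem hs_skCS : HS (skCS n hk hx hx1) (gΦ k) (gΦ' k) where
  fam := fam_g k
  H_eq := fun s b z i j => by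
    show HH k x s b z i j = _
    unfold HH Gb
    rw [Mt_RR]
    rfl
  G_psd := fun s b z => by
    refine ⟨?_, fun c => ?_⟩
    · ext i j
      rw [transpose_apply]
      unfold Gb
      congr 1
      funext u
      unfold gΦ
      ring
    · unfold Gb
      rw [Mt_form s (f := fun i l => gΦ k (l, b) i) (fun i l => (fam_g k).eg (l, b) i) c z]
      refine Aw_nonneg _ s 1 (fun u => ?_) z
      have e : ∑ i, ∑ j, c i * c j * gΦ k (j, b) i u = (∑ i, c i * H325.av k SkS (pr i b) u) ^ 2 := by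
        rw [_root_.sq, Finset.sum_mul_sum]
        exact Finset.sum_congr rfl fun i _ => Finset.sum_congr rfl fun j _ => by
          unfold gΦ; ring
      rw [e]
      exact sq_nonneg _
  G_le := fun s b z => by
    refine ⟨?_, fun c => ?_⟩
    · ext i j
      rw [transpose_apply, Matrix.sub_apply, Matrix.sub_apply, (skCS n hk hx hx1).A_comm]
      congr 1
      unfold Gb
      congr 1
      funext u
      unfold gΦ
      ring
    · have e1 : ∑ i, ∑ j, c i * c j * ((skCS n hk hx hx1).A s z - Gb (skCS n hk hx hx1)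
          (gΦ k) s b z) i j = ∑ i, ∑ j, c i * c j * Mt (skCS n hk hx hx1) s
            (fun u => H325.av k SkS (pr i j) u + (-1) * gΦ k (j, b) i u) z := by
        refine Finset.sum_congr rfl fun i _ => Finset.sum_congr rfl fun j _ => ?_
        rw [Matrix.sub_apply, A_Mt, Mt_add' s (eg_av k SkS _)
          (((fam_g k).eg (j, b) i).const_mul (-1))]
        have e2 : Mt (skCS n hk hx hx1) s (fun u => (-1) * gΦ k (j, b) i u) z =
            (-1) * Mt (skCS n hk hx hx1) s (gΦ k (j, b) i) z :=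
          Aw_const_mul (skCS n hk hx hx1) s 1 (-1) (gΦ k (j, b) i) z
        rw [e2]
        unfold Gb
        ring
      rw [e1, Mt_form s (f := fun i j u => H325.av k SkS (pr i j) u + (-1) * gΦ k (j, b) i u)
        (fun i j => (eg_av k SkS _).add (((fam_g k).eg (j, b) i).const_mul (-1))) c z]
      refine Aw_nonneg _ s 1 (fun u => ?_) z
      have e3 : ∑ i, ∑ j, c i * c j * (H325.av k SkS (pr i j) u + (-1) * gΦ k (j, b) i u) =
          ∑ i, ∑ j, c i * c j * H325.av k SkS (pr i j) u - (∑ i, c i * H325.av k SkS (pr i b) u) ^ 2 := by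
        rw [_root_.sq, Finset.sum_mul_sum, ← Finset.sum_sub_distrib]
        refine Finset.sum_congr rfl fun i _ => ?_
        rw [← Finset.sum_sub_distrib]
        exact Finset.sum_congr rfl fun j _ => by unfold gΦ; ring
      rw [e3, av_form, av_form2]
      have h1 := av_sq_le k SkS (fun σ : Fin n → ℤˣ => (∑ i, c i * H325.sp σ i) * H325.sp σ b) u
      have e4 : (fun σ : Fin n → ℤˣ => ((∑ i, c i * H325.sp σ i) * H325.sp σ b) ^ 2) =
          fun σ => (∑ i, c i * H325.sp σ i) ^ 2 := by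
        funext σ
        rw [mul_pow, H325.sp_sq, mul_one]
      rw [e4] at h1
      linarith

end Vale.Agent.P146.H946.En2
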