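import Vale.Agent.P146.H946.EnL

/-!
The SK model: bounds of the gradients of the row matrices `H_b`, and the data for the row
averages.
-/

open MeasureTheory ProbabilityTheory

namespace Vale.Agent.P146.H946.En2

open Vale.Agent.P157.Lv Vale.Agent.P146.H425 Vale.Agent.P146.H325 Vale.Agent.P146.H332
  Vale.Agent.P146.H712 Vale.Agent.P146.H816 Vale.Agent.P146.R1 Vale.Agent.P146.R1C Matrix
  Vale.Agent.P146.R1S Vale.Agent.P146.H693 Vale.Agent.P146.H655
open Vale.Agent.P146.H785 (Ax)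

set_option linter.unusedSectionVars false

section gen

variable {n : ℕ} {k x : ℝ} {S : CS n k x} {φ : (Pair n → ℝ) → ℝ}
  {φ' : Pair n → (Pair n → ℝ) → ℝ} {Φ : Fin n × Fin n → Fin n → (Pair n → ℝ) → ℝ}
  {Φ' : Fin n × Fin n → Fin n → Pair n → (Pair n → ℝ) → ℝ}

lemma abs_dd (S : CS n k x) (s : ℝ) (e : Pair n) (z : Pair n → ℝ) :
    |dd x s S.F S.D e z| ≤ k := by
  rw [S.dd_eq, abs_mul, abs_of_pos S.k0]
  have := mul_le_mul_of_nonneg_left (S.abs_A s z e.1.1 e.1.2) S.k0.le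
  linarith

lemma abs_DM {C C' : ℝ} (hC : 0 ≤ C) (hφ : EG φ) (hφ' : ∀ e, EG (φ' e))
    (h : ∀ u, |φ u| ≤ C) (h' : ∀ e u, |φ' e u| ≤ C') (t : ℝ) (e : Pair n) (u : Pair n → ℝ) :
    |DM S t φ φ' e u| ≤ C' + 2 * (C * k) := by
  have hc := c11_uu S.c11 S.x0 1
  have hD : ∀ e, EG (dd x 1 S.F S.D e) := hc.eg_D
  have a1 := H785.Ax_abs_le (x := x) (s := √(1 - t)) (y := u) hc.lip hc.B0 (hφ' e).meas
    (fun u => h' e u)
  have a2 := H785.Ax_abs_le (x := x) (s := √(1 - t)) (y := u) hc.lip hc.B0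
    (hφ.mul (hD e)).meas (C := C * k) (fun u => by
      rw [abs_mul]
      exact mul_le_mul (h u) (abs_dd S 1 e u) (abs_nonneg _) hC)
  have a3 := H785.Ax_abs_le (x := x) (s := √(1 - t)) (y := u) hc.lip hc.B0 hφ.meas h
  have a4 := H785.Ax_abs_le (x := x) (s := √(1 - t)) (y := u) hc.lip hc.B0 (hD e).meas
    (fun u => abs_dd S 1 e u)
  have hx0 := S.x0
  have hx1 := S.x1
  have hk := S.k0
  unfold DM GA
  set p1 := Ax x (√(1 - t)) (uu x 1 S.F) (φ' e) u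
  set p2 := Ax x (√(1 - t)) (uu x 1 S.F) (fun u => φ u * dd x 1 S.F S.D e u) u
  set p3 := Ax x (√(1 - t)) (uu x 1 S.F) φ u
  set p4 := Ax x (√(1 - t)) (uu x 1 S.F) (dd x 1 S.F S.D e) u
  have b1 : |p3 * p4| ≤ C * k := by
    rw [abs_mul]
    exact mul_le_mul a3 a4 (abs_nonneg _) hC
  have b2 : |x * (p2 - p3 * p4)| ≤ 2 * (C * k) := by
    rw [abs_mul, abs_of_pos hx0]
    have c1 : |p2 - p3 * p4| ≤ C * k + C * k := (abs_sub _ _).trans (add_le_add a2 b1)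
    calc x * |p2 - p3 * p4| ≤ 1 * (C * k + C * k) :=
          mul_le_mul hx1 c1 (abs_nonneg _) zero_le_one
      _ = _ := by ring
  exact (abs_add_le _ _).trans (add_le_add a1 b2)

lemma HS.pd_H (h : HS S Φ Φ') (s : ℝ) (b : Fin n) (e : Pair n) (i j : Fin n) :
    PD e (fun z => S.H s b z i j) fun z => DH S Φ Φ' s b e z i j :=
  H785.pd_of_fd (fun z => h.fd_H s b z i j) e

end gen

variable {n : ℕ} {k x : ℝ} (hk : 0 < k) (hx : 0 < x) (hx1 : x ≤ 1)

lemma abs_dav {h : (Fin n → ℤˣ) → ℝ} {C : ℝ} (hC : 0 ≤ C) (hk : 0 < k) (hh : ∀ σ, |h σ| ≤ C)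
    (e : Pair n) (u : Pair n → ℝ) : |dav k h e u| ≤ 2 * (C * k) := by
  have hS : ∀ σ, |SkS e σ| ≤ 1 := fun σ => (abs_pr e.1.1 e.1.2 σ).le
  have a1 : |H325.av k SkS (fun σ => h σ * SkS e σ) u| ≤ C := by
    refine H325.abs_av_le k SkS (fun σ => ?_) u
    rw [abs_mul]
    calc |h σ| * |SkS e σ| ≤ C * 1 := mul_le_mul (hh σ) (hS σ) (abs_nonneg _) hC
      _ = C := mul_one C
  have a2 : |H325.av k SkS h u| ≤ C := H325.abs_av_le k SkS hh u
  have a3 : |H325.av k SkS (SkS e) u| ≤ 1 := H325.abs_av_le k SkS hS u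
  have a4 : |H325.av k SkS h u * H325.av k SkS (SkS e) u| ≤ C := by
    rw [abs_mul]
    calc _ ≤ C * 1 := mul_le_mul a2 a3 (abs_nonneg _) hC
      _ = C := mul_one C
  unfold dav
  rw [abs_mul, abs_of_pos hk]
  calc _ ≤ k * (C + C) := mul_le_mul_of_nonneg_left ((abs_sub _ _).trans (add_le_add a1 a4)) hk.le
    _ = _ := by ring

lemma abs_gΦ (p : Fin n × Fin n) (i : Fin n) (u : Pair n → ℝ) : |gΦ k p i u| ≤ 1 := by
  unfold gΦ
  rw [abs_mul]
  calc _ ≤ (1 : ℝ) * 1 := mul_le_mul (abs_av_pr _ _ u) (abs_av_pr _ _ u) (abs_nonneg _)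
        zero_le_one
    _ = 1 := mul_one 1

lemma abs_gΦ' (hk : 0 < k) (p : Fin n × Fin n) (i : Fin n) (e : Pair n) (u : Pair n → ℝ) :
    |gΦ' k p i e u| ≤ 4 * k := by
  unfold gΦ'
  have d1 := abs_dav (n := n) zero_le_one hk (fun σ => (abs_pr i p.2 σ).le) e u
  have d2 := abs_dav (n := n) zero_le_one hk (fun σ => (abs_pr p.1 p.2 σ).le) e u
  have a1 : |dav k (pr i p.2) e u * H325.av k SkS (pr p.1 p.2) u| ≤ 2 * (1 * k) * 1 := by
    rw [abs_mul]
    exact mul_le_mul d1 (abs_av_pr _ _ u) (abs_nonneg _) (by positivity)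
  have a2 : |H325.av k SkS (pr i p.2) u * dav k (pr p.1 p.2) e u| ≤ 1 * (2 * (1 * k)) := by
    rw [abs_mul]
    exact mul_le_mul (abs_av_pr _ _ u) d2 (abs_nonneg _) zero_le_one
  refine (abs_add_le _ _).trans ?_
  linarith

/-- the gradient of the matrix -/
theorem DA_DM (s : ℝ) (e : Pair n) (z : Pair n → ℝ) (i j : Fin n) :
    (skCS n hk hx hx1).DA s e z i j =
      DM (skCS n hk hx hx1) s (H325.av k SkS (pr i j)) (dav k (pr i j)) e z := by
  have b1 := (skCS n hk hx hx1).fd_A s i j z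
  have e1 : (fun z => (skCS n hk hx hx1).A s z i j) =
      Mt (skCS n hk hx hx1) s (H325.av k SkS (pr i j)) :=
    funext fun z => A_Mt hk hx hx1 s z i j
  rw [e1] at b1
  exact lf_inj (b1.unique (fd_Mt s (eg_av k SkS _) (fun e => eg_dav _ e)
    (fun y => fd_av' _ y) z)) e

theorem abs_DA_sk (s : ℝ) (e : Pair n) (z : Pair n → ℝ) (i j : Fin n) :
    |(skCS n hk hx hx1).DA s e z i j| ≤ 4 * k := by
  rw [DA_DM]
  have h := abs_DM (S := skCS n hk hx hx1) (C := 1) (C' := 2 * (1 * k)) zero_le_one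
    (eg_av k SkS (pr i j)) (fun e => eg_dav _ e) (fun u => abs_av_pr i j u)
    (fun e u => abs_dav zero_le_one hk (fun σ => (abs_pr i j σ).le) e u) s e z
  linarith

/-- **The gradients of the row matrices are bounded.** -/
theorem abs_DH_sk (s : ℝ) (b : Fin n) (e : Pair n) (z : Pair n → ℝ) (i j : Fin n) :
    |DH (skCS n hk hx hx1) (gΦ k) (gΦ' k) s b e z i j| ≤ 18 * k := by
  have a1 := abs_DA_sk hk hx hx1 s e z
  have a2 := abs_DM (S := skCS n hk hx hx1) (C := 1) (C' := 4 * k) zero_le_one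
    ((fam_g k).eg (j, b) i) (fun e => (fam_g k).eg' (j, b) i e) (fun u => abs_gΦ (j, b) i u)
    (fun e u => abs_gΦ' hk (j, b) i e u) s e z
  have a3 := (skCS n hk hx hx1).abs_A s z
  unfold DH
  set S := skCS n hk hx hx1
  have b1 : |(1 - x) * DM S s (gΦ k (j, b) i) (gΦ' k (j, b) i) e z| ≤ 6 * k := by
    rw [abs_mul, abs_of_nonneg (by linarith : (0 : ℝ) ≤ 1 - x)]
    calc _ ≤ 1 * (4 * k + 2 * (1 * k)) :=
          mul_le_mul (by linarith) a2 (abs_nonneg _) zero_le_one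
      _ = _ := by ring
  have b2 : |x * (S.DA s e z i b * S.A s z j b + S.A s z i b * S.DA s e z j b)| ≤ 8 * k := by
    rw [abs_mul, abs_of_pos hx]
    have c1 : |S.DA s e z i b * S.A s z j b| ≤ 4 * k * 1 := by
      rw [abs_mul]
      exact mul_le_mul (a1 i b) (a3 j b) (abs_nonneg _) (by positivity)
    have c2 : |S.A s z i b * S.DA s e z j b| ≤ 1 * (4 * k) := by
      rw [abs_mul]
      exact mul_le_mul (a3 i b) (a1 j b) (abs_nonneg _) zero_le_one
    calc _ ≤ 1 * (4 * k * 1 + 1 * (4 * k)) :=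
          mul_le_mul hx1 ((abs_add_le _ _).trans (add_le_add c1 c2)) (abs_nonneg _) zero_le_one
      _ = _ := by ring
  have b3 := (abs_sub (S.DA s e z i j - (1 - x) * DM S s (gΦ k (j, b) i) (gΦ' k (j, b) i) e z)
    (x * (S.DA s e z i b * S.A s z j b + S.A s z i b * S.DA s e z j b))).trans
    (add_le_add ((abs_sub _ _).trans (add_le_add (a1 i j) b1)) b2)
  linarith

/-- **`∑_e |D_e H_b|² ≤ 324 k² n⁴`** -/
theorem sum_DH_sk (s : ℝ) (b : Fin n) (z : Pair n → ℝ) :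
    ∑ e : Pair n, fr (DH (skCS n hk hx hx1) (gΦ k) (gΦ' k) s b e z) ≤
      324 * k ^ 2 * (n : ℝ) ^ 4 := by
  have h1 : ∀ e ∈ (Finset.univ : Finset (Pair n)),
      fr (DH (skCS n hk hx hx1) (gΦ k) (gΦ' k) s b e z) ≤ 324 * k ^ 2 * (n : ℝ) ^ 2 := by
    intro e _
    unfold fr
    have h2 : ∑ i, ∑ j, DH (skCS n hk hx hx1) (gΦ k) (gΦ' k) s b e z i j ^ 2 ≤
        ∑ _i : Fin n, ∑ _j : Fin n, (18 * k) ^ 2 := by
      refine Finset.sum_le_sum fun i _ => Finset.sum_le_sum fun j _ => ?_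
      have h3 := abs_DH_sk hk hx hx1 s b e z i j
      rw [← sq_abs]
      exact pow_le_pow_left₀ (abs_nonneg _) h3 2
    refine h2.trans (le_of_eq ?_)
    simp only [Finset.sum_const, Finset.card_univ, Fintype.card_fin, nsmul_eq_mul]
    ring
  refine (Finset.sum_le_card_nsmul _ _ _ h1).trans ?_
  have h4 : (Fintype.card (Pair n) : ℝ) ≤ (n : ℝ) ^ 2 := by
    have h5 : Fintype.card (Pair n) ≤ Fintype.card (Fin n × Fin n) := Fintype.card_subtype_le _
    rw [Fintype.card_prod, Fintype.card_fin] at h5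
    calc (Fintype.card (Pair n) : ℝ) ≤ ((n * n : ℕ) : ℝ) := by exact_mod_cast h5
      _ = (n : ℝ) ^ 2 := by push_cast; ring
  rw [Finset.card_univ, nsmul_eq_mul]
  calc _ ≤ (n : ℝ) ^ 2 * (324 * k ^ 2 * (n : ℝ) ^ 2) :=
        mul_le_mul_of_nonneg_right h4 (by positivity)
    _ = _ := by ring

end Vale.Agent.P146.H946.En2
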