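import Vale.Agent.P146.H946.EnH

/-!
The energy of the row matrices `H_b = C - (1 - x) G_b - x C_b C_b'`: the gradient, the pointwise
bound by the energies of `C` and of the replica matrices, and the step inequality with a weight
which is a number at the deep position.
-/

open MeasureTheory ProbabilityTheory

namespace Vale.Agent.P146.H946.En2

open Vale.Agent.P157.Lv Vale.Agent.P146.H425 Vale.Agent.P146.H325 Vale.Agent.P146.H332
  Vale.Agent.P146.H712 Vale.Agent.P146.H816 Vale.Agent.P146.R1 Vale.Agent.P146.R1C Matrix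
  Vale.Agent.P146.R1S Vale.Agent.P146.H693 Vale.Agent.P146.H655
open Vale.Agent.P146.H785 (Ax)

set_option linter.unusedSectionVars false

variable {n : ℕ} {k x : ℝ} {S : CS n k x} {w t t' : ℝ} {m σ : ℕ → ℝ} {N : ℕ}
  {M : Matrix (Fin n) (Fin n) ℝ} {Φ : Fin n × Fin n → Fin n → (Pair n → ℝ) → ℝ}
  {Φ' : Fin n × Fin n → Fin n → Pair n → (Pair n → ℝ) → ℝ}

/-- the derivative of `H_b` in the direction `e` -/
noncomputable def DH (S : CS n k x) (Φ : Fin n × Fin n → Fin n → (Pair n → ℝ) → ℝ)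
    (Φ' : Fin n × Fin n → Fin n → Pair n → (Pair n → ℝ) → ℝ) (s : ℝ) (b : Fin n) (e : Pair n)
    (z : Pair n → ℝ) : Matrix (Fin n) (Fin n) ℝ := fun i j =>
  S.DA s e z i j - (1 - x) * DM S s (Φ (j, b) i) (Φ' (j, b) i) e z -
    x * (S.DA s e z i b * S.A s z j b + S.A s z i b * S.DA s e z j b)

theorem HS.fd_H (h : HS S Φ Φ') (s : ℝ) (b : Fin n) (z : Pair n → ℝ) (i j : Fin n) :
    HasFDerivAt (fun z => S.H s b z i j) (H785.lf fun e => DH S Φ Φ' s b e z i j) z := by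
  have e1 : (fun z => S.H s b z i j) = fun z => S.A s z i j - (1 - x) * Mt S s (Φ (j, b) i) z -
      x * (S.A s z i b * S.A s z j b) := funext fun z => h.H_eq s b z i j
  rw [e1]
  have h1 := S.fd_A s i j z
  have h2 := (fd_Mt (S := S) s (h.fam.eg (j, b) i) (h.fam.eg' (j, b) i)
    (h.fam.fd (j, b) i) z).const_mul (1 - x)
  have h3 := ((S.fd_A s i b z).mul (S.fd_A s j b z)).const_mul x
  have h4 := (h1.sub h2).sub h3
  refine h4.congr_fderiv ?_
  ext v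
  simp only [_root_.add_apply, _root_.sub_apply, _root_.smul_apply, H785.lf_apply, smul_eq_mul,
    Finset.mul_sum, ← Finset.sum_add_distrib, ← Finset.sum_sub_distrib]
  refine Finset.sum_congr rfl fun e _ => ?_
  unfold DH
  ring

theorem HS.eg_DH (h : HS S Φ Φ') (s : ℝ) (b : Fin n) (e : Pair n) (i j : Fin n) :
    EG fun z => DH S Φ Φ' s b e z i j :=
  ((S.eg_DA s e i j).sub ((eg_DM s (h.fam.eg (j, b) i) (h.fam.eg' (j, b) i) e).const_mul _)).sub
    ((((S.eg_DA s e i b).mul (S.eg_A s j b)).add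
      ((S.eg_A s i b).mul (S.eg_DA s e j b))).const_mul _)

/-- `∑_b ∑_e |D_e H_b|²` -/
noncomputable def sDH (S : CS n k x) (Φ : Fin n × Fin n → Fin n → (Pair n → ℝ) → ℝ)
    (Φ' : Fin n × Fin n → Fin n → Pair n → (Pair n → ℝ) → ℝ) (t : ℝ) (u : Pair n → ℝ) : ℝ :=
  ∑ b, ∑ e : Pair n, fr (DH S Φ Φ' t b e u)

lemma HS.eg_sDH (h : HS S Φ Φ') (t : ℝ) : EG (sDH S Φ Φ' t) :=
  EG.sum _ fun b _ => EG.sum _ fun e _ => EG.sum _ fun i _ => EG.sum _ fun j _ =>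
    (h.eg_DH t b e i j).pow 2

lemma sDH_nonneg (t : ℝ) (u : Pair n → ℝ) : 0 ≤ sDH S Φ Φ' t u :=
  Finset.sum_nonneg fun _ _ => Finset.sum_nonneg fun _ _ => H332.fr_nonneg _

lemma sq_add3 (a b c : ℝ) : (a - b - c) ^ 2 ≤ 3 * a ^ 2 + 3 * b ^ 2 + 3 * c ^ 2 := by
  nlinarith [sq_nonneg (a + b), sq_nonneg (a + c), sq_nonneg (b - c)]

/-- one row and one direction -/
lemma fr_DH_le (t : ℝ) (b : Fin n) (e : Pair n) (u : Pair n → ℝ) :
    fr (DH S Φ Φ' t b e u) ≤ 3 * fr (S.DA t e u) +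
      3 * (∑ l, ∑ i, DM S t (Φ (l, b) i) (Φ' (l, b) i) e u ^ 2) +
      12 * n * ∑ i, S.DA t e u i b ^ 2 := by
  have hx0 := S.x0
  have hx1 := S.x1
  have hA : ∑ j, S.A t u j b ^ 2 ≤ n := by
    have h : ∑ j, S.A t u j b ^ 2 ≤ ∑ _j : Fin n, (1 : ℝ) := Finset.sum_le_sum fun j _ => by
      have h1 := S.abs_A t u j b
      have := abs_le.1 h1
      nlinarith
    rwa [Finset.sum_const, Finset.card_univ, Fintype.card_fin, nsmul_eq_mul, mul_one] at h
  have a1 : ∀ i j, DH S Φ Φ' t b e u i j ^ 2 ≤ 3 * S.DA t e u i j ^ 2 +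
      3 * DM S t (Φ (j, b) i) (Φ' (j, b) i) e u ^ 2 +
      (6 * (S.DA t e u i b ^ 2 * S.A t u j b ^ 2) + 6 * (S.A t u i b ^ 2 * S.DA t e u j b ^ 2)) := by
    intro i j
    unfold DH
    refine (sq_add3 _ _ _).trans ?_
    have b1 : 3 * ((1 - x) * DM S t (Φ (j, b) i) (Φ' (j, b) i) e u) ^ 2 ≤
        3 * DM S t (Φ (j, b) i) (Φ' (j, b) i) e u ^ 2 := by
      rw [mul_pow]
      have : (1 - x) ^ 2 ≤ 1 := by nlinarith
      nlinarith [sq_nonneg (DM S t (Φ (j, b) i) (Φ' (j, b) i) e u)]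
    have b2 : 3 * (x * (S.DA t e u i b * S.A t u j b + S.A t u i b * S.DA t e u j b)) ^ 2 ≤
        6 * (S.DA t e u i b ^ 2 * S.A t u j b ^ 2) + 6 * (S.A t u i b ^ 2 * S.DA t e u j b ^ 2) := by
      rw [mul_pow]
      have c1 : x ^ 2 ≤ 1 := by nlinarith
      have c2 : (S.DA t e u i b * S.A t u j b + S.A t u i b * S.DA t e u j b) ^ 2 ≤
          2 * (S.DA t e u i b ^ 2 * S.A t u j b ^ 2) +
            2 * (S.A t u i b ^ 2 * S.DA t e u j b ^ 2) := by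
        nlinarith [sq_nonneg (S.DA t e u i b * S.A t u j b - S.A t u i b * S.DA t e u j b)]
      nlinarith [sq_nonneg (S.DA t e u i b * S.A t u j b + S.A t u i b * S.DA t e u j b)]
    linarith
  have a2 : fr (DH S Φ Φ' t b e u) ≤ ∑ i, ∑ j, (3 * S.DA t e u i j ^ 2 +
      3 * DM S t (Φ (j, b) i) (Φ' (j, b) i) e u ^ 2 +
      (6 * (S.DA t e u i b ^ 2 * S.A t u j b ^ 2) +
        6 * (S.A t u i b ^ 2 * S.DA t e u j b ^ 2))) :=
    Finset.sum_le_sum fun i _ => Finset.sum_le_sum fun j _ => a1 i j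
  refine a2.trans ?_
  simp only [Finset.sum_add_distrib]
  have e1 : ∑ i, ∑ j, 3 * S.DA t e u i j ^ 2 = 3 * fr (S.DA t e u) := by
    unfold fr
    simp only [Finset.mul_sum]
  have e2 : ∑ i, ∑ j, 3 * DM S t (Φ (j, b) i) (Φ' (j, b) i) e u ^ 2 =
      3 * ∑ l, ∑ i, DM S t (Φ (l, b) i) (Φ' (l, b) i) e u ^ 2 := by
    rw [Finset.sum_comm]
    simp only [Finset.mul_sum]
  have p1 : 0 ≤ ∑ i, S.DA t e u i b ^ 2 := Finset.sum_nonneg fun _ _ => sq_nonneg _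
  have e3 : ∑ i, ∑ j, 6 * (S.DA t e u i b ^ 2 * S.A t u j b ^ 2) ≤
      6 * n * ∑ i, S.DA t e u i b ^ 2 := by
    have : ∑ i, ∑ j, 6 * (S.DA t e u i b ^ 2 * S.A t u j b ^ 2) =
        6 * ((∑ i, S.DA t e u i b ^ 2) * ∑ j, S.A t u j b ^ 2) := by
      rw [Finset.sum_mul_sum, Finset.mul_sum]
      exact Finset.sum_congr rfl fun i _ => by rw [Finset.mul_sum]
    rw [this]
    nlinarith
  have e4 : ∑ i, ∑ j, 6 * (S.A t u i b ^ 2 * S.DA t e u j b ^ 2) ≤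
      6 * n * ∑ i, S.DA t e u i b ^ 2 := by
    have : ∑ i, ∑ j, 6 * (S.A t u i b ^ 2 * S.DA t e u j b ^ 2) =
        6 * ((∑ i, S.A t u i b ^ 2) * ∑ j, S.DA t e u j b ^ 2) := by
      rw [Finset.sum_mul_sum, Finset.mul_sum]
      exact Finset.sum_congr rfl fun i _ => by rw [Finset.mul_sum]
    rw [this]
    nlinarith
  rw [e1, e2]
  linarith

/-- **The energy of the row matrices, pointwise.** -/
theorem sDH_le (t : ℝ) (u : Pair n → ℝ) :
    sDH S Φ Φ' t u ≤ 15 * n * (∑ e : Pair n, fr (S.DA t e u)) + 3 * sDM S Φ Φ' t u := by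
  have a1 : sDH S Φ Φ' t u ≤ ∑ b : Fin n, ∑ e : Pair n, (3 * fr (S.DA t e u) +
      3 * (∑ l, ∑ i, DM S t (Φ (l, b) i) (Φ' (l, b) i) e u ^ 2) +
      12 * n * ∑ i, S.DA t e u i b ^ 2) :=
    Finset.sum_le_sum fun b _ => Finset.sum_le_sum fun e _ => fr_DH_le t b e u
  refine a1.trans (le_of_eq ?_)
  simp only [Finset.sum_add_distrib]
  have e1 : ∑ _b : Fin n, ∑ e : Pair n, 3 * fr (S.DA t e u) =
      3 * n * ∑ e : Pair n, fr (S.DA t e u) := by
    rw [Finset.sum_const, Finset.card_univ, Fintype.card_fin, nsmul_eq_mul, ← Finset.mul_sum]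
    ring
  have e2 : ∑ b : Fin n, ∑ e : Pair n, 3 * (∑ l, ∑ i,
      DM S t (Φ (l, b) i) (Φ' (l, b) i) e u ^ 2) = 3 * sDM S Φ Φ' t u := by
    unfold sDM
    rw [Fintype.sum_prod_type]
    simp only [← Finset.mul_sum]
    congr 1
    conv_rhs => rw [Finset.sum_comm]
    refine Finset.sum_congr rfl fun b _ => ?_
    rw [Finset.sum_comm]
    refine Finset.sum_congr rfl fun l _ => ?_
    rw [Finset.sum_comm]
  have e3 : ∑ b : Fin n, ∑ e : Pair n, 12 * n * ∑ i, S.DA t e u i b ^ 2 =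
      12 * n * ∑ e : Pair n, fr (S.DA t e u) := by
    rw [Finset.sum_comm, Finset.mul_sum]
    refine Finset.sum_congr rfl fun e _ => ?_
    unfold fr
    rw [← Finset.mul_sum, Finset.sum_comm]
  rw [e1, e2, e3]
  ring

end Vale.Agent.P146.H946.En2
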