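import Vale.Agent.P146.H946.EnK

/-!
The energy of the row matrices with a weight which is a number at the deep position: the step
inequality and the sizes.
-/

open MeasureTheory ProbabilityTheory

namespace Vale.Agent.P146.H946.En2

open Vale.Agent.P157.Lv Vale.Agent.P146.H425 Vale.Agent.P146.H325 Vale.Agent.P146.H332
  Vale.Agent.P146.H712 Vale.Agent.P146.H816 Vale.Agent.P146.R1 Vale.Agent.P146.R1C Matrix
  Vale.Agent.P146.R1S Vale.Agent.P146.H693 Vale.Agent.P146.H655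
open Vale.Agent.P146.H785 (Ax)

set_option linter.unusedSectionVars false

variable {n : ℕ} {k x : ℝ} {S : CS n k x} {w t t' : ℝ} {m σ : ℕ → ℝ} {N : ℕ}
  {χ : (Pair n → ℝ) → ℝ}

/-- the weight `χ 1` -/
noncomputable def cI (χ : (Pair n → ℝ) → ℝ) (z : Pair n → ℝ) : Matrix (Fin n) (Fin n) ℝ :=
  fun i j => χ z * (1 : Matrix (Fin n) (Fin n) ℝ) i j

lemma sum_one (a : ℝ) (f : Fin n → Fin n → ℝ) :
    ∑ i, ∑ j, a * (1 : Matrix (Fin n) (Fin n) ℝ) i j * f i j = a * ∑ i, f i i := by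
  rw [Finset.mul_sum]
  refine Finset.sum_congr rfl fun i _ => ?_
  rw [Finset.sum_eq_single i]
  · rw [Matrix.one_apply_eq, mul_one]
  · intro j _ hj
    rw [Matrix.one_apply_ne hj.symm, mul_zero, zero_mul]
  · intro h; exact absurd (Finset.mem_univ i) h

lemma psd_cI {z : Pair n → ℝ} (h : 0 ≤ χ z) : Psd (cI χ z) := by
  refine ⟨?_, fun c => ?_⟩
  · ext i j
    rw [transpose_apply]
    unfold cI
    by_cases hij : i = j
    · rw [hij]
    · rw [Matrix.one_apply_ne hij, Matrix.one_apply_ne (Ne.symm hij)]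
  · have e : ∑ i, ∑ j, c i * c j * cI χ z i j = ∑ i, ∑ j, χ z *
        (1 : Matrix (Fin n) (Fin n) ℝ) i j * (c i * c j) :=
      Finset.sum_congr rfl fun i _ => Finset.sum_congr rfl fun j _ => by unfold cI; ring
    rw [e, sum_one]
    exact mul_nonneg h (Finset.sum_nonneg fun i _ => mul_self_nonneg _)

lemma eg_cI (h : EG χ) (i j : Fin n) : EG fun z => cI χ z i j := by
  unfold cI
  exact h.mul (EG.const _)

section fam

variable {ι : Type} [Fintype ι] {Φ : ι → Fin n → (Pair n → ℝ) → ℝ}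
  {Φ' : ι → Fin n → Pair n → (Pair n → ℝ) → ℝ}

lemma qM_cI (t : ℝ) (z u : Pair n → ℝ) : qM S Φ t (cI χ z) u = χ z * nM S Φ t u := by
  have h := sum_one (χ z) fun i j => ∑ a, Mt S t (Φ a i) u * Mt S t (Φ a j) u
  unfold qM cI nM
  rw [h]
  congr 1
  rw [Finset.sum_comm]
  exact Finset.sum_congr rfl fun a _ => Finset.sum_congr rfl fun i _ => by ring

lemma EM_cI (t : ℝ) (z u : Pair n → ℝ) : EM S Φ Φ' t (cI χ z) u = χ z * sDM S Φ Φ' t u := by
  have h := sum_one (χ z) fun i j => ∑ e : Pair n, ∑ a, DM S t (Φ a i) (Φ' a i) e u *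
    DM S t (Φ a j) (Φ' a j) e u
  unfold EM cI sDM
  rw [h]
  congr 1
  have e1 : ∀ i, ∑ e : Pair n, ∑ a, DM S t (Φ a i) (Φ' a i) e u * DM S t (Φ a i) (Φ' a i) e u =
      ∑ a, ∑ e : Pair n, DM S t (Φ a i) (Φ' a i) e u ^ 2 := fun i => by
    rw [Finset.sum_comm]
    exact Finset.sum_congr rfl fun a _ => Finset.sum_congr rfl fun e _ => by ring
  simp only [e1]
  rw [Finset.sum_comm]

end fam

lemma En_cI (t : ℝ) (z u : Pair n → ℝ) :
    H655.En S t (cI χ z) u = χ z * ∑ e : Pair n, fr (S.DA t e u) := by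
  unfold H655.En cI
  rw [Finset.mul_sum]
  refine Finset.sum_congr rfl fun e _ => ?_
  rw [sum_one]
  congr 1
  unfold fr
  refine Finset.sum_congr rfl fun i _ => Finset.sum_congr rfl fun l _ => ?_
  rw [S.DA_comm t e u l i, _root_.sq]

lemma qF_cI (t : ℝ) (z u : Pair n → ℝ) : qF S t (cI χ z) u = χ z * fr (S.A t u) := by
  have h := sum_one (χ z) fun i j => ∑ l, S.A t u i l * S.A t u l j
  have e : qF S t (cI χ z) u = ∑ i, ∑ j, χ z * (1 : Matrix (Fin n) (Fin n) ℝ) i j *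
      ∑ l, S.A t u i l * S.A t u l j := rfl
  rw [e, h]
  congr 1
  unfold fr
  refine Finset.sum_congr rfl fun i _ => Finset.sum_congr rfl fun l _ => ?_
  rw [S.A_comm t u l i, _root_.sq]

/-! ### the numbers -/

/-- `E χ |C_t|²` -/
noncomputable def NS (S : CS n k x) (w : ℝ) (m σ : ℕ → ℝ) (N : ℕ) (c : ℝ)
    (χ : (Pair n → ℝ) → ℝ) (t : ℝ) : ℝ :=
  ∫ g, χ (c • g) * E1 S w m σ N t (fun u => fr (S.A t u)) (c • g) ∂(gI (Pair n))

/-- `E χ ∑_a |M_a|²` -/
noncomputable def nS (S : CS n k x) (w : ℝ) (m σ : ℕ → ℝ) (N : ℕ) (c : ℝ)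
    (Φ : Fin n × Fin n → Fin n → (Pair n → ℝ) → ℝ) (χ : (Pair n → ℝ) → ℝ) (t : ℝ) : ℝ :=
  ∫ g, χ (c • g) * E1 S w m σ N t (nM S Φ t) (c • g) ∂(gI (Pair n))

/-- `E χ ∑_b ∑_e |D_e H_b|²` -/
noncomputable def hS (S : CS n k x) (w : ℝ) (m σ : ℕ → ℝ) (N : ℕ) (c : ℝ)
    (Φ : Fin n × Fin n → Fin n → (Pair n → ℝ) → ℝ)
    (Φ' : Fin n × Fin n → Fin n → Pair n → (Pair n → ℝ) → ℝ) (χ : (Pair n → ℝ) → ℝ)
    (t : ℝ) : ℝ :=
  ∫ g, χ (c • g) * E1 S w m σ N t (sDH S Φ Φ' t) (c • g) ∂(gI (Pair n))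

variable {Φ : Fin n × Fin n → Fin n → (Pair n → ℝ) → ℝ}
  {Φ' : Fin n × Fin n → Fin n → Pair n → (Pair n → ℝ) → ℝ}

lemma eg_chi (hm : Pm m N) (hχ : EG χ) {f : (Pair n → ℝ) → ℝ} (hf : EG f) (c : ℝ) :
    EG fun g : Pair n → ℝ => χ (c • g) * E1 S w m σ N t f (c • g) :=
  eg_sc (G := fun z => χ z * E1 S w m σ N t f z) (hχ.mul (eg_E1 hm hf)) c

lemma NW_cI (hm : Pm m N) (c : ℝ) : NW S w m σ N c (cI χ) t = NS S w m σ N c χ t := by
  unfold NW NS
  refine integral_congr_ae (Filter.Eventually.of_forall fun g => ?_)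
  simp only
  rw [← E1_qF hm]
  have e : qF S t (cI χ (c • g)) = fun u => χ (c • g) * fr (S.A t u) :=
    funext fun u => qF_cI t (c • g) u
  rw [e, E1_const_mul]

lemma EnW_cI (c : ℝ) : EnW S w m σ N c (cI χ) t =
    ∫ g, χ (c • g) * E1 S w m σ N t (fun u => ∑ e : Pair n, fr (S.DA t e u)) (c • g)
      ∂(gI (Pair n)) := by
  unfold EnW
  refine integral_congr_ae (Filter.Eventually.of_forall fun g => ?_)
  simp only
  have e : H655.En S t (cI χ (c • g)) = fun u => χ (c • g) * ∑ e : Pair n, fr (S.DA t e u) :=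
    funext fun u => En_cI t (c • g) u
  rw [e, E1_const_mul]

lemma qMW_cI (c : ℝ) : qMW S w m σ N c Φ (cI χ) t = nS S w m σ N c Φ χ t := by
  unfold qMW nS
  refine integral_congr_ae (Filter.Eventually.of_forall fun g => ?_)
  simp only
  have e : qM S Φ t (cI χ (c • g)) = fun u => χ (c • g) * nM S Φ t u :=
    funext fun u => qM_cI t (c • g) u
  rw [e, E1_const_mul]

lemma EMW_cI (c : ℝ) : EMW S w m σ N c Φ Φ' (cI χ) t =
    ∫ g, χ (c • g) * E1 S w m σ N t (sDM S Φ Φ' t) (c • g) ∂(gI (Pair n)) := by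
  unfold EMW
  refine integral_congr_ae (Filter.Eventually.of_forall fun g => ?_)
  simp only
  have e : EM S Φ Φ' t (cI χ (c • g)) = fun u => χ (c • g) * sDM S Φ Φ' t u :=
    funext fun u => EM_cI t (c • g) u
  rw [e, E1_const_mul]

/-- the potential -/
noncomputable def fS (S : CS n k x) (w : ℝ) (m σ : ℕ → ℝ) (N : ℕ) (c : ℝ)
    (Φ : Fin n × Fin n → Fin n → (Pair n → ℝ) → ℝ) (χ : (Pair n → ℝ) → ℝ) (t : ℝ) : ℝ :=
  30 * n * NS S w m σ N c χ t + 6 * nS S w m σ N c Φ χ t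

lemma hS_nonneg (c : ℝ) (h0 : ∀ z, 0 ≤ χ z) : 0 ≤ hS S w m σ N c Φ Φ' χ t :=
  integral_nonneg fun g => mul_nonneg (h0 _) (E1_nonneg (fun u => sDH_nonneg t u) (c • g))

lemma nS_nonneg (c : ℝ) (h0 : ∀ z, 0 ≤ χ z) : 0 ≤ nS S w m σ N c Φ χ t :=
  integral_nonneg fun g => mul_nonneg (h0 _) (E1_nonneg (fun u => nM_nonneg t u) (c • g))

/-- `E χ ∑_b |G_b|² ≤ n E χ |C|²` -/
theorem HS.nS_le (h : HS S Φ Φ') (hm : Pm m N) (c : ℝ) (hχ : EG χ) (h0 : ∀ z, 0 ≤ χ z) :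
    nS S w m σ N c Φ χ t ≤ n * NS S w m σ N c χ t := by
  unfold nS NS
  rw [← integral_const_mul]
  refine integral_mono (eg_chi hm hχ (eg_nM h.fam t) c).integrable
    ((eg_chi hm hχ (eg_frA t) c).const_mul _).integrable fun g => ?_
  simp only
  have h1 := E1_mono (S := S) (w := w) (t := t) (σ := σ) hm (eg_nM (S := S) h.fam t)
    ((eg_frA (S := S) t).const_mul (n : ℝ)) (fun u => h.nM_le t u) (c • g)
  rw [E1_const_mul] at h1
  calc χ (c • g) * E1 S w m σ N t (nM S Φ t) (c • g) ≤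
        χ (c • g) * (n * E1 S w m σ N t (fun u => fr (S.A t u)) (c • g)) :=
        mul_le_mul_of_nonneg_left h1 (h0 _)
    _ = _ := by ring

theorem fS_ge (c : ℝ) (h0 : ∀ z, 0 ≤ χ z) :
    30 * n * NS S w m σ N c χ t ≤ fS S w m σ N c Φ χ t := by
  unfold fS
  have := nS_nonneg (S := S) (w := w) (m := m) (σ := σ) (N := N) (t := t) (Φ := Φ) c h0
  linarith

theorem HS.fS_le (h : HS S Φ Φ') (hm : Pm m N) (c : ℝ) (hχ : EG χ) (h0 : ∀ z, 0 ≤ χ z) :
    fS S w m σ N c Φ χ t ≤ 36 * n * NS S w m σ N c χ t := by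
  unfold fS
  have := h.nS_le (w := w) (σ := σ) (t := t) hm c hχ h0
  linarith

/-- **The step inequality of the energy of the row matrices, the weight a number at the deep
position.** -/
theorem HS.hS_step (h : HS S Φ Φ') (hm : Pm m N) (c : ℝ) (hχ : EG χ) (h0 : ∀ z, 0 ≤ χ z)
    (h1 : w ≤ t) (h2 : t < t') (h3 : t' ≤ 1) (hk : Sh S (t' - t)) :
    (t' - t) * hS S w m σ N c Φ Φ' χ t ≤
      fS S w m σ N c Φ χ t' - fS S w m σ N c Φ χ t := by
  have a1 := EnW_le (S := S) (σ := σ) (Y := cI χ) hm c (fun i j => eg_cI hχ i j)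
    (fun z => psd_cI (h0 z)) h1 h2 h3 hk
  have a2 := EMW_le (S := S) (σ := σ) (Y := cI χ) (Y' := cI χ) h.fam hm c
    (fun i j => eg_cI hχ i j) (fun i j => eg_cI hχ i j) (fun z => psd_cI (h0 z))
    (fun z => by rw [sub_self]; exact psd_zero) h1 h2 h3 hk
  rw [NW_cI hm, NW_cI hm, EnW_cI] at a1
  rw [qMW_cI, qMW_cI, EMW_cI] at a2
  have es : EG fun u : Pair n → ℝ => ∑ e : Pair n, fr (S.DA t e u) :=
    EG.sum _ fun e _ => EG.sum _ fun i _ => EG.sum _ fun j _ => (S.eg_DA t e i j).pow 2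
  have i1 := (eg_chi (S := S) (w := w) (t := t) (σ := σ) hm hχ es c).const_mul (15 * (n : ℝ))
  have i2 := (eg_chi (S := S) (w := w) (t := t) (σ := σ) hm hχ (eg_sDM (S := S) h.fam t) c).const_mul 3
  have a3 : hS S w m σ N c Φ Φ' χ t ≤ 15 * n * (∫ g, χ (c • g) * E1 S w m σ N t
      (fun u => ∑ e : Pair n, fr (S.DA t e u)) (c • g) ∂(gI (Pair n))) +
      3 * ∫ g, χ (c • g) * E1 S w m σ N t (sDM S Φ Φ' t) (c • g) ∂(gI (Pair n)) := by
    unfold hS
    rw [← integral_const_mul, ← integral_const_mul, ← integral_add i1.integrable i2.integrable]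
    refine integral_mono (eg_chi hm hχ (h.eg_sDH t) c).integrable (i1.add i2).integrable
      fun g => ?_
    simp only
    have b1 := E1_mono (S := S) (w := w) (t := t) (σ := σ) hm (h.eg_sDH t)
      ((es.const_mul (15 * (n : ℝ))).add ((eg_sDM (S := S) h.fam t).const_mul 3))
      (fun u => sDH_le t u) (c • g)
    rw [E1_add hm (es.const_mul _) ((eg_sDM (S := S) h.fam t).const_mul 3), E1_const_mul,
      E1_const_mul] at b1
    calc χ (c • g) * E1 S w m σ N t (sDH S Φ Φ' t) (c • g) ≤ χ (c • g) * _ :=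
          mul_le_mul_of_nonneg_left b1 (h0 _)
      _ = _ := by ring
  have a4 := mul_le_mul_of_nonneg_left a3 (sub_pos.2 h2).le
  have a5 := mul_le_mul_of_nonneg_left a1 (show (0 : ℝ) ≤ 15 * n by positivity)
  unfold fS
  linarith

/-- `n E χ ≤ E χ |C|² ≤ n² E χ` -/
theorem NS_ge (hm : Pm m N) (c : ℝ) (hχ : EG χ) (h0 : ∀ z, 0 ≤ χ z) :
    n * (∫ g, χ (c • g) ∂(gI (Pair n))) ≤ NS S w m σ N c χ t := by
  unfold NS
  rw [← integral_const_mul]
  refine integral_mono ((eg_sc hχ c).const_mul _).integrable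
    (eg_chi hm hχ (eg_frA t) c).integrable fun g => ?_
  simp only
  have h1 := E1_mono (S := S) (w := w) (t := t) (σ := σ) hm (EG.const (n : ℝ))
    (eg_frA (S := S) t) (fun u => ?_) (c • g)
  · rw [E1_const hm] at h1
    calc n * χ (c • g) = χ (c • g) * n := by ring
      _ ≤ _ := mul_le_mul_of_nonneg_left h1 (h0 _)
  · unfold fr
    have : ∑ _i : Fin n, (1 : ℝ) ≤ ∑ i, ∑ j, S.A t u i j ^ 2 := by
      refine Finset.sum_le_sum fun i _ => ?_
      have h2 : S.A t u i i ^ 2 ≤ ∑ j, S.A t u i j ^ 2 :=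
        Finset.single_le_sum (f := fun j => S.A t u i j ^ 2) (fun j _ => sq_nonneg _)
          (Finset.mem_univ i)
      rw [S.A_self, one_pow] at h2
      exact h2
    rwa [Finset.sum_const, Finset.card_univ, Fintype.card_fin, nsmul_eq_mul, mul_one] at this

theorem NS_le (hm : Pm m N) (c : ℝ) (hχ : EG χ) (h0 : ∀ z, 0 ≤ χ z) :
    NS S w m σ N c χ t ≤ n ^ 2 * ∫ g, χ (c • g) ∂(gI (Pair n)) := by
  unfold NS
  rw [← integral_const_mul]
  refine integral_mono (eg_chi hm hχ (eg_frA t) c).integrable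
    ((eg_sc hχ c).const_mul _).integrable fun g => ?_
  simp only
  have h1 := E1_mono (S := S) (w := w) (t := t) (σ := σ) hm
    (eg_frA (S := S) t) (EG.const ((n : ℝ) ^ 2)) (fun u => ?_) (c • g)
  · rw [E1_const hm] at h1
    calc χ (c • g) * _ ≤ χ (c • g) * (n : ℝ) ^ 2 := mul_le_mul_of_nonneg_left h1 (h0 _)
      _ = _ := by ring
  · unfold fr
    have : ∑ i, ∑ j, S.A t u i j ^ 2 ≤ ∑ _i : Fin n, ∑ _j : Fin n, (1 : ℝ) := by
      refine Finset.sum_le_sum fun i _ => Finset.sum_le_sum fun j _ => ?_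
      have := abs_le.1 (S.abs_A t u i j)
      nlinarith
    simp only [Finset.sum_const, Finset.card_univ, Fintype.card_fin, nsmul_eq_mul, mul_one]
      at this
    calc _ ≤ _ := this
      _ = _ := by ring

end Vale.Agent.P146.H946.En2
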