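import Vale.Agent.P146.H946.EnC

/-!
Energy bounds for general martingales `E_t[φ]` (`φ` a function of the time `1`) in the layered
laws: the gradient, the tower property, one short step with a positive semidefinite weight which
may increase with the time.
-/

open MeasureTheory ProbabilityTheory

namespace Vale.Agent.P146.H946.En2

open Vale.Agent.P157.Lv Vale.Agent.P146.H425 Vale.Agent.P146.H325 Vale.Agent.P146.H332
  Vale.Agent.P146.H712 Vale.Agent.P146.H816 Vale.Agent.P146.R1 Vale.Agent.P146.R1C Matrix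
  Vale.Agent.P146.R1S Vale.Agent.P146.H693 Vale.Agent.P146.H655
open Vale.Agent.P146.H785 (Ax)

set_option linter.unusedSectionVars false

variable {n : ℕ} {k x : ℝ} {S : CS n k x} {w t t' : ℝ} {m σ : ℕ → ℝ} {N : ℕ}
  {M : Matrix (Fin n) (Fin n) ℝ} {φ : (Pair n → ℝ) → ℝ} {φ' : Pair n → (Pair n → ℝ) → ℝ}

/-- the martingale `E_t[φ]` -/
noncomputable def Mt (S : CS n k x) (t : ℝ) (φ : (Pair n → ℝ) → ℝ) : (Pair n → ℝ) → ℝ :=
  Aw S t 1 φ

/-- its gradient -/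
noncomputable def DM (S : CS n k x) (t : ℝ) (φ : (Pair n → ℝ) → ℝ)
    (φ' : Pair n → (Pair n → ℝ) → ℝ) (e : Pair n) (u : Pair n → ℝ) : ℝ :=
  GA x (√(1 - t)) (uu x 1 S.F) (dd x 1 S.F S.D) φ φ' u e

lemma eg_Mt (t : ℝ) (hφ : EG φ) : EG (Mt S t φ) := eg_Aw S t 1 hφ

lemma eg_DM (t : ℝ) (hφ : EG φ) (hφ' : ∀ e, EG (φ' e)) (e : Pair n) :
    EG (DM S t φ φ' e) := by
  have hc := c11_uu S.c11 S.x0 1
  have hD : ∀ e, EG (dd x 1 S.F S.D e) := hc.eg_D
  have e1 := eg_Ax hc (hφ' e) x (√(1 - t))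
  have e2 := eg_Ax hc (hφ.mul (hD e)) x (√(1 - t))
  have e3 := eg_Ax hc hφ x (√(1 - t))
  have e4 := eg_Ax hc (hD e) x (√(1 - t))
  exact e1.add ((e2.sub (e3.mul e4)).const_mul x)

theorem fd_Mt (t : ℝ) (hφ : EG φ) (hφ' : ∀ e, EG (φ' e))
    (hd : ∀ y, HasFDerivAt φ (H785.lf fun e => φ' e y) y) (u : Pair n → ℝ) :
    HasFDerivAt (Mt S t φ) (H785.lf fun e => DM S t φ φ' e u) u :=
  H785.fd_Ax (c11_uu S.c11 S.x0 1) hφ hφ' hd x (√(1 - t)) u

theorem Mt_tw (h2 : t ≤ t') (h3 : t' ≤ 1) (hφ : EG φ) (u : Pair n → ℝ) :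
    Mt S t φ u = Aw S t t' (Mt S t' φ) u := Aw_tower S h2 h3 le_rfl hφ u

lemma GA_Mt (h2 : t ≤ t') (h3 : t' ≤ 1) (hφ : EG φ) (hφ' : ∀ e, EG (φ' e))
    (hd : ∀ y, HasFDerivAt φ (H785.lf fun e => φ' e y) y) (u : Pair n → ℝ) (e : Pair n) :
    GA x (√(t' - t)) (uu x t' S.F) (dd x t' S.F S.D) (Mt S t' φ) (DM S t' φ φ') u e =
      DM S t φ φ' e u := by
  have hc := c11_uu S.c11 S.x0 t'
  have b1 := H785.fd_Ax hc (eg_Mt (S := S) t' hφ) (fun e => eg_DM (S := S) t' hφ hφ' e)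
    (fun y => fd_Mt (S := S) t' hφ hφ' hd y) x (√(t' - t)) u
  have b3 : HasFDerivAt (Ax x (√(t' - t)) (uu x t' S.F) (Mt S t' φ))
      (H785.lf fun e => DM S t φ φ' e u) u := by
    have e1 : Ax x (√(t' - t)) (uu x t' S.F) (Mt S t' φ) = Mt S t φ :=
      funext fun v => (Mt_tw h2 h3 hφ v).symm
    rw [e1]
    exact fd_Mt t hφ hφ' hd u
  exact lf_inj (b1.unique b3) e

section fam

variable {ι : Type} [Fintype ι] {Φ : ι → Fin n → (Pair n → ℝ) → ℝ}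
  {Φ' : ι → Fin n → Pair n → (Pair n → ℝ) → ℝ}

/-- a family of functions with gradients -/
structure Fam (Φ : ι → Fin n → (Pair n → ℝ) → ℝ)
    (Φ' : ι → Fin n → Pair n → (Pair n → ℝ) → ℝ) : Prop where
  eg : ∀ a i, EG (Φ a i)
  eg' : ∀ a i e, EG (Φ' a i e)
  fd : ∀ a i y, HasFDerivAt (Φ a i) (H785.lf fun e => Φ' a i e y) y

/-- `∑_a <M, M_a M_a'>` -/
noncomputable def qM (S : CS n k x) (Φ : ι → Fin n → (Pair n → ℝ) → ℝ) (t : ℝ)
    (M : Matrix (Fin n) (Fin n) ℝ) (u : Pair n → ℝ) : ℝ :=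
  ∑ i, ∑ j, M i j * ∑ a, Mt S t (Φ a i) u * Mt S t (Φ a j) u

/-- `∑_e ∑_a <M, D_e M_a D_e M_a'>` -/
noncomputable def EM (S : CS n k x) (Φ : ι → Fin n → (Pair n → ℝ) → ℝ)
    (Φ' : ι → Fin n → Pair n → (Pair n → ℝ) → ℝ) (t : ℝ) (M : Matrix (Fin n) (Fin n) ℝ)
    (u : Pair n → ℝ) : ℝ :=
  ∑ i, ∑ j, M i j * ∑ e : Pair n, ∑ a, DM S t (Φ a i) (Φ' a i) e u *
    DM S t (Φ a j) (Φ' a j) e u

/-- a sum of quadratic forms in the eigenbasis of the weight -/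
lemma form_fam {J : Type*} [Fintype J] {V : Matrix (Fin n) (Fin n) ℝ} {lam : Fin n → ℝ}
    (hV : ∀ i j, M i j = ∑ a, lam a * V i a * V j a) (d : J → Fin n → ℝ) :
    ∑ i, ∑ j, M i j * ∑ a, d a i * d a j = ∑ c, ∑ a, lam c * (∑ i, V i c * d a i) ^ 2 := by
  have e1 : ∀ c a, lam c * (∑ i, V i c * d a i) ^ 2 =
      ∑ i, ∑ j, lam c * V i c * V j c * (d a i * d a j) := by
    intro c a
    rw [_root_.sq, Finset.sum_mul_sum, Finset.mul_sum]
    refine Finset.sum_congr rfl fun i _ => ?_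
    rw [Finset.mul_sum]
    exact Finset.sum_congr rfl fun j _ => by ring
  simp only [e1, hV, Finset.sum_mul, Finset.mul_sum]
  have e2 : ∀ c, ∑ a, ∑ i, ∑ j, lam c * V i c * V j c * (d a i * d a j) =
      ∑ i, ∑ j, ∑ a, lam c * V i c * V j c * (d a i * d a j) := by
    intro c
    rw [Finset.sum_comm]
    exact Finset.sum_congr rfl fun i _ => Finset.sum_comm
  simp only [e2]
  conv_rhs => rw [Finset.sum_comm]
  refine Finset.sum_congr rfl fun i _ => ?_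
  conv_rhs => rw [Finset.sum_comm]
  exact Finset.sum_congr rfl fun j _ => Finset.sum_comm

lemma eg_qM (h : Fam Φ Φ') (t : ℝ) (M : Matrix (Fin n) (Fin n) ℝ) : EG (qM S Φ t M) :=
  EG.sum _ fun i _ => EG.sum _ fun j _ => (EG.sum _ fun a _ =>
    (eg_Mt t (h.eg a i)).mul (eg_Mt t (h.eg a j))).const_mul _

lemma eg_EM (h : Fam Φ Φ') (t : ℝ) (M : Matrix (Fin n) (Fin n) ℝ) : EG (EM S Φ Φ' t M) :=
  EG.sum _ fun i _ => EG.sum _ fun j _ => (EG.sum _ fun e _ => EG.sum _ fun a _ =>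
    (eg_DM t (h.eg a i) (h.eg' a i) e).mul (eg_DM t (h.eg a j) (h.eg' a j) e)).const_mul _

lemma psd_fam {J : Type*} [Fintype J] (hM : Psd M) (d : J → Fin n → ℝ) :
    0 ≤ ∑ i, ∑ j, M i j * ∑ a, d a i * d a j := by
  obtain ⟨V, lam, hl, hV⟩ := H499.psd_decomp hM
  rw [form_fam hV d]
  exact Finset.sum_nonneg fun c _ => Finset.sum_nonneg fun a _ =>
    mul_nonneg (hl c) (sq_nonneg _)

lemma qM_nonneg (hM : Psd M) (t : ℝ) (u : Pair n → ℝ) : 0 ≤ qM S Φ t M u :=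
  psd_fam hM fun a i => Mt S t (Φ a i) u

lemma EM_nonneg (hM : Psd M) (t : ℝ) (u : Pair n → ℝ) : 0 ≤ EM S Φ Φ' t M u := by
  have h := psd_fam (J := Pair n × ι) hM fun p i => DM S t (Φ p.2 i) (Φ' p.2 i) p.1 u
  simp only [Fintype.sum_prod_type] at h
  exact h

lemma eg_linM (h : Fam Φ Φ') (t : ℝ) (c : Fin n → ℝ) (a : ι) :
    EG fun v => ∑ i, c i * Mt S t (Φ a i) v :=
  EG.sum _ fun i _ => (eg_Mt t (h.eg a i)).const_mul _

lemma fd_linM (h : Fam Φ Φ') (t : ℝ) (c : Fin n → ℝ) (a : ι) (v : Pair n → ℝ) :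
    HasFDerivAt (fun v => ∑ i, c i * Mt S t (Φ a i) v)
      (H785.lf fun e => ∑ i, c i * DM S t (Φ a i) (Φ' a i) e v) v := by
  have h : HasFDerivAt (fun v => ∑ i, c i * Mt S t (Φ a i) v)
      (∑ i, c i • H785.lf fun e => DM S t (Φ a i) (Φ' a i) e v) v :=
    HasFDerivAt.fun_sum fun i _ => (fd_Mt t (h.eg a i) (h.eg' a i) (h.fd a i) v).const_mul (c i)
  refine h.congr_fderiv ?_
  ext w
  simp only [_root_.sum_apply, _root_.smul_apply, H785.lf_apply, smul_eq_mul, Finset.mul_sum,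
    Finset.sum_mul]
  rw [Finset.sum_comm]
  exact Finset.sum_congr rfl fun e _ => Finset.sum_congr rfl fun i _ => by ring

lemma Aw_linM (h : Fam Φ Φ') (h2 : t ≤ t') (h3 : t' ≤ 1) (c : Fin n → ℝ) (a : ι)
    (u : Pair n → ℝ) :
    Aw S t t' (fun v => ∑ i, c i * Mt S t' (Φ a i) v) u = ∑ i, c i * Mt S t (Φ a i) u := by
  have a1 : Aw S t t' (fun v => ∑ i, c i * Mt S t' (Φ a i) v) u =
      ∑ i, Aw S t t' (fun v => c i * Mt S t' (Φ a i) v) u :=
    Aw_sum S t t' Finset.univ (fun i _ => (eg_Mt t' (h.eg a i)).const_mul _) u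
  refine a1.trans (Finset.sum_congr rfl fun i _ => ?_)
  rw [Aw_const_mul, ← Mt_tw h2 h3 (h.eg a i)]

/-- one linear combination over a short step -/
theorem scalM_le (h : Fam Φ Φ') (h2 : t < t') (h3 : t' ≤ 1) (hk : Sh S (t' - t))
    (c : Fin n → ℝ) (a : ι) (u : Pair n → ℝ) :
    (t' - t) * ∑ e : Pair n, (∑ i, c i * DM S t (Φ a i) (Φ' a i) e u) ^ 2 ≤
      2 * (Aw S t t' (fun v => (∑ i, c i * Mt S t' (Φ a i) v) ^ 2) u -
        (∑ i, c i * Mt S t (Φ a i) u) ^ 2) := by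
  have hc := c11_uu S.c11 S.x0 t'
  set s := √(t' - t) with hs
  have hs2 : s ^ 2 = t' - t := Real.sq_sqrt (by linarith)
  have hs0 : 0 < s := Real.sqrt_pos.2 (by linarith)
  have eφ := eg_linM (S := S) h t' c a
  have eφ' : ∀ e, EG fun v => ∑ i, c i * DM S t' (Φ a i) (Φ' a i) e v := fun e =>
    EG.sum _ fun i _ => (eg_DM t' (h.eg a i) (h.eg' a i) e).const_mul _
  have key := grad_le hc x (φ := fun v => ∑ i, c i * Mt S t' (Φ a i) v)
    (φ' := fun e v => ∑ i, c i * DM S t' (Φ a i) (Φ' a i) e v) eφ eφ' (fd_linM h t' c a) hs0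
    (by rw [hs2]; exact hk) u
  have e1 : Ax x s (uu x t' S.F) (fun v => ∑ i, c i * Mt S t' (Φ a i) v) =
      fun v => ∑ i, c i * Mt S t (Φ a i) v := funext fun v => Aw_linM h h2.le h3 c a v
  have e2 : ∀ e, GA x s (uu x t' S.F) (dd x t' S.F S.D) (fun v => ∑ i, c i * Mt S t' (Φ a i) v)
      (fun e v => ∑ i, c i * DM S t' (Φ a i) (Φ' a i) e v) u e =
        ∑ i, c i * DM S t (Φ a i) (Φ' a i) e u := by
    have b1 := H785.fd_Ax hc eφ eφ' (fd_linM (S := S) h t' c a) x s u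
    have b3 : HasFDerivAt (Ax x s (uu x t' S.F) (fun v => ∑ i, c i * Mt S t' (Φ a i) v))
        (H785.lf fun e => ∑ i, c i * DM S t (Φ a i) (Φ' a i) e u) u := by
      rw [e1]
      exact fd_linM h t c a u
    exact fun e => lf_inj (b1.unique b3) e
  rw [hs2] at key
  simp only [e2] at key
  have h4 := Ax_cov hc eφ eφ x s u
  have e5 : (fun v => (∑ i, c i * Mt S t' (Φ a i) v -
      Ax x s (uu x t' S.F) (fun v => ∑ i, c i * Mt S t' (Φ a i) v) u) ^ 2) = fun v =>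
      (∑ i, c i * Mt S t' (Φ a i) v -
        Ax x s (uu x t' S.F) (fun v => ∑ i, c i * Mt S t' (Φ a i) v) u) *
      (∑ i, c i * Mt S t' (Φ a i) v -
        Ax x s (uu x t' S.F) (fun v => ∑ i, c i * Mt S t' (Φ a i) v) u) := by
    funext v; ring
  rw [e5, h4, congrFun e1 u] at key
  refine key.trans (le_of_eq ?_)
  have e6 : (fun v => (∑ i, c i * Mt S t' (Φ a i) v) ^ 2) = fun v =>
      (∑ i, c i * Mt S t' (Φ a i) v) * ∑ i, c i * Mt S t' (Φ a i) v := by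
    funext v; ring
  rw [e6]
  unfold Aw
  ring

/-- **One short step at a position.** -/
theorem EM_le (h : Fam Φ Φ') (hM : Psd M) (h2 : t < t') (h3 : t' ≤ 1) (hk : Sh S (t' - t))
    (u : Pair n → ℝ) :
    (t' - t) * EM S Φ Φ' t M u ≤ 2 * (Aw S t t' (qM S Φ t' M) u - qM S Φ t M u) := by
  obtain ⟨V, lam, hl, hV⟩ := H499.psd_decomp hM
  have e1 : EM S Φ Φ' t M u = ∑ c, ∑ a, lam c * ∑ e : Pair n,
      (∑ i, V i c * DM S t (Φ a i) (Φ' a i) e u) ^ 2 := by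
    have h1 := form_fam (J := Pair n × ι) hV fun p i => DM S t (Φ p.2 i) (Φ' p.2 i) p.1 u
    simp only [Fintype.sum_prod_type] at h1
    refine Eq.trans h1 ?_
    refine Finset.sum_congr rfl fun c _ => ?_
    rw [Finset.sum_comm]
    refine Finset.sum_congr rfl fun a _ => ?_
    rw [Finset.mul_sum]
  have e2 : ∀ t v, qM S Φ t M v = ∑ c, ∑ a, lam c * (∑ i, V i c * Mt S t (Φ a i) v) ^ 2 :=
    fun t v => form_fam hV fun a i => Mt S t (Φ a i) v
  have eg1 : ∀ c a, EG fun v => (∑ i, V i c * Mt S t' (Φ a i) v) ^ 2 := fun c a =>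
    (eg_linM h t' (fun i => V i c) a).pow 2
  have e3 : Aw S t t' (qM S Φ t' M) u = ∑ c, ∑ a, lam c *
      Aw S t t' (fun v => (∑ i, V i c * Mt S t' (Φ a i) v) ^ 2) u := by
    have h1 : qM S Φ t' M = fun v => ∑ c, ∑ a, lam c * (∑ i, V i c * Mt S t' (Φ a i) v) ^ 2 :=
      funext fun v => e2 t' v
    rw [h1]
    refine (Aw_sum S t t' Finset.univ (φ := fun c v => ∑ a, lam c *
      (∑ i, V i c * Mt S t' (Φ a i) v) ^ 2) (fun c _ => EG.sum _ fun a _ =>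
        (eg1 c a).const_mul _) u).trans ?_
    refine Finset.sum_congr rfl fun c _ => ?_
    refine (Aw_sum S t t' Finset.univ (φ := fun a v => lam c *
      (∑ i, V i c * Mt S t' (Φ a i) v) ^ 2) (fun a _ => (eg1 c a).const_mul _) u).trans ?_
    exact Finset.sum_congr rfl fun a _ => Aw_const_mul S t t' _ _ u
  rw [e1, e2 t u, e3, ← Finset.sum_sub_distrib, Finset.mul_sum, Finset.mul_sum]
  refine Finset.sum_le_sum fun c _ => ?_
  rw [← Finset.sum_sub_distrib, Finset.mul_sum, Finset.mul_sum]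
  refine Finset.sum_le_sum fun a _ => ?_
  have h4 := mul_le_mul_of_nonneg_left (scalM_le (S := S) h h2 h3 hk (fun i => V i c) a u) (hl c)
  calc _ = lam c * ((t' - t) * ∑ e : Pair n,
        (∑ i, V i c * DM S t (Φ a i) (Φ' a i) e u) ^ 2) := by ring
    _ ≤ _ := h4
    _ = _ := by ring

end fam

end Vale.Agent.P146.H946.En2
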