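import Vale.Agent.P146.H946.EnM

/-!
Energy bounds for general martingales in the layered laws, integrated: the rate of
`E <Y, ∑_a M_a M_a'>`, the increments, and the same-time rate `E <Y, C_t²> ∑_a |D M_a|²`.
-/

open MeasureTheory ProbabilityTheory

namespace Vale.Agent.P146.H946.En2

open Vale.Agent.P157.Lv Vale.Agent.P146.H425 Vale.Agent.P146.H325 Vale.Agent.P146.H332
  Vale.Agent.P146.H712 Vale.Agent.P146.H816 Vale.Agent.P146.R1 Vale.Agent.P146.R1C Matrix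
  Vale.Agent.P146.R1S Vale.Agent.P146.H693 Vale.Agent.P146.H655
open Vale.Agent.P146.H785 (Ax)

set_option linter.unusedSectionVars false

variable {n : ℕ} {k x : ℝ} {S : CS n k x} {w t t' : ℝ} {m σ : ℕ → ℝ} {N : ℕ}
  {M : Matrix (Fin n) (Fin n) ℝ} {ι : Type} [Fintype ι] {Φ : ι → Fin n → (Pair n → ℝ) → ℝ}
  {Φ' : ι → Fin n → Pair n → (Pair n → ℝ) → ℝ}
  {Y Y' : (Pair n → ℝ) → Matrix (Fin n) (Fin n) ℝ}

/-- `E <Y, ∑_a M_a M_a'>` -/
noncomputable def qMW (S : CS n k x) (w : ℝ) (m σ : ℕ → ℝ) (N : ℕ) (c : ℝ)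
    (Φ : ι → Fin n → (Pair n → ℝ) → ℝ) (Y : (Pair n → ℝ) → Matrix (Fin n) (Fin n) ℝ)
    (t : ℝ) : ℝ :=
  ∫ g, E1 S w m σ N t (qM S Φ t (Y (c • g))) (c • g) ∂(gI (Pair n))

/-- `E ∑_e ∑_a <Y, D_e M_a D_e M_a'>` -/
noncomputable def EMW (S : CS n k x) (w : ℝ) (m σ : ℕ → ℝ) (N : ℕ) (c : ℝ)
    (Φ : ι → Fin n → (Pair n → ℝ) → ℝ) (Φ' : ι → Fin n → Pair n → (Pair n → ℝ) → ℝ)
    (Y : (Pair n → ℝ) → Matrix (Fin n) (Fin n) ℝ) (t : ℝ) : ℝ :=
  ∫ g, E1 S w m σ N t (EM S Φ Φ' t (Y (c • g))) (c • g) ∂(gI (Pair n))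

lemma E1_fam (hm : Pm m N) {f : Fin n → Fin n → (Pair n → ℝ) → ℝ} (hf : ∀ i j, EG (f i j))
    (M : Matrix (Fin n) (Fin n) ℝ) (z : Pair n → ℝ) :
    E1 S w m σ N t (fun u => ∑ i, ∑ j, M i j * f i j u) z =
      ∑ i, ∑ j, M i j * E1 S w m σ N t (f i j) z := E1_sum2 hm M hf z

lemma eg_fam (hm : Pm m N) {f : Fin n → Fin n → (Pair n → ℝ) → ℝ} (hf : ∀ i j, EG (f i j))
    (hY : ∀ i j, EG fun z => Y z i j) (c : ℝ) :
    EG fun g : Pair n → ℝ => E1 S w m σ N t (fun u => ∑ i, ∑ j, Y (c • g) i j * f i j u)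
      (c • g) := by
  refine eg_sc (G := fun z => E1 S w m σ N t (fun u => ∑ i, ∑ j, Y z i j * f i j u) z) ?_ c
  have h : (fun z => E1 S w m σ N t (fun u => ∑ i, ∑ j, Y z i j * f i j u) z) = fun z =>
      ∑ i, ∑ j, Y z i j * E1 S w m σ N t (f i j) z := funext fun z => E1_fam hm hf _ z
  rw [h]
  exact EG.sum _ fun i _ => EG.sum _ fun j _ => (hY i j).mul (eg_E1 hm (hf i j))

lemma eg_mm (h : Fam Φ Φ') (t : ℝ) (i j : Fin n) :
    EG fun u => ∑ a, Mt S t (Φ a i) u * Mt S t (Φ a j) u :=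
  EG.sum _ fun a _ => (eg_Mt t (h.eg a i)).mul (eg_Mt t (h.eg a j))

lemma eg_dd2 (h : Fam Φ Φ') (t : ℝ) (i j : Fin n) :
    EG fun u => ∑ e : Pair n, ∑ a, DM S t (Φ a i) (Φ' a i) e u *
      DM S t (Φ a j) (Φ' a j) e u :=
  EG.sum _ fun e _ => EG.sum _ fun a _ =>
    (eg_DM t (h.eg a i) (h.eg' a i) e).mul (eg_DM t (h.eg a j) (h.eg' a j) e)

lemma eg_qMW (h : Fam Φ Φ') (hm : Pm m N) (hY : ∀ i j, EG fun z => Y z i j) (c : ℝ) :
    EG fun g : Pair n → ℝ => E1 S w m σ N t (qM S Φ t (Y (c • g))) (c • g) :=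
  eg_fam hm (eg_mm h t) hY c

lemma eg_EMW (h : Fam Φ Φ') (hm : Pm m N) (hY : ∀ i j, EG fun z => Y z i j) (c : ℝ) :
    EG fun g : Pair n → ℝ => E1 S w m σ N t (EM S Φ Φ' t (Y (c • g))) (c • g) :=
  eg_fam hm (eg_dd2 h t) hY c

lemma qMW_nonneg (hp : ∀ z, Psd (Y z)) (c : ℝ) : 0 ≤ qMW S w m σ N c Φ Y t :=
  integral_nonneg fun g => E1_nonneg (fun u => qM_nonneg (hp (c • g)) t u) (c • g)

lemma EMW_nonneg (hp : ∀ z, Psd (Y z)) (c : ℝ) : 0 ≤ EMW S w m σ N c Φ Φ' Y t :=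
  integral_nonneg fun g => E1_nonneg (fun u => EM_nonneg (hp (c • g)) t u) (c • g)

lemma qM_sub (t : ℝ) (M M' : Matrix (Fin n) (Fin n) ℝ) (u : Pair n → ℝ) :
    qM S Φ t (M' - M) u = qM S Φ t M' u - qM S Φ t M u := by
  unfold qM
  rw [← Finset.sum_sub_distrib]
  refine Finset.sum_congr rfl fun i _ => ?_
  rw [← Finset.sum_sub_distrib]
  exact Finset.sum_congr rfl fun j _ => by
    rw [Matrix.sub_apply]
    ring

/-- the mean of `<Y, M M'>` increases with the time and with the weight -/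
theorem qMW_mono (h : Fam Φ Φ') (hm : Pm m N) (c : ℝ) (hY : ∀ i j, EG fun z => Y z i j)
    (hY' : ∀ i j, EG fun z => Y' z i j) (hpp : ∀ z, Psd (Y' z - Y z)) :
    qMW S w m σ N c Φ Y t ≤ qMW S w m σ N c Φ Y' t := by
  refine integral_mono (eg_qMW h hm hY c).integrable (eg_qMW h hm hY' c).integrable fun g => ?_
  refine E1_mono hm (eg_qM h t _) (eg_qM h t _) (fun u => ?_) (c • g)
  have c1 := qM_nonneg (S := S) (Φ := Φ) (hpp (c • g)) t u
  rw [qM_sub] at c1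
  linarith

/-- **The energy of a family of martingales over one short step.** -/
theorem EMW_le (h : Fam Φ Φ') (hm : Pm m N) (c : ℝ) (hY : ∀ i j, EG fun z => Y z i j)
    (hY' : ∀ i j, EG fun z => Y' z i j) (hp : ∀ z, Psd (Y z)) (hpp : ∀ z, Psd (Y' z - Y z))
    (h1 : w ≤ t) (h2 : t < t') (h3 : t' ≤ 1) (hk : Sh S (t' - t)) :
    (t' - t) * EMW S w m σ N c Φ Φ' Y t ≤
      2 * qMW S w m σ N c Φ Y' t' - 2 * qMW S w m σ N c Φ Y t := by
  have i1 := eg_EMW (S := S) (w := w) (t := t) (σ := σ) h hm hY c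
  have i2 := eg_qMW (S := S) (w := w) (t := t') (σ := σ) h hm hY c
  have i3 := eg_qMW (S := S) (w := w) (t := t) (σ := σ) h hm hY c
  have key : ∀ z, (t' - t) * E1 S w m σ N t (EM S Φ Φ' t (Y z)) z ≤
      2 * (E1 S w m σ N t' (qM S Φ t' (Y z)) z - E1 S w m σ N t (qM S Φ t (Y z)) z) := by
    intro z
    have eq' := eg_Aw S t t' (eg_qM (S := S) h t' (Y z))
    have a1 := E1_mono (S := S) (w := w) (t := t) (σ := σ) hm
      ((eg_EM (S := S) h t (Y z)).const_mul (t' - t))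
      ((eq'.sub (eg_qM h t (Y z))).const_mul 2)
      (fun u => EM_le h (hp z) h2 h3 hk u) z
    rw [E1_const_mul, E1_const_mul, E1_sub hm eq' (eg_qM h t (Y z))] at a1
    have b1 : E1 S w m σ N t (fun u => Aw S t t' (qM S Φ t' (Y z)) u) z =
        E1 S w m σ N t' (qM S Φ t' (Y z)) z :=
      (E1_tower h1 h2.le h3 (eg_qM h t' (Y z)) z).symm
    rw [b1] at a1
    exact a1
  have e1 := integral_mono (i1.const_mul (t' - t)).integrable ((i2.sub i3).const_mul 2).integrable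
    fun g => key (c • g)
  rw [integral_const_mul, integral_const_mul, integral_sub i2.integrable i3.integrable] at e1
  have e2 := qMW_mono (S := S) (w := w) (t := t') (σ := σ) h hm c hY hY' hpp
  have e3 : (t' - t) * EMW S w m σ N c Φ Φ' Y t ≤
      2 * (qMW S w m σ N c Φ Y t' - qMW S w m σ N c Φ Y t) := e1
  linarith

/-- `∑_a <M, (M_a(t') - M_a(t))(..)'>` -/
noncomputable def dqM (S : CS n k x) (Φ : ι → Fin n → (Pair n → ℝ) → ℝ) (t t' : ℝ)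
    (M : Matrix (Fin n) (Fin n) ℝ) (u v : Pair n → ℝ) : ℝ :=
  ∑ i, ∑ j, M i j * ∑ a, (Mt S t' (Φ a i) v - Mt S t (Φ a i) u) *
    (Mt S t' (Φ a j) v - Mt S t (Φ a j) u)

lemma dqM_nonneg (hM : Psd M) (u v : Pair n → ℝ) : 0 ≤ dqM S Φ t t' M u v :=
  psd_fam hM fun a i => Mt S t' (Φ a i) v - Mt S t (Φ a i) u

/-- **The increment of the martingales in the weight is the increment of the mean.** -/
theorem Aw_dqM (h : Fam Φ Φ') (h2 : t ≤ t') (h3 : t' ≤ 1) (M : Matrix (Fin n) (Fin n) ℝ)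
    (u : Pair n → ℝ) :
    Aw S t t' (dqM S Φ t t' M u) u = Aw S t t' (qM S Φ t' M) u - qM S Φ t M u := by
  have hc := c11_uu S.c11 S.x0 t'
  have e0 : ∀ i j a, EG fun v => (Mt S t' (Φ a i) v - Mt S t (Φ a i) u) *
      (Mt S t' (Φ a j) v - Mt S t (Φ a j) u) := fun i j a =>
    ((eg_Mt t' (h.eg a i)).sub (EG.const _)).mul ((eg_Mt t' (h.eg a j)).sub (EG.const _))
  have e1 : ∀ i j a, Aw S t t' (fun v => (Mt S t' (Φ a i) v - Mt S t (Φ a i) u) *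
      (Mt S t' (Φ a j) v - Mt S t (Φ a j) u)) u =
      Aw S t t' (fun v => Mt S t' (Φ a i) v * Mt S t' (Φ a j) v) u -
        Mt S t (Φ a i) u * Mt S t (Φ a j) u := by
    intro i j a
    have h4 := Ax_cov hc (eg_Mt (S := S) t' (h.eg a i)) (eg_Mt (S := S) t' (h.eg a j)) x
      (√(t' - t)) u
    have a1 : Ax x (√(t' - t)) (uu x t' S.F) (Mt S t' (Φ a i)) u = Mt S t (Φ a i) u :=
      (Mt_tw h2 h3 (h.eg a i) u).symm
    have a2 : Ax x (√(t' - t)) (uu x t' S.F) (Mt S t' (Φ a j)) u = Mt S t (Φ a j) u :=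
      (Mt_tw h2 h3 (h.eg a j) u).symm
    rw [a1, a2] at h4
    exact h4
  have b1 : Aw S t t' (dqM S Φ t t' M u) u = ∑ i, ∑ j, M i j *
      Aw S t t' (fun v => ∑ a, (Mt S t' (Φ a i) v - Mt S t (Φ a i) u) *
        (Mt S t' (Φ a j) v - Mt S t (Φ a j) u)) u :=
    Aw_sum2 S t t' M (f := fun i j v => ∑ a, (Mt S t' (Φ a i) v - Mt S t (Φ a i) u) *
        (Mt S t' (Φ a j) v - Mt S t (Φ a j) u)) (fun i j => EG.sum _ fun a _ => e0 i j a) u
  have b2 : Aw S t t' (qM S Φ t' M) u = ∑ i, ∑ j, M i j *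
      Aw S t t' (fun v => ∑ a, Mt S t' (Φ a i) v * Mt S t' (Φ a j) v) u :=
    Aw_sum2 S t t' M (f := fun i j v => ∑ a, Mt S t' (Φ a i) v * Mt S t' (Φ a j) v)
      (fun i j => eg_mm h t' i j) u
  rw [b1, b2]
  unfold qM
  rw [← Finset.sum_sub_distrib]
  refine Finset.sum_congr rfl fun i _ => ?_
  rw [← Finset.sum_sub_distrib]
  refine Finset.sum_congr rfl fun j _ => ?_
  rw [← mul_sub]
  congr 1
  rw [Aw_sum S t t' Finset.univ (φ := fun a v => (Mt S t' (Φ a i) v - Mt S t (Φ a i) u) *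
        (Mt S t' (Φ a j) v - Mt S t (Φ a j) u)) (fun a _ => e0 i j a) u,
    Aw_sum S t t' Finset.univ (φ := fun a v => Mt S t' (Φ a i) v * Mt S t' (Φ a j) v)
      (fun a _ => (eg_Mt t' (h.eg a i)).mul (eg_Mt t' (h.eg a j))) u, ← Finset.sum_sub_distrib]
  exact Finset.sum_congr rfl fun a _ => e1 i j a

/-- **The mean increment with a fixed weight.** -/
theorem E1_dqM (h : Fam Φ Φ') (hm : Pm m N) (h1 : w ≤ t) (h2 : t ≤ t') (h3 : t' ≤ 1)
    (M : Matrix (Fin n) (Fin n) ℝ) (z : Pair n → ℝ) :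
    E1 S w m σ N t (fun u => Aw S t t' (dqM S Φ t t' M u) u) z =
      E1 S w m σ N t' (qM S Φ t' M) z - E1 S w m σ N t (qM S Φ t M) z := by
  have e1 : (fun u => Aw S t t' (dqM S Φ t t' M u) u) = fun u =>
      Aw S t t' (qM S Φ t' M) u - qM S Φ t M u := funext fun u => Aw_dqM h h2 h3 M u
  rw [e1, E1_sub hm (eg_Aw S t t' (eg_qM h t' M)) (eg_qM h t M)]
  congr 1
  exact (E1_tower h1 h2 h3 (eg_qM h t' M) z).symm

/-! ### the same-time rate -/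

/-- `∑_a |M_a|²` -/
noncomputable def nM (S : CS n k x) (Φ : ι → Fin n → (Pair n → ℝ) → ℝ) (t : ℝ)
    (u : Pair n → ℝ) : ℝ := ∑ a, ∑ i, Mt S t (Φ a i) u ^ 2

/-- `∑_e ∑_a |D_e M_a|²` -/
noncomputable def sDM (S : CS n k x) (Φ : ι → Fin n → (Pair n → ℝ) → ℝ)
    (Φ' : ι → Fin n → Pair n → (Pair n → ℝ) → ℝ) (t : ℝ) (u : Pair n → ℝ) : ℝ :=
  ∑ a, ∑ i, ∑ e : Pair n, DM S t (Φ a i) (Φ' a i) e u ^ 2

lemma eg_nM (h : Fam Φ Φ') (t : ℝ) : EG (nM S Φ t) :=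
  EG.sum _ fun a _ => EG.sum _ fun i _ => (eg_Mt t (h.eg a i)).pow 2

lemma eg_sDM (h : Fam Φ Φ') (t : ℝ) : EG (sDM S Φ Φ' t) :=
  EG.sum _ fun a _ => EG.sum _ fun i _ => EG.sum _ fun e _ =>
    (eg_DM t (h.eg a i) (h.eg' a i) e).pow 2

lemma nM_nonneg (t : ℝ) (u : Pair n → ℝ) : 0 ≤ nM S Φ t u :=
  Finset.sum_nonneg fun _ _ => Finset.sum_nonneg fun _ _ => sq_nonneg _

lemma sDM_nonneg (t : ℝ) (u : Pair n → ℝ) : 0 ≤ sDM S Φ Φ' t u :=
  Finset.sum_nonneg fun _ _ => Finset.sum_nonneg fun _ _ => Finset.sum_nonneg fun _ _ =>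
    sq_nonneg _

/-- **One short step at a position, the weight `<M, C_t²>` at the same time.** -/
theorem TM_pos (h : Fam Φ Φ') (hM : Psd M) (h2 : t < t') (h3 : t' ≤ 1) (hk : Sh S (t' - t))
    (u : Pair n → ℝ) :
    (t' - t) / 4 * (qF S t M u * sDM S Φ Φ' t u) ≤
      Aw S t t' (fun v => qF S t' M v * nM S Φ t' v) u - qF S t M u * nM S Φ t u +
      4 * Aw S t t' (fun v => dq S t t' M u v * (nM S Φ t' v + nM S Φ t u)) u := by
  obtain ⟨V, lam, hl, hV⟩ := H499.psd_decomp hM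
  have hc := c11_uu S.c11 S.x0 t'
  set s := √(t' - t) with hs
  have hs2 : s ^ 2 = t' - t := Real.sq_sqrt (by linarith)
  have hs0 : 0 < s := Real.sqrt_pos.2 (by linarith)
  have eψ : ∀ p : Fin n × Fin n, EG fun v => √(lam p.1) * ∑ i, V i p.1 * S.A t' v i p.2 :=
    fun p => (eg_lin t' (fun i => V i p.1) p.2).const_mul _
  have key := lay_en hc x (K := Fin n × Fin n) (K' := ι × Fin n)
    (ψ := fun p v => √(lam p.1) * ∑ i, V i p.1 * S.A t' v i p.2)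
    (φ := fun p v => Mt S t' (Φ p.1 p.2) v)
    (φ' := fun p e v => DM S t' (Φ p.1 p.2) (Φ' p.1 p.2) e v) eψ
    (fun p => eg_Mt t' (h.eg p.1 p.2)) (fun p e => eg_DM t' (h.eg p.1 p.2) (h.eg' p.1 p.2) e)
    (fun p y => fd_Mt t' (h.eg p.1 p.2) (h.eg' p.1 p.2) (h.fd p.1 p.2) y) hs0
    (by rw [hs2]; exact hk) u
  have a1 : ∀ p : Fin n × Fin n, Ax x s (uu x t' S.F)
      (fun v => √(lam p.1) * ∑ i, V i p.1 * S.A t' v i p.2) u =
      √(lam p.1) * ∑ i, V i p.1 * S.A t u i p.2 := by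
    intro p
    rw [H785.Ax_const_mul]
    congr 1
    exact Aw_lin h2.le h3 (fun i => V i p.1) p.2 u
  have a2 : ∀ p : ι × Fin n, Ax x s (uu x t' S.F) (fun v => Mt S t' (Φ p.1 p.2) v) u =
      Mt S t (Φ p.1 p.2) u := fun p => (Mt_tw h2.le h3 (h.eg p.1 p.2) u).symm
  have a3 : ∀ (p : ι × Fin n) (e : Pair n), GA x s (uu x t' S.F) (dd x t' S.F S.D)
      (fun v => Mt S t' (Φ p.1 p.2) v) (fun e v => DM S t' (Φ p.1 p.2) (Φ' p.1 p.2) e v) u e =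
      DM S t (Φ p.1 p.2) (Φ' p.1 p.2) e u := fun p e =>
    GA_Mt h2.le h3 (h.eg p.1 p.2) (h.eg' p.1 p.2) (h.fd p.1 p.2) u e
  simp only [a1, a2, a3] at key
  rw [hs2] at key
  have b1 : ∑ p : Fin n × Fin n, (√(lam p.1) * ∑ i, V i p.1 * S.A t u i p.2) ^ 2 = qF S t M u :=
    (form_pr hl hV (fun i j => S.A t u i j) (S.A_comm t u)).symm
  have b2 : ∀ v, ∑ p : Fin n × Fin n, (√(lam p.1) * ∑ i, V i p.1 * S.A t' v i p.2) ^ 2 =
      qF S t' M v := fun v => (form_pr hl hV (fun i j => S.A t' v i j) (S.A_comm t' v)).symm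
  have b3 : ∀ v, ∑ p : Fin n × Fin n, (√(lam p.1) * ∑ i, V i p.1 * S.A t' v i p.2 -
      √(lam p.1) * ∑ i, V i p.1 * S.A t u i p.2) ^ 2 = dq S t t' M u v := by
    intro v
    have h := form_pr hl hV (fun i j => dA S t t' u v i j) (dA_comm t t' u v)
    refine Eq.trans ?_ h.symm
    refine Finset.sum_congr rfl fun p _ => ?_
    rw [← mul_sub, ← Finset.sum_sub_distrib]
    congr 2
    exact Finset.sum_congr rfl fun i _ => by unfold dA; ring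
  have b4 : ∑ p : ι × Fin n, ∑ e : Pair n, DM S t (Φ p.1 p.2) (Φ' p.1 p.2) e u ^ 2 =
      sDM S Φ Φ' t u := by
    rw [Fintype.sum_prod_type]
    rfl
  have b5 : ∀ t v, ∑ p : ι × Fin n, Mt S t (Φ p.1 p.2) v ^ 2 = nM S Φ t v := by
    intro t v
    rw [Fintype.sum_prod_type]
    rfl
  simp only [b1, b2, b3, b4, b5] at key
  exact key

end Vale.Agent.P146.H946.En2
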