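import Vale.Agent.P146.H946.EnN

/-!
Energy bounds for general martingales in the layered laws: the same-time rate
`E <Y, C_t²> ∑_a |D M_a|²`, integrated; the weight `Q_1(t)`.
-/

open MeasureTheory ProbabilityTheory

namespace Vale.Agent.P146.H946.En2

open Vale.Agent.P157.Lv Vale.Agent.P146.H425 Vale.Agent.P146.H325 Vale.Agent.P146.H332
  Vale.Agent.P146.H712 Vale.Agent.P146.H816 Vale.Agent.P146.R1 Vale.Agent.P146.R1C Matrix
  Vale.Agent.P146.R1S Vale.Agent.P146.H693 Vale.Agent.P146.H655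
open Vale.Agent.P146.H785 (Ax)

set_option linter.unusedSectionVars false

variable {n : ℕ} {k x : ℝ} {S : CS n k x} {w t t' : ℝ} {m σ : ℕ → ℝ} {N : ℕ}
  {M : Matrix (Fin n) (Fin n) ℝ} {ι : Type} [Fintype ι] {Φ : ι → Fin n → (Pair n → ℝ) → ℝ}
  {Φ' : ι → Fin n → Pair n → (Pair n → ℝ) → ℝ}
  {Y Y' : (Pair n → ℝ) → Matrix (Fin n) (Fin n) ℝ}

/-- `E <Y, C_t²> ∑_a |M_a|²` -/
noncomputable def QMW (S : CS n k x) (w : ℝ) (m σ : ℕ → ℝ) (N : ℕ) (c : ℝ)
    (Φ : ι → Fin n → (Pair n → ℝ) → ℝ) (Y : (Pair n → ℝ) → Matrix (Fin n) (Fin n) ℝ)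
    (t : ℝ) : ℝ :=
  ∫ g, E1 S w m σ N t (fun u => qF S t (Y (c • g)) u * nM S Φ t u) (c • g) ∂(gI (Pair n))

/-- `E <Y, C_t²> ∑_e ∑_a |D_e M_a|²` -/
noncomputable def TMW (S : CS n k x) (w : ℝ) (m σ : ℕ → ℝ) (N : ℕ) (c : ℝ)
    (Φ : ι → Fin n → (Pair n → ℝ) → ℝ) (Φ' : ι → Fin n → Pair n → (Pair n → ℝ) → ℝ)
    (Y : (Pair n → ℝ) → Matrix (Fin n) (Fin n) ℝ) (t : ℝ) : ℝ :=
  ∫ g, E1 S w m σ N t (fun u => qF S t (Y (c • g)) u * sDM S Φ Φ' t u) (c • g)
    ∂(gI (Pair n))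

lemma eg_QMW (h : Fam Φ Φ') (hm : Pm m N) (hY : ∀ i j, EG fun z => Y z i j) (c : ℝ) :
    EG fun g : Pair n → ℝ => E1 S w m σ N t (fun u => qF S t (Y (c • g)) u * nM S Φ t u)
      (c • g) := eg_form hm hY (eg_nM h t) c

lemma eg_TMW (h : Fam Φ Φ') (hm : Pm m N) (hY : ∀ i j, EG fun z => Y z i j) (c : ℝ) :
    EG fun g : Pair n → ℝ => E1 S w m σ N t (fun u => qF S t (Y (c • g)) u * sDM S Φ Φ' t u)
      (c • g) := eg_form hm hY (eg_sDM h t) c

lemma QMW_nonneg (c : ℝ) (hp : ∀ z, Psd (Y z)) : 0 ≤ QMW S w m σ N c Φ Y t :=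
  integral_nonneg fun g => E1_nonneg (fun u => mul_nonneg (qF_nonneg (hp (c • g)) u)
    (nM_nonneg t u)) (c • g)

lemma TMW_nonneg (c : ℝ) (hp : ∀ z, Psd (Y z)) : 0 ≤ TMW S w m σ N c Φ Φ' Y t :=
  integral_nonneg fun g => E1_nonneg (fun u => mul_nonneg (qF_nonneg (hp (c • g)) u)
    (sDM_nonneg t u)) (c • g)

/-- the error of the step -/
theorem lastM_le {bM Nb κ : ℝ} (h : Fam Φ Φ') (hκ : 0 ≤ κ)
    (hB : ∀ t u, nM S Φ t u ≤ κ * fr (S.A t u)) (hM : Psd M) (hb : ∀ i j, |M i j| ≤ bM)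
    (hN : 0 ≤ Nb) (t t' : ℝ) (u : Pair n → ℝ) :
    Aw S t t' (fun v => dq S t t' M u v * (nM S Φ t' v + nM S Φ t u)) u ≤
      κ * (2 * Nb * Inc S t t' M u + 4 * (n : ℝ) ^ 5 * bM * (Aw S t t' (bd S Nb t') u +
        bd S Nb t u)) := by
  have hc := c11_uu S.c11 S.x0 t'
  have e1 : EG fun v => dq S t t' M u v * (nM S Φ t' v + nM S Φ t u) :=
    (eg_dq t t' M u).mul ((eg_nM h t').add (EG.const _))
  have e2 : EG fun v => dq S t t' M u v * (fr (S.A t' v) + fr (S.A t u)) :=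
    (eg_dq t t' M u).mul ((eg_frA t').add (EG.const _))
  have h1 : Aw S t t' (fun v => dq S t t' M u v * (nM S Φ t' v + nM S Φ t u)) u ≤
      Aw S t t' (fun v => κ * (dq S t t' M u v * (fr (S.A t' v) + fr (S.A t u)))) u := by
    refine H785.Ax_mono hc.lip hc.B0 e1 (e2.const_mul κ) (fun v => ?_) _ _ u
    have a3 := dq_nonneg (S := S) (t := t) (t' := t') hM u v
    have a4 : nM S Φ t' v + nM S Φ t u ≤ κ * (fr (S.A t' v) + fr (S.A t u)) := by
      have := hB t' v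
      have := hB t u
      linarith
    calc dq S t t' M u v * (nM S Φ t' v + nM S Φ t u) ≤
          dq S t t' M u v * (κ * (fr (S.A t' v) + fr (S.A t u))) :=
          mul_le_mul_of_nonneg_left a4 a3
      _ = _ := by ring
  rw [Aw_const_mul] at h1
  exact h1.trans (mul_le_mul_of_nonneg_left (last_le hM hb hN t t' u) hκ)

/-- **One short step of the same-time rate, integrated.** -/
theorem TMW_le {bY Nb κ : ℝ} (h : Fam Φ Φ') (hκ : 0 ≤ κ)
    (hB : ∀ t u, nM S Φ t u ≤ κ * fr (S.A t u)) (hm : Pm m N) (c : ℝ)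
    (hY : ∀ i j, EG fun z => Y z i j) (hY' : ∀ i j, EG fun z => Y' z i j)
    (hp : ∀ z, Psd (Y z)) (hpp : ∀ z, Psd (Y' z - Y z)) (hb : ∀ z i j, |Y z i j| ≤ bY)
    (hN : 0 ≤ Nb) (h1 : w ≤ t) (h2 : t < t') (h3 : t' ≤ 1) (hk : Sh S (t' - t)) :
    (t' - t) * TMW S w m σ N c Φ Φ' Y t ≤
      4 * (QMW S w m σ N c Φ Y' t' - QMW S w m σ N c Φ Y t) +
      κ * (32 * Nb * IncW S w m σ N c Y t t' + 64 * (n : ℝ) ^ 5 * bY *
        (pB S w m σ N c Nb t' + pB S w m σ N c Nb t)) := by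
  have i1 := eg_TMW (S := S) (w := w) (t := t) (σ := σ) h hm hY c
  have i2 := eg_QMW (S := S) (w := w) (t := t') (σ := σ) h hm hY' c
  have i3 := eg_QMW (S := S) (w := w) (t := t) (σ := σ) h hm hY c
  have i4 := eg_IncW (S := S) (σ := σ) hm c hY h1 h2.le h3
  have i5 := eg_pB (S := S) (w := w) (t := t') (σ := σ) hm c Nb
  have i6 := eg_pB (S := S) (w := w) (t := t) (σ := σ) hm c Nb
  have eqn : ∀ t M, EG fun u => qF S t M u * nM S Φ t u := fun t M =>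
    (eg_qF t M).mul (eg_nM h t)
  have key : ∀ z, (t' - t) * E1 S w m σ N t (fun u => qF S t (Y z) u * sDM S Φ Φ' t u) z ≤
      4 * (E1 S w m σ N t' (fun u => qF S t' (Y' z) u * nM S Φ t' u) z -
        E1 S w m σ N t (fun u => qF S t (Y z) u * nM S Φ t u) z) +
      κ * (32 * Nb * E1 S w m σ N t (Inc S t t' (Y z)) z + 64 * (n : ℝ) ^ 5 * bY *
        (E1 S w m σ N t' (bd S Nb t') z + E1 S w m σ N t (bd S Nb t) z)) := by
    intro z
    have eq' := eg_Aw S t t' (eqn t' (Y z))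
    have eb' := eg_Aw S t t' (eg_bd S Nb t')
    have ei := eg_Inc (S := S) h2.le h3 (Y z)
    have et := (eg_qF (S := S) t (Y z)).mul (eg_sDM (S := S) h t)
    have er := ((ei.const_mul (32 * Nb)).add
        ((eb'.add (eg_bd S Nb t)).const_mul (64 * (n : ℝ) ^ 5 * bY))).const_mul κ
    have a1 := E1_mono (S := S) (w := w) (t := t) (σ := σ) hm (et.const_mul (t' - t))
      (((eq'.sub (eqn t (Y z))).const_mul 4).add er) (fun u => ?_) z
    · rw [E1_const_mul, E1_add hm ((eq'.sub (eqn t (Y z))).const_mul 4) er, E1_const_mul,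
        E1_sub hm eq' (eqn t (Y z)), E1_const_mul, E1_add hm (ei.const_mul _)
        ((eb'.add (eg_bd S Nb t)).const_mul _), E1_const_mul, E1_const_mul,
        E1_add hm eb' (eg_bd S Nb t)] at a1
      have b1 : E1 S w m σ N t (fun u => Aw S t t' (fun u => qF S t' (Y z) u *
          nM S Φ t' u) u) z = E1 S w m σ N t' (fun u => qF S t' (Y z) u * nM S Φ t' u) z :=
        (E1_tower h1 h2.le h3 (eqn t' (Y z)) z).symm
      have b2 : E1 S w m σ N t (fun u => Aw S t t' (bd S Nb t') u) z =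
          E1 S w m σ N t' (bd S Nb t') z := (E1_tower h1 h2.le h3 (eg_bd S Nb t') z).symm
      rw [b1, b2] at a1
      have a2 : E1 S w m σ N t' (fun u => qF S t' (Y z) u * nM S Φ t' u) z ≤
          E1 S w m σ N t' (fun u => qF S t' (Y' z) u * nM S Φ t' u) z := by
        refine E1_mono hm (eqn t' _) (eqn t' _) (fun u => ?_) z
        have c1 := qF_nonneg (S := S) (t := t') (hpp z) u
        have c2 : qF S t' (Y' z - Y z) u = qF S t' (Y' z) u - qF S t' (Y z) u := by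
          unfold qF
          rw [← Finset.sum_sub_distrib]
          refine Finset.sum_congr rfl fun i _ => ?_
          rw [← Finset.sum_sub_distrib]
          exact Finset.sum_congr rfl fun j _ => by
            rw [Matrix.sub_apply]
            ring
        rw [c2] at c1
        exact mul_le_mul_of_nonneg_right (by linarith) (nM_nonneg t' u)
      linarith
    · have h4 := TM_pos (S := S) h (hp z) h2 h3 hk u
      have h5 := lastM_le (S := S) (Φ := Φ) h hκ hB (hp z) (hb z) hN t t' u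
      linarith
  have j1 := (i2.sub i3).const_mul 4
  have j2 := i4.const_mul (32 * Nb)
  have j3 := (i5.add i6).const_mul (64 * (n : ℝ) ^ 5 * bY)
  have j4 := (j2.add j3).const_mul κ
  have e1 := integral_mono (i1.const_mul (t' - t)).integrable (j1.add j4).integrable
    fun g => key (c • g)
  rw [integral_add j1.integrable j4.integrable, integral_const_mul, integral_const_mul,
    integral_const_mul, integral_add j2.integrable j3.integrable, integral_const_mul,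
    integral_const_mul, integral_sub i2.integrable i3.integrable,
    integral_add i5.integrable i6.integrable] at e1
  exact e1

/-! ### the weight `Q_1(t)` -/

/-- `E <Q_1(t), ∑_a M_a M_a'>` -/
noncomputable def qMQ (S : CS n k x) (w : ℝ) (m σ : ℕ → ℝ) (N : ℕ) (c : ℝ)
    (Φ : ι → Fin n → (Pair n → ℝ) → ℝ) (t : ℝ) : ℝ :=
  qMW S w m σ N c Φ (Q1 S w m σ N t) t

/-- `E ∑_e ∑_a <Q_1(t), D_e M_a D_e M_a'>` -/
noncomputable def EMQ (S : CS n k x) (w : ℝ) (m σ : ℕ → ℝ) (N : ℕ) (c : ℝ)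
    (Φ : ι → Fin n → (Pair n → ℝ) → ℝ) (Φ' : ι → Fin n → Pair n → (Pair n → ℝ) → ℝ)
    (t : ℝ) : ℝ :=
  EMW S w m σ N c Φ Φ' (Q1 S w m σ N t) t

lemma qMQ_nonneg (hm : Pm m N) (c : ℝ) : 0 ≤ qMQ S w m σ N c Φ t :=
  qMW_nonneg (fun z => Q1_psd hm z) c

lemma EMQ_nonneg (hm : Pm m N) (c : ℝ) : 0 ≤ EMQ S w m σ N c Φ Φ' t :=
  EMW_nonneg (fun z => Q1_psd hm z) c

/-- **The energy of a family of martingales with the weight `Q_1(t)`, one short step.** -/
theorem EMQ_le (h : Fam Φ Φ') (hm : Pm m N) (c : ℝ) (h1 : w ≤ t) (h2 : t < t') (h3 : t' ≤ 1)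
    (hk : Sh S (t' - t)) :
    (t' - t) * EMQ S w m σ N c Φ Φ' t ≤
      2 * qMQ S w m σ N c Φ t' - 2 * qMQ S w m σ N c Φ t :=
  EMW_le h hm c (fun i j => eg_Q1 hm i j) (fun i j => eg_Q1 hm i j) (fun z => Q1_psd hm z)
    (fun z => Q1_inc hm h1 h2.le h3 z) h1 h2 h3 hk

/-- **The same-time rate with the weight `Q_1(t)`, one short step.** -/
theorem TMQ_le {Nb κ : ℝ} (h : Fam Φ Φ') (hκ : 0 ≤ κ)
    (hB : ∀ t u, nM S Φ t u ≤ κ * fr (S.A t u)) (hm : Pm m N) (c : ℝ) (hN : 0 ≤ Nb)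
    (h1 : w ≤ t) (h2 : t < t') (h3 : t' ≤ 1) (hk : Sh S (t' - t)) :
    (t' - t) * TMW S w m σ N c Φ Φ' (Q1 S w m σ N t) t ≤
      (4 * QMW S w m σ N c Φ (Q1 S w m σ N t') t' + κ * (16 * Nb * NQ S w m σ N c t')) -
      (4 * QMW S w m σ N c Φ (Q1 S w m σ N t) t + κ * (16 * Nb * NQ S w m σ N c t)) +
      κ * (64 * (n : ℝ) ^ 6 * (pB S w m σ N c Nb t' + pB S w m σ N c Nb t)) := by
  have h0 := TMW_le (S := S) (σ := σ) (Nb := Nb) (κ := κ) (Y := Q1 S w m σ N t)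
    (Y' := Q1 S w m σ N t') h hκ hB hm c (fun i j => eg_Q1 hm i j) (fun i j => eg_Q1 hm i j)
    (fun z => Q1_psd hm z) (fun z => Q1_inc hm h1 h2.le h3 z) (fun z i j => abs_Q1 hm z i j)
    hN h1 h2 h3 hk
  have h4 : IncW S w m σ N c (Q1 S w m σ N t) t t' ≤
      (NQ S w m σ N c t' - NQ S w m σ N c t) / 2 :=
    IncQ_le (S := S) (σ := σ) hm c h1 h2.le h3
  have h5 := mul_le_mul_of_nonneg_left h4 (show 0 ≤ κ * (32 * Nb) by positivity)
  have e4 : 64 * (n : ℝ) ^ 5 * n = 64 * (n : ℝ) ^ 6 := by ring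
  rw [e4] at h0
  linarith

end Vale.Agent.P146.H946.En2
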