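import Vale.Agent.P146.H946.EnJ
import Vale.Agent.P146.H376.BFl
import Vale.Agent.P146.H784.GEn

/-!
The SK model has the derivative data of the responses which the comparison of the row averages
(V2) uses.
-/

open MeasureTheory ProbabilityTheory

namespace Vale.Agent.P146.H946.En2

open Vale.Agent.P157.Lv Vale.Agent.P146.H425 Vale.Agent.P146.H325
  Vale.Agent.P146.H712 Vale.Agent.P146.R1 Vale.Agent.P146.R1C Vale.Agent.P146.H706
  Vale.Agent.P146.R1S Vale.Agent.P146.H191 Vale.Agent.P146.H364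
open Vale.Agent.P146.H332

variable {n : ℕ} {k : ℝ}

theorem HS.dHd {x : ℝ} {S : CS n k x} {Φ : Fin n × Fin n → Fin n → (Pair n → ℝ) → ℝ}
    {Φ' : Fin n × Fin n → Fin n → Pair n → (Pair n → ℝ) → ℝ} (h : HS S Φ Φ') (s : ℝ) :
    H376.DHd S s (DH S Φ Φ' s) where
  pd := fun b e i j => h.pd_H s b e i j
  eg := fun b e i j => h.eg_DH s b e i j

theorem dHd_sk {x : ℝ} (hk : 0 < k) (hx : 0 < x) (hx1 : x ≤ 1) (s : ℝ) :
    H376.DHd (skCS n hk hx hx1) s (DH (skCS n hk hx hx1) (gΦ k) (gΦ' k) s) :=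
  (hs_skCS hk hx hx1).dHd s

/-- **(V2) for the SK model**: only the energy of the row matrices is left. -/
theorem v2_sk {q : Par} {G : GD (Pair n)} {s : ℝ} {a : Fin 4 → ℝ} (hk : 0 < k) (hx : 0 < q.x)
    (hx1 : q.x ≤ 1) (hq : q.OkS) (hG : G.Ok) (hr : GRow k q G) (p : ℕ)
    (hp : ((p : ℝ) + 1) ^ 2 * (18 * q.x ^ 2 * k ^ 2 * n) ≤ 1) (hs : 0 < s) :
    ∑ b, ∑ b', EwG q G (skCS n hk hx hx1).F (H376.Gp (skCS n hk hx hx1) s a b b') ≤
      16 * (vr a * EwG q G (skCS n hk hx hx1).F (fun w => sDH (skCS n hk hx hx1) (gΦ k) (gΦ' k) s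
        (H712.lp a w))) +
        4 * ∑ b, EwG q G (skCS n hk hx hx1).F (H376.fM (skCS n hk hx hx1) s a b) +
        (n : ℝ) ^ 2 * ((4 * (n : ℝ) ^ 2 + 4 * (vr a * (324 * k ^ 2 * (n : ℝ) ^ 4))) *
          (3 / 2 ^ p * EwG q G (skCS n hk hx hx1).F (fun _ => 1))) := by
  have h := H376.v2_EwG (a := a) (S := skCS n hk hx hx1) hq hG hr p hp hs
    (dHd_sk hk hx hx1 s) (fun b z => sum_DH_sk hk hx hx1 s b z)
  refine h.trans (le_of_eq ?_)
  have e1 : EwG q G (skCS n hk hx hx1).F (fun w => sDH (skCS n hk hx hx1) (gΦ k) (gΦ' k) s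
      (H712.lp a w)) = ∑ b, EwG q G (skCS n hk hx hx1).F (fun w => ∑ e : Pair n,
        H332.fr (DH (skCS n hk hx hx1) (gΦ k) (gΦ' k) s b e (H712.lp a w))) :=
    EwG_sum (skCS n hk hx hx1).c11 hx hG Finset.univ (f := fun b w => ∑ e : Pair n,
        H332.fr (DH (skCS n hk hx hx1) (gΦ k) (gΦ' k) s b e (H712.lp a w))) fun b _ =>
      eg_lp a (EG.sum _ fun e _ => EG.sum _ fun i _ => EG.sum _ fun j _ =>
        ((hs_skCS hk hx hx1).eg_DH s b e i j).pow 2)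
  rw [e1]

end Vale.Agent.P146.H946.En2
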